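import Crest.Agent.R350.Forr

/-! The subroutines of the quantum algorithm. -/

open Finset

namespace Crest.Agent.R350

variable {K n R B : ℕ}

/-- the cell `p` kills the column `i` -/
def kills (x : Ix K n R B → Bool) (p : P n × P n) (i : P n) : Prop :=
  mark x i (ptr x p.1 p.2 i) = false

/-- the column `i` is not killed by any cell of the history -/
def alive (H : List (P n × P n)) (x : Ix K n R B → Bool) (i : P n) : Prop :=
  ∀ p ∈ H, ¬ kills x p i

lemma det_mp (j a i : P n) :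
    Det (n + 1) (fun x : Ix K n R B → Bool => mark x i (ptr x j a i)) := by
  have h1 : Det (n * 1) (fun x : Ix K n R B → Bool => ptr x j a i) :=
    Det.pi n (fun t => Det.query ((j, Sum.inr (a, Sum.inr (Sum.inl (i, t)))) : Ix K n R B))
  rw [mul_one] at h1
  exact h1.bind (k := fun u x => mark x i u)
    (fun u => Det.query ((i, Sum.inr (u, Sum.inl ())) : Ix K n R B))

lemma det_kills (p : P n × P n) (i : P n) :
    Det (n + 1) (fun x : Ix K n R B → Bool => kills x p i) :=
  (det_mp p.1 p.2 i).map (fun b => b = false)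

lemma det_alive (H : List (P n × P n)) (hH : H.length ≤ n) (i : P n) :
    Det (n * (n + 1)) (fun x : Ix K n R B → Bool => alive H x i) :=
  (Det.listAll (fun p x => ¬ kills x p i) (fun p => (det_kills p i).map Not) H).mono
    (Nat.mul_le_mul_right _ hH)

lemma det_rd (j a : P n) (l : Fin n) (ρ : Fin R) (i s : ℕ) (u : P n) :
    Det B (fun x : Ix K n R B → Bool => rd x j a l ρ i s u) := by
  unfold rd
  split_ifs with h
  · have h1 := Det.pi B (fun t => Det.query
      ((j, Sum.inr (a, Sum.inr (Sum.inr ((l, ρ, ⟨i, h.1⟩, ⟨s, h.2⟩, u), t)))) : Ix K n R B))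
    rw [mul_one] at h1
    exact h1.map (dec B)
  · exact (Det.pure _).mono (Nat.zero_le _)

lemma det_zz (j : P n) (l : Fin n) (ρ : Fin R) (i : ℕ) (u : P n) :
    Det 1 (fun x : Ix K n R B → Bool => zz (zOf x j l ρ) i u) := by
  unfold zz
  split_ifs with h
  · exact (Det.query ((j, Sum.inl (l, ρ, (⟨i, h⟩, u))) : Ix K n R B)).map sgZ
  · exact (Det.pure _).mono (Nat.zero_le _)

lemma det_rule (j a : P n) (l : Fin n) (ρ : Fin R) (i s : ℕ) (u : P n) :
    Det (2 * B + 1)
      (fun x : Ix K n R B → Bool => rule (zOf x j l ρ) (rd x j a l ρ) i s u) := by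
  cases s with
  | zero =>
    refine ((((det_zz j l ρ i u).pair (det_rd j a l ρ (i - 1) n u)).map
      (fun p => p.1 * (if i = 0 then 1 else p.2))).congr (fun x => rfl)).mono (by omega)
  | succ s =>
    simp only [rule]
    split_ifs with h
    · refine ((((det_rd j a l ρ i s (Function.update u ⟨s, h⟩ false)).pair
        (det_rd j a l ρ i s (Function.update u ⟨s, h⟩ true))).map
        (fun p => p.1 + sgZ (u ⟨s, h⟩) * p.2)).congr (fun x => rfl)).mono (by omega)
    · exact (Det.pure _).mono (Nat.zero_le _)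

lemma det_ok (θ : ℝ) (j a : P n) (c : Con K n R) :
    Det (n + 3 * B + R * B + 1) (fun x : Ix K n R B → Bool => ok θ x j a c) := by
  rcases c with a' | i | ⟨l, ρ, i, s, u⟩ | l
  · exact (((Det.query ((j, Sum.inr (a', Sum.inl ())) : Ix K n R B)).map
      (fun b => b = true)).congr (fun x => rfl)).mono (by omega)
  · exact (((det_mp j a i).map (fun b => i = j ∨ b = false)).congr (fun x => rfl)).mono
      (by omega)
  · exact ((((det_rd j a l ρ i s u).pair (det_rule j a l ρ i s u)).map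
      (fun p => p.1 = p.2)).congr (fun x => rfl)).mono (by omega)
  · exact (((Det.pi R (fun ρ => det_rd j a l ρ (K - 1) n (fun _ => false))).map
      (fun w : Fin R → ℤ => θ ≤ sg (a l) * ∑ ρ : Fin R,
        (w ρ : ℝ) / Real.sqrt (2 ^ n) ^ (K + 1))).congr (fun x => rfl)).mono (by omega)

/-- error probability of a search -/
noncomputable def eta (L N : ℕ) : ℝ := (1 - 1 / (8 * ((L : ℝ) + 1) ^ 2)) ^ N

open Classical

/-- search in a finite set with the uniform distribution -/
lemma search_unif {ι : Type} (Ω : Type) [Fintype Ω] [Nonempty Ω] {T : ℕ}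
    (G : Ω → (ι → Bool) → Prop) (hG : ∀ ω, Det T (G ω)) (L N : ℕ)
    (hL : Fintype.card Ω ≤ 9 ^ L) :
    ∃ Ψ : (ι → Bool) → (Option Ω → ℝ) → ℝ, QR (N * (3 ^ L * T)) Ψ ∧ ∀ x, ∃ q ν : ℝ,
      0 ≤ q ∧ 0 ≤ ν ∧
      (∀ f, Ψ x f = ν * f none + q * ∑ ω ∈ univ.filter (fun ω => G ω x), f (some ω)) ∧
      ν + q * (univ.filter (fun ω => G ω x)).card = 1 ∧
      ((∃ ω, G ω x) → ν ≤ eta L N) := by
  obtain ⟨Ψ, hΨ, h⟩ := (QR.unif (ι := ι) Ω).search G hG L N
  rw [zero_add] at hΨ
  refine ⟨Ψ, hΨ, fun x => ?_⟩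
  obtain ⟨q, ν, hq, hν, hf, hb⟩ := h x
  have hc : (0 : ℝ) < Fintype.card Ω := by exact_mod_cast Fintype.card_pos
  have hf' : ∀ f, Ψ x f = ν * f none + q / Fintype.card Ω *
      ∑ ω ∈ univ.filter (fun ω => G ω x), f (some ω) := by
    intro f
    rw [hf, sum_filter]; ring
  refine ⟨q / Fintype.card Ω, ν, by positivity, hν, hf', ?_, fun ⟨ω, hω⟩ => hb ?_⟩
  · have := hf' (fun _ => 1)
    rw [(hΨ.isExp x).const] at this
    simp only [mul_one, sum_const, nsmul_eq_mul] at this
    exact this.symm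
  · have h1 : (1 : ℝ) ≤ ∑ ω, if G ω x then (1 : ℝ) else 0 := by
      have := single_le_sum (f := fun ω => if G ω x then (1 : ℝ) else 0)
        (fun ω _ => by split_ifs <;> norm_num) (mem_univ ω)
      simpa only [hω, if_true] using this
    have h2 : (Fintype.card Ω : ℝ) ≤ 9 ^ L := by exact_mod_cast hL
    rw [← mul_div_assoc, le_div_iff₀ hc]
    nlinarith

/-- verification of a cell -/
lemma verify (θ : ℝ) (j a : P n) (L N : ℕ) (hL : Fintype.card (Con K n R) ≤ 9 ^ L) :
    ∃ Ψ : (Ix K n R B → Bool) → (Bool → ℝ) → ℝ,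
      QR (N * (3 ^ L * (n + 3 * B + R * B + 1))) Ψ ∧ ∀ x,
      ((∀ c, ok θ x j a c) → Ψ x (fun b => if b then 1 else 0) = 1) ∧
      ((¬ ∀ c, ok θ x j a c) → Ψ x (fun b => if b then 1 else 0) ≤ eta L N) := by
  obtain ⟨Ψ, hΨ, h⟩ := search_unif (ι := Ix K n R B) (Con K n R) (fun c x => ¬ ok θ x j a c)
    (fun c => (det_ok θ j a c).map Not) L N hL
  refine ⟨_, hΨ.map (fun o => o.isNone), fun x => ?_⟩
  obtain ⟨q, ν, hq, hν, hf, h1, hb⟩ := h x
  have h2 : Ψ x (fun o => if o.isNone then 1 else 0) = ν := by rw [hf]; simp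
  beta_reduce
  rw [h2]
  refine ⟨fun hc => ?_, fun hc => hb (not_forall.1 hc)⟩
  simpa [hc] using h1

/-- a valid cell -/
def valid (θ : ℝ) (x : Ix K n R B → Bool) (j a : P n) : Prop := ∀ c, ok θ x j a c

lemma valid.alive {θ : ℝ} {x : Ix K n R B → Bool} {j a : P n} (h : valid θ x j a)
    (H : List (P n × P n)) : alive H x j := by
  intro p _ hk
  have := h (Sum.inl (ptr x p.1 p.2 j))
  simp only [ok] at this
  rw [kills, this] at hk
  exact Bool.noConfusion hk

lemma valid.kills {θ : ℝ} {x : Ix K n R B → Bool} {j a : P n} (h : valid θ x j a) (i : P n) :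
    i = j ∨ kills x (j, a) i := h (Sum.inr (Sum.inl i))

lemma valid.phi (hK : 1 ≤ K) {θ : ℝ} {x : Ix K n R B → Bool} {j a : P n} (h : valid θ x j a)
    (l : Fin n) : θ ≤ sg (a l) * ∑ ρ : Fin R, phi (zOf x j l ρ) := by
  have h1 := h (Sum.inr (Sum.inr (Sum.inr l)))
  simp only [ok] at h1
  refine h1.trans (le_of_eq ?_)
  congr 1
  refine sum_congr rfl fun ρ _ => ?_
  rw [trace_sound hK (zOf x j l ρ) (rd x j a l ρ)
    (fun i hi s hs u => h (Sum.inr (Sum.inr (Sum.inl (l, ρ, ⟨i, hi⟩, ⟨s, hs⟩, u)))))]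
  rfl

end Crest.Agent.R350
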