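import Crest.Agent.R350.Alg1

/-! The quantum algorithm for the total function. -/

open Finset Classical

namespace Crest.Agent.R350

variable {K n R B : ℕ}

lemma eta_nonneg (L N : ℕ) : 0 ≤ eta L N := by
  unfold eta
  apply pow_nonneg
  have h : (1 : ℝ) ≤ 8 * ((L : ℝ) + 1) ^ 2 := by
    have : (0 : ℝ) ≤ L := Nat.cast_nonneg L
    nlinarith
  have := (div_le_one (by linarith : (0 : ℝ) < 8 * ((L : ℝ) + 1) ^ 2)).2 h
  linarith

/-- indicator of `true` -/
def indT : Bool → ℝ := fun b => if b then 1 else 0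

lemma indT_nonneg (b : Bool) : 0 ≤ indT b := by cases b <;> simp [indT]

lemma indT_le (b : Bool) : indT b ≤ 1 := by cases b <;> simp [indT]

lemma card_P (n : ℕ) : Fintype.card (P n) = 2 ^ n := by simp

section
variable (hK : 1 ≤ K) (hR : 1 ≤ R) (γ : ℝ) (hγ0 : 0 ≤ γ) (hγ1 : γ ≤ 1) (L N N0 s : ℕ)
  (hL1 : 2 ^ (n + 1) ≤ 9 ^ L) (hL2 : Fintype.card (Con K n R) ≤ 9 ^ L)
  (h1 : eta L N ≤ 1 / 100) (h2 : n * Real.exp (-(N0 * γ ^ 2 / 16)) ≤ 1 / 100)
include hK hR hγ0 hγ1 hL1 hL2 h1 h2

lemma final_stage (H : List (P n × P n)) (hH : H.length ≤ n) :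
    ∃ Ψ : (Ix K n R B → Bool) → (Bool → ℝ) → ℝ,
      QR (N * (3 ^ L * (n * (n + 1))) + (n * (N0 * K) + N * (3 ^ L * (n + 3 * B + R * B + 1)))) Ψ ∧
      ∀ x, ((¬ ∃ j a, valid (γ * R / 2) x j a) → Ψ x indT ≤ eta L N) ∧
        (∀ j a, valid (γ * R / 2) x j a → (univ.filter (fun i => alive H x i)).card ≤ 2 →
          49 / 100 ≤ Ψ x indT) := by
  choose Dec hDec hDec' using fun j => decode (K := K) (n := n) (B := B) hR γ hγ0 hγ1 N0 j
  choose Ver hVer hVer' using fun j a => verify (K := K) (n := n) (R := R) (B := B)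
    (γ * R / 2) j a L N hL2
  obtain ⟨Smp, hSmp, hSmp'⟩ := search_unif (ι := Ix K n R B) (P n) (fun i x => alive H x i)
    (det_alive H hH) L N (by rw [card_P]; exact le_trans (by rw [pow_succ]; omega) hL1)
  have hDV := fun j => (hDec j).bind (Ψ := fun a => Ver j a) (hVer j)
  have hfin := hSmp.bind (T := n * (N0 * K) + N * (3 ^ L * (n + 3 * B + R * B + 1)))
    (Ψ := fun o x (f : Bool → ℝ) => match o with
      | none => f false
      | some j => Dec j x (fun a => Ver j a x f)) (fun o => by
      cases o with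
      | none => exact (QR.pure false).mono (Nat.zero_le _)
      | some j => exact hDV j)
  refine ⟨_, hfin, fun x => ⟨fun hx => ?_, fun j a hv hc => ?_⟩⟩
  · refine (hSmp.isExp x).le_const fun o => ?_
    cases o with
    | none => simpa [indT] using eta_nonneg L N
    | some j =>
      exact ((hDec j).isExp x).le_const fun a => (hVer' j a x).2 fun h => hx ⟨j, a, h⟩
  · obtain ⟨q, ν, hq, hν, hf, hs, hb⟩ := hSmp' x
    have hal := hv.alive H
    have hν' := (hb ⟨j, hal⟩).trans h1
    rw [hf]
    have e1 : 99 / 100 ≤ Dec j x (fun a => Ver j a x indT) := by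
      have e2 := hDec' j x a (hv.phi hK)
      have e3 : Dec j x (fun a' => if a' = a then 1 else 0) ≤ Dec j x (fun a => Ver j a x indT) := by
        refine ((hDec j).isExp x).mono fun a' => ?_
        split_ifs with ha
        · subst ha; exact ((hVer' j a' x).1 hv).ge
        · exact ((hVer j a').isExp x).nonneg indT_nonneg
      linarith
    have e4 : Dec j x (fun a => Ver j a x indT)
        ≤ ∑ i ∈ univ.filter (fun i => alive H x i), Dec i x (fun a => Ver i a x indT) :=
      single_le_sum (f := fun i => Dec i x (fun a => Ver i a x indT))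
        (fun i _ => ((hDec i).isExp x).nonneg fun a => ((hVer i a).isExp x).nonneg indT_nonneg)
        (by simp [hal])
    have e5 : ((univ.filter (fun i => alive H x i)).card : ℝ) ≤ 2 := by exact_mod_cast hc
    have e6 : 99 / 200 ≤ q := by nlinarith
    simp only [indT, Bool.false_eq_true, if_false, mul_zero, zero_add] at e1 e4 ⊢
    nlinarith

lemma pair_search (S : Fin s → Option (P n)) :
    ∃ Ψ : (Ix K n R B → Bool) → (Option (P n × P n) → ℝ) → ℝ,
      QR (N * (3 ^ L * (n * (N0 * K) + s * (n + 1)))) Ψ ∧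
      ∀ x j a, valid (γ * R / 2) x j a → ∀ (h : Option (P n × P n) → ℝ) (c : ℝ), c ≤ 1 →
        0 ≤ h none →
        (∀ p, (∀ t i, S t = some i → i = p.1 ∨ kills x p i) → c ≤ h (some p)) →
        c - eta L N ≤ Ψ x h := by
  choose Dec hDec hDec' using fun j => decode (K := K) (n := n) (B := B) hR γ hγ0 hγ1 N0 j
  obtain ⟨Φ, hΦ, hΦ'⟩ : ∃ Φ : (Ix K n R B → Bool) → (P n × P n → ℝ) → ℝ,
      QR (n * (N0 * K)) Φ ∧ ∀ x f, Φ x f = (∑ j, Dec j x (fun a => f (j, a))) / 2 ^ n := by
    have hΦ := (QR.unif (ι := Ix K n R B) (P n)).bind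
      (Ψ := fun j x (f : P n × P n → ℝ) => Dec j x (fun a => f (j, a)))
      (fun j => (hDec j).map (fun a => (j, a)))
    rw [zero_add] at hΦ
    exact ⟨_, hΦ, fun x f => by simp⟩
  obtain ⟨G, hGd⟩ : ∃ G : P n × P n → (Ix K n R B → Bool) → Prop,
      ∀ p x, G p x ↔ ∀ t i, S t = some i → i = p.1 ∨ kills x p i := ⟨_, fun _ _ => Iff.rfl⟩
  have hG : ∀ p : P n × P n, Det (s * (n + 1)) (G p) := by
    intro p
    refine ((Det.pi s (g := fun t x => ∀ i, S t = some i → i = p.1 ∨ kills x p i)
      (fun t => ?_)).map (fun w => ∀ t, w t)).congr (fun x => propext (hGd p x))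
    cases hS : S t with
    | none => exact ((Det.pure True).congr (fun x => by simp)).mono (Nat.zero_le _)
    | some i => exact ((det_kills p i).map (fun b => i = p.1 ∨ b)).congr (fun x => by simp)
  obtain ⟨Ψ, hΨ, hΨ'⟩ := hΦ.search G hG L N
  refine ⟨Ψ, hΨ, fun x j a hv h c hc h0 hh => ?_⟩
  obtain ⟨q, ν, hq, hν, hf, hb⟩ := hΨ' x
  have hE := hΦ.isExp x
  have hν' : ν ≤ eta L N := by
    apply hb
    have e2 := hDec' j x a (hv.phi hK)
    have e3 : Dec j x (fun a' => if a' = a then 1 else 0) ≤ Dec j x (fun a' =>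
        if G (j, a') x then 1 else 0) := by
      refine ((hDec j).isExp x).mono fun a' => ?_
      by_cases ha : a' = a
      · subst ha
        rw [if_pos rfl, if_pos ((hGd _ _).2 fun t i _ => hv.kills i)]
      · rw [if_neg ha]; split_ifs <;> norm_num
    have e4 := single_le_sum (s := univ) (f := fun j => Dec j x (fun a' =>
        if G (j, a') x then (1 : ℝ) else 0))
        (fun i _ => ((hDec i).isExp x).nonneg fun a => by split_ifs <;> norm_num) (mem_univ j)
    have e5 : (2 : ℝ) ^ (n + 1) ≤ 9 ^ L := by exact_mod_cast hL1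
    rw [hΦ', ← mul_div_assoc, le_div_iff₀ (by positivity)]
    rw [pow_succ] at e5
    have e6 : (0 : ℝ) < 2 ^ n := by positivity
    have e7 : (1 : ℝ) / 2 ≤ ∑ j, Dec j x (fun a' => if G (j, a') x then (1 : ℝ) else 0) := by
      linarith
    nlinarith
  have e7 := hf (fun _ => c)
  rw [(hΨ.isExp x).const] at e7
  have e8 := hE.mono (f := fun p => if G p x then c else 0)
    (g := fun p => if G p x then h (some p) else 0)
    (fun p => by
      split_ifs with hp
      · exact hh p ((hGd _ _).1 hp)
      · exact le_rfl)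
  rw [hf]
  have e9 := mul_le_mul_of_nonneg_left e8 hq
  nlinarith

theorem rounds : ∀ (ρ : ℕ) (H : List (P n × P n)), H.length + ρ ≤ n →
    ∃ Ψ : (Ix K n R B → Bool) → (Bool → ℝ) → ℝ,
      QR (ρ * (s * (N * (3 ^ L * (n * (n + 1)))) + N * (3 ^ L * (n * (N0 * K) + s * (n + 1)))) +
        (N * (3 ^ L * (n * (n + 1))) + (n * (N0 * K) + N * (3 ^ L * (n + 3 * B + R * B + 1))))) Ψ ∧
      ∀ x, ((¬ ∃ j a, valid (γ * R / 2) x j a) → Ψ x indT ≤ eta L N) ∧
        (∀ j a, valid (γ * R / 2) x j a → (univ.filter (fun i => alive H x i)).card ≤ 2 ^ ρ + 1 →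
          49 / 100 - ρ * (eta L N + 4 ^ n * (3 / 4) ^ s) ≤ Ψ x indT) := by
  intro ρ
  induction ρ with
  | zero =>
    intro H hH
    obtain ⟨Ψ, hΨ, h⟩ := final_stage (B := B) hK hR γ hγ0 hγ1 L N N0 hL1 hL2 h1 h2 H hH
    refine ⟨Ψ, hΨ.mono (by omega), fun x => ⟨(h x).1, fun j a hv hc => ?_⟩⟩
    simpa using (h x).2 j a hv hc
  | succ ρ ih =>
    intro H hH
    let H' : Option (P n × P n) → List (P n × P n) := fun o => match o with
      | none => H
      | some p => p :: H
    have hH' : ∀ o, (H' o).length + ρ ≤ n := by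
      intro o; cases o <;> simp only [H', List.length_cons] <;> omega
    choose Ψ hΨ hΨ' using fun o => ih (H' o) (hH' o)
    choose Src hSrc hSrc' using fun S =>
      pair_search (B := B) hK hR γ hγ0 hγ1 L N N0 s hL1 hL2 h1 h2 S
    obtain ⟨Smp, hSmp, hSmp'⟩ := search_unif (ι := Ix K n R B) (P n) (fun i x => alive H x i)
      (det_alive H (by omega)) L N
      (by rw [card_P]; exact le_trans (by rw [pow_succ]; omega) hL1)
    have hPi := QR.pi s (fun _ => hSmp)
    have hall := hPi.bind (fun S => (hSrc S).bind hΨ)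
    refine ⟨_, hall.mono (le_of_eq (by ring)), fun x => ⟨fun hx => ?_,
      fun j a hv hc => ?_⟩⟩
    · exact (hPi.isExp x).le_const fun S => ((hSrc S).isExp x).le_const fun o => (hΨ' o x).1 hx
    · set c : ℝ := 49 / 100 - ρ * (eta L N + 4 ^ n * (3 / 4) ^ s) with hcdef
      have hη := eta_nonneg L N
      have hc1 : c ≤ 1 := by
        have : (0 : ℝ) ≤ ρ * (eta L N + 4 ^ n * (3 / 4) ^ s) := by positivity
        linarith
      set A := (univ.filter (fun i => alive H x i)).card with hA
      let big : P n × P n → Prop := fun p =>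
        A < 2 * (univ.filter (fun i => alive H x i ∧ ¬ (i = p.1 ∨ kills x p i))).card
      let OK : P n × P n → Option (P n) → ℝ := fun p o =>
        if (∀ i, o = some i → i = p.1 ∨ kills x p i) then 1 else 0
      have hOK0 : ∀ p o, 0 ≤ OK p o := fun p o => by simp only [OK]; split_ifs <;> norm_num
      have hpt : ∀ S : Fin s → Option (P n),
          (c - eta L N) - ∑ p ∈ univ.filter big, ∏ t, OK p (S t)
            ≤ Src S x (fun o => Ψ o x indT) := by
        intro S
        have hs0 : 0 ≤ ∑ p ∈ univ.filter big, ∏ t, OK p (S t) :=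
          sum_nonneg fun p _ => prod_nonneg fun t _ => hOK0 p _
        by_cases hb : ∃ p, big p ∧ ∀ t i, S t = some i → i = p.1 ∨ kills x p i
        · obtain ⟨p, hp, hp'⟩ := hb
          have e1 : ∏ t, OK p (S t) = 1 :=
            prod_eq_one fun t _ => by simp only [OK]; rw [if_pos (hp' t)]
          have e2 := single_le_sum (s := univ.filter big) (f := fun p => ∏ t, OK p (S t))
            (fun p _ => prod_nonneg fun t _ => hOK0 p _) (a := p) (by simpa using hp)
          have e3 : 0 ≤ Src S x (fun o => Ψ o x indT) :=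
            ((hSrc S).isExp x).nonneg fun o => ((hΨ o).isExp x).nonneg indT_nonneg
          linarith
        · have e4 := hSrc' S x j a hv (fun o => Ψ o x indT) c hc1
            (((hΨ none).isExp x).nonneg indT_nonneg) (fun p hp => by
              refine (hΨ' (some p) x).2 j a hv ?_
              have hnb : ¬ big p := fun h => hb ⟨p, h, hp⟩
              have hsub : univ.filter (fun i => alive (H' (some p)) x i) ⊆
                  insert p.1 (univ.filter (fun i => alive H x i ∧ ¬ (i = p.1 ∨ kills x p i))) := by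
                intro i hi
                simp only [H', alive, mem_filter, mem_univ, true_and, List.forall_mem_cons] at hi
                simp only [mem_insert, mem_filter, mem_univ, true_and]
                by_cases hi' : i = p.1
                · exact Or.inl hi'
                · exact Or.inr ⟨hi.2, fun h => h.elim hi' hi.1⟩
              have e5 := (card_le_card hsub).trans (card_insert_le _ _)
              simp only [big, not_lt] at hnb
              rw [pow_succ] at hc
              omega)
          linarith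
      have hE := hPi.isExp x
      have e6 := hE.mono hpt
      rw [hE.sub, hE.const, hE.sum] at e6
      have e7 : ∀ p ∈ univ.filter big,
          piF s (fun _ => Smp x) (fun S => ∏ t, OK p (S t)) ≤ (3 / 4) ^ s := by
        intro p hp
        rw [piF_prod s (fun _ => hSmp.isExp x) (fun _ => OK p), prod_const, card_univ,
          Fintype.card_fin]
        refine pow_le_pow_left₀ ((hSmp.isExp x).nonneg (hOK0 p)) ?_ s
        obtain ⟨q, ν, hq, hν, hf, hs, hb⟩ := hSmp' x
        have hν' := (hb ⟨j, hv.alive H⟩).trans h1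
        rw [hf]
        have e8 : OK p none = 1 := by simp [OK]
        have e9 : ∑ i ∈ univ.filter (fun i => alive H x i), OK p (some i)
            = ((univ.filter (fun i => alive H x i ∧ (i = p.1 ∨ kills x p i))).card : ℝ) := by
          simp only [OK, Option.some.injEq, forall_eq', sum_boole, filter_filter]
        have e10 : (univ.filter (fun i => alive H x i ∧ (i = p.1 ∨ kills x p i))).card
            + (univ.filter (fun i => alive H x i ∧ ¬ (i = p.1 ∨ kills x p i))).card = A := by
          rw [← filter_filter, ← filter_filter, card_filter_add_card_filter_not]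
        have e11 : big p := by simpa using hp
        simp only [big] at e11
        have e12 : 2 * ((univ.filter (fun i => alive H x i ∧ (i = p.1 ∨ kills x p i))).card : ℝ)
            ≤ A := by exact_mod_cast (by omega)
        rw [e8, e9]
        rw [← hA] at hs
        nlinarith
      have e13 := sum_le_card_nsmul _ _ _ e7
      have e14 : ((univ.filter big).card : ℝ) ≤ 4 ^ n := by
        have := card_le_univ (univ.filter big)
        rw [Fintype.card_prod, card_P, ← mul_pow] at this
        exact_mod_cast this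
      rw [nsmul_eq_mul] at e13
      have e15 : ((univ.filter big).card : ℝ) * (3 / 4) ^ s ≤ 4 ^ n * (3 / 4) ^ s :=
        mul_le_mul_of_nonneg_right e14 (by positivity)
      push_cast
      beta_reduce at e6 ⊢
      linarith

theorem upper (h3 : n * (eta L N + 4 ^ n * (3 / 4) ^ s) ≤ 1 / 20) :
    ∃ Ψ : (Ix K n R B → Bool) → (Bool → ℝ) → ℝ,
      QR (3 * (n * (s * (N * (3 ^ L * (n * (n + 1)))) +
        N * (3 ^ L * (n * (N0 * K) + s * (n + 1)))) +
        (N * (3 ^ L * (n * (n + 1))) + (n * (N0 * K) + N * (3 ^ L * (n + 3 * B + R * B + 1)))))) Ψ ∧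
      ∀ x, 2 / 3 ≤ Ψ x (fun b => if b = FF (γ * R / 2) x then 1 else 0) := by
  obtain ⟨Ψ, hΨ, h⟩ := rounds (B := B) hK hR γ hγ0 hγ1 L N N0 s hL1 hL2 h1 h2 n [] (by simp)
  have hPi := QR.pi 3 (fun _ => hΨ)
  refine ⟨_, hPi.map (fun ω => decide (∃ t, ω t = true)), fun x => ?_⟩
  have hE := hΨ.isExp x
  have hE3 := hPi.isExp x
  have e1 : piF 3 (fun _ => Ψ x) (fun ω => ∏ t, (1 - indT (ω t))) = (1 - Ψ x indT) ^ 3 := by
    rw [piF_prod 3 (fun _ => hE) (fun _ b => 1 - indT b), prod_const, card_univ,
      Fintype.card_fin, hE.sub, hE.const]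
  have hp1 : Ψ x indT ≤ 1 := hE.le_const indT_le
  beta_reduce
  by_cases hx : ∃ j a, valid (γ * R / 2) x j a
  · have hF : FF (γ * R / 2) x = true := by
      simp only [FF, decide_eq_true_eq]; exact hx
    obtain ⟨j, a, hv⟩ := hx
    have e2 := (h x).2 j a hv (by
      have := card_le_univ (univ.filter (fun i => alive ([] : List (P n × P n)) x i))
      rw [card_P] at this
      omega)
    have e3 : (fun ω : Fin 3 → Bool => if decide (∃ t, ω t = true) = FF (γ * R / 2) x
        then (1 : ℝ) else 0) = fun ω => 1 - ∏ t, (1 - indT (ω t)) := by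
      funext ω
      rw [hF, Fin.prod_univ_three]
      cases h0 : ω 0 <;> cases h1 : ω 1 <;> cases h2 : ω 2 <;>
        simp [Fin.exists_fin_succ, indT, h0, h1, h2]
    rw [e3, hE3.sub, hE3.const, e1]
    have e4 : (1 - Ψ x indT) ^ 3 ≤ (3 / 5) ^ 3 :=
      pow_le_pow_left₀ (by linarith) (by linarith) 3
    linarith
  · have hF : FF (γ * R / 2) x = false := by
      simp only [FF, decide_eq_false_iff_not]; exact hx
    have e2 := ((h x).1 hx).trans h1
    have e3 : (fun ω : Fin 3 → Bool => if decide (∃ t, ω t = true) = FF (γ * R / 2) x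
        then (1 : ℝ) else 0) = fun ω => ∏ t, (1 - indT (ω t)) := by
      funext ω
      rw [hF, Fin.prod_univ_three]
      cases h0 : ω 0 <;> cases h1 : ω 1 <;> cases h2 : ω 2 <;>
        simp [Fin.exists_fin_succ, indT, h0, h1, h2]
    rw [e3, e1]
    have e4 : ((99 : ℝ) / 100) ^ 3 ≤ (1 - Ψ x indT) ^ 3 :=
      pow_le_pow_left₀ (by linarith) (by linarith) 3
    linarith

end

end Crest.Agent.R350
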