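import Crest.Agent.R350.Defs

/-! Tools for the randomized lower bound: product expectations, hybrids, read counts. -/

open Finset

namespace Crest.Agent.R350

open Crest.MathPhysics.Query

section Ex

variable {I W : Type} [Fintype I] [DecidableEq I] [Fintype W]

/-- expectation under product weights -/
noncomputable def Ex (c : I → W → ℝ) (F : (I → W) → ℝ) : ℝ := ∑ ζ : I → W, (∏ i, c i (ζ i)) * F ζ

theorem Ex_prod (c f : I → W → ℝ) :
    Ex c (fun ζ => ∏ i, f i (ζ i)) = ∏ i, ∑ w, c i w * f i w := by
  classical
  rw [Finset.prod_univ_sum, Fintype.piFinset_univ]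
  simp only [Ex, Finset.prod_mul_distrib]

theorem Ex_const (c : I → W → ℝ) (h1 : ∀ i, ∑ w, c i w = 1) (a : ℝ) : Ex c (fun _ => a) = a := by
  have := Ex_prod c (fun _ _ => 1)
  simp only [Finset.prod_const_one, mul_one, h1, Ex] at this
  simp only [Ex, ← Finset.sum_mul, this, one_mul]

theorem Ex_mono (c : I → W → ℝ) (h0 : ∀ i w, 0 ≤ c i w) {F G : (I → W) → ℝ}
    (h : ∀ ζ, F ζ ≤ G ζ) : Ex c F ≤ Ex c G :=
  Finset.sum_le_sum (fun ζ _ => mul_le_mul_of_nonneg_left (h ζ)
    (Finset.prod_nonneg (fun i _ => h0 i _)))

theorem Ex_add (c : I → W → ℝ) (F G : (I → W) → ℝ) :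
    Ex c (fun ζ => F ζ + G ζ) = Ex c F + Ex c G := by
  simp only [Ex, mul_add, Finset.sum_add_distrib]

theorem Ex_mul (c : I → W → ℝ) (a : ℝ) (F : (I → W) → ℝ) :
    Ex c (fun ζ => a * F ζ) = a * Ex c F := by
  simp only [Ex, Finset.mul_sum, mul_left_comm]

theorem Ex_sum {J : Type} (s : Finset J) (c : I → W → ℝ) (F : J → (I → W) → ℝ) :
    Ex c (fun ζ => ∑ j ∈ s, F j ζ) = ∑ j ∈ s, Ex c (F j) := by
  simp only [Ex, Finset.mul_sum]
  exact Finset.sum_comm

theorem Ex_update (c : I → W → ℝ) (i : I) (h1 : ∑ w, c i w = 1) (c' : W → ℝ)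
    (F : (I → W) → ℝ) :
    Ex (Function.update c i c') F = Ex c (fun ζ => ∑ w, c' w * F (Function.update ζ i w)) := by
  let σ : (I → W) × W ≃ (I → W) × W :=
    { toFun := fun p => (Function.update p.1 i p.2, p.1 i)
      invFun := fun p => (Function.update p.1 i p.2, p.1 i)
      left_inv := fun p => by simp
      right_inv := fun p => by simp }
  have e1 : ∀ (b : I → W → ℝ) (ζ : I → W),
      ∏ k, b k (ζ k) = b i (ζ i) * ∏ k ∈ univ.erase i, b k (ζ k) := fun b ζ =>
    (Finset.mul_prod_erase _ _ (mem_univ i)).symm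
  simp only [Ex, Finset.mul_sum]
  rw [← Fintype.sum_prod_type', ← Equiv.sum_comp σ, Fintype.sum_prod_type]
  refine Finset.sum_congr rfl (fun ζ _ => ?_)
  have e2 : ∀ w, ∏ k ∈ univ.erase i, c k (Function.update ζ i w k) =
      ∏ k ∈ univ.erase i, c k (ζ k) := fun w =>
    Finset.prod_congr rfl (fun k hk => by rw [Function.update_of_ne (ne_of_mem_erase hk)])
  have e3 : ∏ k ∈ univ.erase i, Function.update c i c' k (ζ k) =
      ∏ k ∈ univ.erase i, c k (ζ k) :=
    Finset.prod_congr rfl (fun k hk => by rw [Function.update_of_ne (ne_of_mem_erase hk)])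
  simp only [σ, Equiv.coe_fn_mk, Function.update_idem, Function.update_eq_self, e1 c, e2,
    e1 (Function.update c i c'), e3, Function.update_self]
  rw [← Finset.sum_mul, ← Finset.sum_mul, h1]
  ring

theorem Ex_resample (c : I → W → ℝ) (i : I) (h1 : ∑ w, c i w = 1) (F : (I → W) → ℝ) :
    Ex c F = Ex c (fun ζ => ∑ w, c i w * F (Function.update ζ i w)) := by
  rw [← Ex_update c i h1, Function.update_eq_self]

theorem Ex_hybrid (c u : I → W → ℝ) (hc0 : ∀ i w, 0 ≤ c i w) (hc1 : ∀ i, ∑ w, c i w = 1)
    (hu0 : ∀ i w, 0 ≤ u i w) (hu1 : ∀ i, ∑ w, u i w = 1) (F : (I → W) → ℝ) (ε : ℝ)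
    (h : ∀ i ζ, ∑ w, c i w * F (Function.update ζ i w) ≤
      ∑ w, u i w * F (Function.update ζ i w) + ε) :
    Ex c F ≤ Ex u F + Fintype.card I * ε := by
  have key : ∀ s : Finset I, Ex (fun i => if i ∈ s then c i else u i) F ≤ Ex u F + s.card * ε := by
    intro s
    induction s using Finset.induction_on with
    | empty => simp
    | insert i s hi ih =>
      have h0 : ∀ k w, 0 ≤ (if k ∈ s then c k else u k) w := fun k w => by
        split_ifs
        · exact hc0 _ _
        · exact hu0 _ _
      have h1 : ∀ k, ∑ w, (if k ∈ s then c k else u k) w = 1 := fun k => by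
        split_ifs
        · exact hc1 _
        · exact hu1 _
      have e : (fun k => if k ∈ insert i s then c k else u k) =
          Function.update (fun k => if k ∈ s then c k else u k) i (c i) := by
        funext k
        by_cases hk : k = i
        · subst hk; simp
        · simp [hk]
      rw [e, Ex_update _ i (h1 i), card_insert_of_notMem hi]
      have h2 := Ex_mono _ h0 (h i)
      rw [Ex_add, Ex_const _ h1] at h2
      rw [Ex_resample _ i (h1 i)] at ih
      simp only [if_neg hi] at ih
      push_cast
      linarith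
  simpa using key univ

end Ex

theorem DT.succ {ι : Type} {d : ℕ} {g : (ι → Bool) → ℝ} (h : DT d g) : DT (d + 1) g := by
  induction h with
  | const d c h => exact DT.const _ c h
  | node d v g0 g1 _ _ ih0 ih1 => exact DT.node _ v g0 g1 ih0 ih1

section Trees

variable {N : ℕ} {J A : Type} [DecidableEq J] [DecidableEq A]

/-- number of reads in block `j` -/
def reads (blk : Fin N → J) (j : J) (y : Fin N → Bool) : DTree N → ℕ
  | .answer _ => 0
  | .read t T0 T1 =>
      (if blk t = j then 1 else 0) + if y t then reads blk j y T1 else reads blk j y T0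

/-- the cell `(j, a)` is read within the first `b` reads of block `j` -/
def hit (blk : Fin N → J) (cell : Fin N → Option A) (j : J) (a : A) (y : Fin N → Bool) :
    DTree N → ℕ → ℝ
  | .answer _, _ => 0
  | .read t T0 T1, 0 =>
      if blk t = j then 0 else if y t then hit blk cell j a y T1 0 else hit blk cell j a y T0 0
  | .read t T0 T1, b + 1 =>
      if blk t = j then
        (if cell t = some a then 1 else
          if y t then hit blk cell j a y T1 b else hit blk cell j a y T0 b)
      else if y t then hit blk cell j a y T1 (b + 1) else hit blk cell j a y T0 (b + 1)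

theorem sum_reads_le [Fintype J] (blk : Fin N → J) (y : Fin N → Bool) (T : DTree N) :
    ∑ j, reads blk j y T ≤ T.depth := by
  induction T with
  | answer b => simp [reads]
  | read t T0 T1 ih0 ih1 =>
    simp only [reads, Finset.sum_add_distrib, Finset.sum_ite_eq, mem_univ, if_true, DTree.depth]
    cases y t
    · simp only [Bool.false_eq_true, if_false]; omega
    · simp only [if_true]; omega

theorem hit_nonneg (blk : Fin N → J) (cell : Fin N → Option A) (j : J) (a : A)
    (y : Fin N → Bool) (T : DTree N) (b : ℕ) : 0 ≤ hit blk cell j a y T b := by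
  induction T generalizing b with
  | answer b => simp [hit]
  | read t T0 T1 ih0 ih1 =>
    cases b <;> simp only [hit] <;> split_ifs <;> first | exact ih0 _ | exact ih1 _ | norm_num

theorem sum_hit_le [Fintype A] (blk : Fin N → J) (cell : Fin N → Option A) (j : J)
    (y : Fin N → Bool) (T : DTree N) (b : ℕ) : ∑ a, hit blk cell j a y T b ≤ b := by
  induction T generalizing b with
  | answer b => simp [hit]
  | read t T0 T1 ih0 ih1 =>
    cases b with
    | zero =>
      simp only [hit]
      split_ifs
      · simp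
      · exact ih1 0
      · exact ih0 0
    | succ b =>
      simp only [hit]
      by_cases h1 : blk t = j
      · simp only [if_pos h1]
        have h2 : ∑ a : A, (if cell t = some a then (1 : ℝ) else 0) ≤ 1 := by
          cases cell t with
          | none => simp
          | some a => simp
        have h3 : ∑ a : A, (if y t then hit blk cell j a y T1 b else hit blk cell j a y T0 b) ≤
            b := by
          split_ifs
          · exact ih1 b
          · exact ih0 b
        refine le_trans (Finset.sum_le_sum (g := fun a => (if cell t = some a then (1 : ℝ) else 0) +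
          (if y t then hit blk cell j a y T1 b else hit blk cell j a y T0 b)) (fun a _ => ?_)) ?_
        · have := hit_nonneg blk cell j a y T0 b
          have := hit_nonneg blk cell j a y T1 b
          split_ifs <;> linarith
        · rw [Finset.sum_add_distrib]
          push_cast
          linarith
      · simp only [if_neg h1]
        split_ifs
        · exact ih1 (b + 1)
        · exact ih0 (b + 1)

theorem reads_or_hit (blk : Fin N → J) (cell : Fin N → Option A) (j : J) (a : A)
    (y y' y'' : Fin N → Bool) (h' : ∀ t, ¬ (blk t = j ∧ cell t = some a) → y' t = y t)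
    (h'' : ∀ t, ¬ (blk t = j ∧ cell t = some a) → y'' t = y t) (T : DTree N) (b : ℕ)
    (h : T.eval y ≠ T.eval y') : b < reads blk j y T ∨ hit blk cell j a y'' T b = 1 := by
  induction T generalizing b with
  | answer b => exact (h rfl).elim
  | read t T0 T1 ih0 ih1 =>
    by_cases h1 : blk t = j
    · cases b with
      | zero => left; simp only [reads, if_pos h1]; omega
      | succ b =>
        by_cases h2 : cell t = some a
        · right; simp only [hit, if_pos h1, if_pos h2]
        · have e' := h' t (fun h => h2 h.2)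
          have e'' := h'' t (fun h => h2 h.2)
          simp only [DTree.eval, e'] at h
          simp only [hit, reads, if_pos h1, if_neg h2, e'']
          split_ifs at h ⊢
          · exact (ih1 b h).imp_left (by omega)
          · exact (ih0 b h).imp_left (by omega)
    · have e' := h' t (fun h => h1 h.1)
      have e'' := h'' t (fun h => h1 h.1)
      simp only [DTree.eval, e'] at h
      cases b <;> simp only [hit, reads, if_neg h1, e'', zero_add] <;> split_ifs at h ⊢
      · exact ih1 _ h
      · exact ih0 _ h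
      · exact ih1 _ h
      · exact ih0 _ h

theorem DT_hit {V : Type} (blk : Fin N → J) (cell : Fin N → Option A) (j : J) (a : A)
    (y : (V → Bool) → Fin N → Bool)
    (hy : ∀ t, (∃ c, ∀ w, y w t = c) ∨ (blk t = j ∧ ∃ v, ∀ w, y w t = w v)) (T : DTree N)
    (b : ℕ) : DT b (fun w => hit blk cell j a (y w) T b) := by
  induction T generalizing b with
  | answer c => exact DT.const _ 0 (by simp)
  | read t T0 T1 ih0 ih1 =>
    by_cases h1 : blk t = j
    · cases b with
      | zero => simp only [hit, if_pos h1]; exact DT.const _ 0 (by simp)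
      | succ b =>
        by_cases h2 : cell t = some a
        · simp only [hit, if_pos h1, if_pos h2]; exact DT.const _ 1 (by simp)
        · simp only [hit, if_pos h1, if_neg h2]
          rcases hy t with ⟨c, hc⟩ | ⟨-, v, hv⟩
          · simp only [hc]
            cases c
            · exact (ih0 b).succ
            · exact (ih1 b).succ
          · simp only [hv]
            exact DT.node _ v _ _ (ih0 b) (ih1 b)
    · rcases hy t with ⟨c, hc⟩ | ⟨h, -⟩
      · cases b <;> simp only [hit, if_neg h1, hc] <;> cases c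
        · exact ih0 _
        · exact ih1 _
        · exact ih0 _
        · exact ih1 _
      · exact (h1 h).elim

end Trees

theorem chernoff {L Rr W : Type} [Fintype L] [DecidableEq L] [Fintype Rr] [DecidableEq Rr]
    [Fintype W] (c f : L → W → ℝ) (hc0 : ∀ l w, 0 ≤ c l w) (hc1 : ∀ l, ∑ w, c l w = 1)
    (hf : ∀ l w, |f l w| ≤ 1) (γ : ℝ) (hγ : 0 < γ) (hγ1 : γ ≤ 1)
    (hsig : ∀ l, 3 * γ / 4 ≤ ∑ w, c l w * f l w) (F : (L × Rr → W) → ℝ) (hF1 : ∀ ζ, F ζ ≤ 1)
    (hF : ∀ ζ, (∀ l, γ * Fintype.card Rr / 2 ≤ ∑ ρ, f l (ζ (l, ρ))) → F ζ ≤ 0) :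
    Ex (fun i : L × Rr => c i.1) F ≤
      Fintype.card L * Real.exp (-(Fintype.card Rr * γ ^ 2 / 64)) := by
  set h : ℝ := γ / 8 with hh
  have hh0 : 0 < h := by positivity
  have h1 : ∀ ζ, F ζ ≤ ∑ l, Real.exp (h * (γ * Fintype.card Rr / 2)) *
      ∏ i : L × Rr, (if i.1 = l then Real.exp (-(h * f l (ζ i))) else 1) := by
    intro ζ
    have e : ∀ l, ∏ i : L × Rr, (if i.1 = l then Real.exp (-(h * f l (ζ i))) else 1) =
        Real.exp (-(h * ∑ ρ, f l (ζ (l, ρ)))) := by
      intro l
      rw [Fintype.prod_prod_type, Finset.prod_comm]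
      simp only [Finset.prod_ite_eq', mem_univ, if_true]
      rw [← Real.exp_sum, Finset.mul_sum, Finset.sum_neg_distrib]
    simp only [e, ← Real.exp_add]
    by_cases hg : ∀ l, γ * Fintype.card Rr / 2 ≤ ∑ ρ, f l (ζ (l, ρ))
    · exact (hF ζ hg).trans (Finset.sum_nonneg (fun l _ => (Real.exp_pos _).le))
    · push Not at hg
      obtain ⟨l, hl⟩ := hg
      refine (hF1 ζ).trans (le_trans ?_ (Finset.single_le_sum
        (f := fun l => Real.exp (h * (γ * Fintype.card Rr / 2) + -(h * ∑ ρ, f l (ζ (l, ρ)))))
        (fun l _ => (Real.exp_pos _).le) (mem_univ l)))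
      refine Real.one_le_exp ?_
      nlinarith
  refine (Ex_mono _ (fun i w => hc0 _ _) h1).trans ?_
  rw [Ex_sum, ← Finset.card_univ (α := L), ← nsmul_eq_mul]
  refine Finset.sum_le_card_nsmul _ _ _ (fun l _ => ?_)
  rw [Ex_mul, Ex_prod (fun i : L × Rr => c i.1)
    (fun i w => if i.1 = l then Real.exp (-(h * f l w)) else 1)]
  have h2 : ∑ w, c l w * Real.exp (-(h * f l w)) ≤ Real.exp (h ^ 2 - h * (3 * γ / 4)) := by
    have h3 : ∀ w, c l w * Real.exp (-(h * f l w)) ≤ c l w * (1 + h ^ 2) - h * (c l w * f l w) := by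
      intro w
      have h4 := hf l w
      have h5 : |-(h * f l w)| ≤ h := by
        rw [abs_neg, abs_mul, abs_of_pos hh0]
        nlinarith
      have h6 := Real.abs_exp_sub_one_sub_id_le (h5.trans (by linarith))
      have h7 : (-(h * f l w)) ^ 2 ≤ h ^ 2 := by
        rw [← sq_abs]
        exact pow_le_pow_left₀ (abs_nonneg _) h5 2
      have h8 := (abs_le.1 h6).2
      have h9 : Real.exp (-(h * f l w)) ≤ 1 + h ^ 2 - h * f l w := by linarith
      have := mul_le_mul_of_nonneg_left h9 (hc0 l w)
      linarith
    refine (Finset.sum_le_sum (fun w _ => h3 w)).trans ?_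
    rw [Finset.sum_sub_distrib, ← Finset.sum_mul, ← Finset.mul_sum, hc1]
    have := Real.add_one_le_exp (h ^ 2 - h * (3 * γ / 4))
    have := mul_le_mul_of_nonneg_left (hsig l) hh0.le
    linarith
  have h3 : ∏ i : L × Rr, ∑ w, c i.1 w * (if i.1 = l then Real.exp (-(h * f l w)) else 1) ≤
      ∏ i : L × Rr, (if i.1 = l then Real.exp (h ^ 2 - h * (3 * γ / 4)) else 1) := by
    refine Finset.prod_le_prod (fun i _ => Finset.sum_nonneg (fun w _ => mul_nonneg (hc0 _ _) ?_))
      (fun i _ => ?_)
    · split_ifs
      · exact (Real.exp_pos _).le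
      · exact zero_le_one
    · split_ifs with hi
      · rw [hi]; exact h2
      · simp [hc1]
  refine (mul_le_mul_of_nonneg_left h3 (Real.exp_pos _).le).trans (le_of_eq ?_)
  rw [Fintype.prod_prod_type, Finset.prod_comm]
  simp only [Finset.prod_ite_eq', mem_univ, if_true, Finset.prod_const, Finset.card_univ]
  rw [← Real.exp_nat_mul, ← Real.exp_add, hh]
  congr 1
  ring

end Crest.Agent.R350
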