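import Crest.Agent.R350.Trace
import Crest.Agent.R350.LowerAux

/-! The randomized lower bound for the total function. -/

open Finset

namespace Crest.Agent.R350

open Crest.MathPhysics.Query

section
variable {K n R B : ℕ}

/-- the random data: a position and the forrelation bits of each candidate -/
abbrev Om (K n R : ℕ) : Type := P n → P n × (Fin n × Fin R → Fin K × P n → Bool)

/-- the cell an input bit belongs to -/
def cellOf : Ix K n R B → Option (P n)
  | (_, Sum.inl _) => none
  | (_, Sum.inr (a, _)) => some a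

/-- the negative input -/
def xIn (ω : Om K n R) : Ix K n R B → Bool
  | (j, Sum.inl (l, ρ, v)) => (ω j).2 (l, ρ) v
  | (j, Sum.inr (a, Sum.inl _)) => decide (a ≠ (ω j).1)
  | (_, Sum.inr (_, Sum.inr _)) => false

/-- the negative input with all cells of block `j₀` blank -/
def xBl (ω : Om K n R) (j₀ : P n) : Ix K n R B → Bool
  | (j, Sum.inl (l, ρ, v)) => (ω j).2 (l, ρ) v
  | (j, Sum.inr (a, Sum.inl _)) => if j = j₀ then true else decide (a ≠ (ω j).1)
  | (_, Sum.inr (_, Sum.inr _)) => false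

/-- the positive input: the distinguished cell of block `j₀` is filled in -/
def xPos (tb : (Fin K × P n → Bool) → Fin K → Fin (n + 1) → P n → Fin B → Bool)
    (ω : Om K n R) (j₀ : P n) : Ix K n R B → Bool
  | (j, Sum.inl (l, ρ, v)) => (ω j).2 (l, ρ) v
  | (j, Sum.inr (a, Sum.inl _)) => if j = j₀ then true else decide (a ≠ (ω j).1)
  | (j, Sum.inr (a, Sum.inr (Sum.inl (i, t)))) =>
      if j = j₀ ∧ a = (ω j₀).1 then (ω i).1 t else false
  | (j, Sum.inr (a, Sum.inr (Sum.inr ((l, ρ, i, s, u), t)))) =>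
      if j = j₀ ∧ a = (ω j₀).1 then tb ((ω j₀).2 (l, ρ)) i s u t else false

theorem FF_xIn (θ : ℝ) (ω : Om K n R) : FF θ (xIn (B := B) ω) = false := by
  simp only [FF, decide_eq_false_iff_not]
  rintro ⟨j, a, h⟩
  have := h (Sum.inl (ω j).1)
  simp [ok, mark, xIn] at this

theorem xBl_eq (ω : Om K n R) (j : P n) (v : Ix K n R B)
    (h : ¬ (v.1 = j ∧ cellOf v = some (ω j).1)) : xBl ω j v = xIn ω v := by
  rcases v with ⟨i, ⟨l, ρ, v⟩ | ⟨a, _ | _⟩⟩
  · rfl
  · simp only [xBl, xIn]
    split_ifs with hi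
    · subst hi
      simp only [cellOf, true_and, Option.some.injEq] at h
      simp [h]
    · rfl
  · rfl

theorem xPos_eq (tb : (Fin K × P n → Bool) → Fin K → Fin (n + 1) → P n → Fin B → Bool)
    (ω : Om K n R) (j : P n) (v : Ix K n R B)
    (h : ¬ (v.1 = j ∧ cellOf v = some (ω j).1)) : xPos tb ω j v = xIn ω v := by
  rcases v with ⟨i, ⟨l, ρ, v⟩ | ⟨a, _ | ⟨i', t⟩ | ⟨⟨l, ρ, i', s, u⟩, t⟩⟩⟩
  · rfl
  · simp only [xPos, xIn]
    split_ifs with hi
    · subst hi
      simp only [cellOf, true_and, Option.some.injEq] at h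
      simp [h]
    · rfl
  · simp only [cellOf, Option.some.injEq] at h
    simp only [xPos, xIn, if_neg h]
  · simp only [cellOf, Option.some.injEq] at h
    simp only [xPos, xIn, if_neg h]

theorem FF_xPos (hK : 1 ≤ K)
    (tb : (Fin K × P n → Bool) → Fin K → Fin (n + 1) → P n → Fin B → Bool)
    (htb : ∀ z, ∀ w : ℕ → ℕ → P n → ℤ,
      (∀ i s u, w i s u = if h : i < K ∧ s < n + 1 then dec B (tb z ⟨i, h.1⟩ ⟨s, h.2⟩ u) else 0) →
      ∀ i < K, ∀ s < n + 1, ∀ u, w i s u = rule z w i s u)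
    (θ : ℝ) (ω : Om K n R) (j : P n)
    (h : ∀ l, θ ≤ ∑ ρ, sg ((ω j).1 l) * phi ((ω j).2 (l, ρ))) :
    FF θ (xPos tb ω j) = true := by
  simp only [FF, decide_eq_true_eq]
  have hz : ∀ l ρ, zOf (xPos tb ω j) j l ρ = (ω j).2 (l, ρ) := fun l ρ => rfl
  have hrule : ∀ l ρ, ∀ i < K, ∀ s < n + 1, ∀ u, rd (xPos tb ω j) j (ω j).1 l ρ i s u =
      rule ((ω j).2 (l, ρ)) (rd (xPos tb ω j) j (ω j).1 l ρ) i s u := fun l ρ =>
    htb _ _ (fun i s u => by simp [rd, xPos])
  refine ⟨j, (ω j).1, ?_⟩
  rintro (a | i | ⟨l, ρ, i, s, u⟩ | l)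
  · simp [ok, mark, xPos]
  · have e : ptr (xPos tb ω j) j (ω j).1 i = (ω i).1 := by
      funext t; simp [ptr, xPos]
    by_cases hi : i = j
    · exact Or.inl hi
    · right
      simp [e, mark, xPos, hi]
  · simp only [ok, hz]
    exact hrule l ρ i i.2 s s.2 u
  · simp only [ok]
    refine (h l).trans (le_of_eq ?_)
    rw [Finset.mul_sum]
    refine Finset.sum_congr rfl (fun ρ _ => ?_)
    rw [trace_sound hK _ _ (hrule l ρ), phi]

theorem xBl_update (ω : Om K n R) (j a : P n) (ζ : Fin n × Fin R → Fin K × P n → Bool) :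
    xBl (B := B) (Function.update ω j (a, ζ)) j =
      xBl (Function.update ω j (fun _ => false, ζ)) j := by
  funext v
  rcases v with ⟨i, ⟨l, ρ, v⟩ | ⟨a, _ | _⟩⟩
  · by_cases hi : i = j
    · subst hi; simp [xBl]
    · simp [xBl, hi]
  · by_cases hi : i = j
    · subst hi; simp [xBl]
    · simp [xBl, hi]
  · rfl

theorem xBl_dep (ω : Om K n R) (j a : P n) (ζ : Fin n × Fin R → Fin K × P n → Bool)
    (i : Fin n × Fin R) (v : Ix K n R B) :
    (∃ c, ∀ w, xBl (Function.update ω j (a, Function.update ζ i w)) j v = c) ∨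
      (v.1 = j ∧ ∃ u, ∀ w, xBl (Function.update ω j (a, Function.update ζ i w)) j v = w u) := by
  rcases v with ⟨k, ⟨l, ρ, v⟩ | ⟨a', _ | _⟩⟩
  · by_cases hk : k = j
    · subst hk
      by_cases hi : (l, ρ) = i
      · subst hi
        exact Or.inr ⟨rfl, v, fun w => by simp [xBl]⟩
      · exact Or.inl ⟨ζ (l, ρ) v, fun w => by simp [xBl, hi]⟩
    · exact Or.inl ⟨(ω k).2 (l, ρ) v, fun w => by simp [xBl, hk]⟩
  · by_cases hk : k = j
    · exact Or.inl ⟨true, fun w => by simp [xBl, hk]⟩
    · exact Or.inl ⟨decide (a' ≠ (ω k).1), fun w => by simp [xBl, hk]⟩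
  · exact Or.inl ⟨false, fun w => rfl⟩

end

theorem lower {K n R B : ℕ} (hK : 1 ≤ K) (hB : K * n + 2 ≤ B) (γ ε : ℝ) (hγ : 0 < γ) (hγ1 : γ ≤ 1)
    (d : ℕ) (hd : 1 ≤ d) (D : Bool → (Fin K × P n → Bool) → ℝ)
    (hD0 : ∀ s w, 0 ≤ D s w) (hD1 : ∀ s, ∑ w, D s w = 1)
    (hsig : ∀ s, 3 * γ / 4 ≤ sg s * ∑ w, D s w * phi w)
    (hadv : ∀ s (g : (Fin K × P n → Bool) → ℝ), DT d g →
      |∑ w, D s w * g w - (∑ w, g w) / 2 ^ (K * 2 ^ n)| ≤ ε)
    (h1 : (n : ℝ) * R * ε ≤ 1 / 20) (h2 : 20 * d ≤ 2 ^ n)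
    (h3 : (n : ℝ) * Real.exp (-(R * γ ^ 2 / 64)) ≤ 1 / 20)
    (N : ℕ) (e : Ix K n R B ≃ Fin N) (r : ℕ)
    (hr : Crest.MathPhysics.Query.RandomizedComputes
      (fun y : Fin N → Bool => FF (γ * R / 2) (fun v => y (e v))) r) :
    2 ^ n * d ≤ 6 * r := by
  classical
  obtain ⟨s, p, T, hp0, hp1, hT, hc⟩ := hr
  choose tb htb using fun z : Fin K × P n → Bool => trace_complete hB z
  have hcard : (Fintype.card (P n) : ℝ) = 2 ^ n := by simp
  have hm : (0 : ℝ) < 2 ^ n := by positivity
  have hd' : (0 : ℝ) < d := by exact_mod_cast hd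
  let blk : Fin N → P n := fun t => (e.symm t).1
  let cell : Fin N → Option (P n) := fun t => cellOf (e.symm t)
  let c : P n → P n × (Fin n × Fin R → Fin K × P n → Bool) → ℝ := fun _ q =>
    (1 / 2 ^ n) * ∏ i, D (q.1 i.1) (q.2 i)
  have hc0 : ∀ j q, 0 ≤ c j q := fun j q =>
    mul_nonneg (by positivity) (Finset.prod_nonneg (fun i _ => hD0 _ _))
  have hcE : ∀ (j : P n) (F : P n × (Fin n × Fin R → Fin K × P n → Bool) → ℝ),
      ∑ q, c j q * F q = (1 / 2 ^ n) * ∑ a : P n, Ex (fun i : Fin n × Fin R => D (a i.1))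
        (fun ζ => F (a, ζ)) := by
    intro j F
    simp only [Fintype.sum_prod_type, c, Ex, Finset.mul_sum, mul_assoc]
  have hc1 : ∀ j, ∑ q, c j q = 1 := by
    intro j
    have := hcE j (fun _ => 1)
    simp only [mul_one, Ex_const _ (fun i : Fin n × Fin R => hD1 _), Finset.sum_const,
      Finset.card_univ, nsmul_eq_mul, hcard] at this
    rw [this]
    field_simp
  let bad : P n × (Fin n × Fin R → Fin K × P n → Bool) → ℝ := fun q =>
    if ∀ l, γ * R / 2 ≤ ∑ ρ, sg (q.1 l) * phi (q.2 (l, ρ)) then 0 else 1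
  have hbad : ∀ j, Ex c (fun ω => bad (ω j)) ≤ 1 / 20 := by
    intro j
    rw [Ex_resample c j (hc1 j)]
    simp only [Function.update_self]
    rw [Ex_const c hc1, hcE j]
    have : ∀ a : P n, Ex (fun i : Fin n × Fin R => D (a i.1)) (fun ζ => bad (a, ζ)) ≤ 1 / 20 := by
      intro a
      refine le_trans (chernoff (fun l => D (a l)) (fun l w => sg (a l) * phi w)
        (fun l w => hD0 _ _) (fun l => hD1 _) (fun l w => ?_) γ hγ hγ1 (fun l => ?_) _
        (fun ζ => ?_) (fun ζ hζ => ?_)) (by simpa using h3)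
      · rw [abs_mul]
        have : |sg (a l)| = 1 := by unfold sg; split_ifs <;> simp
        rw [this, one_mul]
        exact abs_phi_le_one w
      · refine (hsig (a l)).trans (le_of_eq ?_)
        rw [Finset.mul_sum]
        exact Finset.sum_congr rfl (fun w _ => by ring)
      · simp only [bad]
        split_ifs <;> norm_num
      · simp only [Fintype.card_fin] at hζ
        simp only [bad, if_pos hζ, le_refl]
    have h4 := Finset.sum_le_card_nsmul univ _ _ (fun a _ => this a)
    rw [Finset.card_univ, nsmul_eq_mul, hcard] at h4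
    refine (mul_le_mul_of_nonneg_left h4 (by positivity)).trans (le_of_eq ?_)
    field_simp
  have hhit : ∀ (T : DTree N) (j : P n),
      Ex c (fun ω => hit blk cell j (ω j).1 (fun t => xBl ω j (e.symm t)) T d) ≤ 1 / 10 := by
    intro T j
    rw [Ex_resample c j (hc1 j)]
    refine (Ex_mono c hc0 (G := fun _ => 1 / 10) (fun ω => ?_)).trans (Ex_const c hc1 _).le
    simp only [Function.update_self]
    rw [hcE j (fun q => hit blk cell j q.1
      (fun t => xBl (Function.update ω j q) j (e.symm t)) T d)]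
    let u : Fin n × Fin R → (Fin K × P n → Bool) → ℝ := fun _ _ => 1 / 2 ^ (K * 2 ^ n)
    have hu0 : ∀ i w, 0 ≤ u i w := fun i w => by positivity
    have hu1 : ∀ i, ∑ w, u i w = 1 := fun i => by
      simp [u]
    have h4 : ∀ a : P n, Ex (fun i : Fin n × Fin R => D (a i.1)) (fun ζ => hit blk cell j a
        (fun t => xBl (Function.update ω j (a, ζ)) j (e.symm t)) T d) ≤
        Ex u (fun ζ => hit blk cell j a
          (fun t => xBl (Function.update ω j (fun _ => false, ζ)) j (e.symm t)) T d) + 1 / 20 := by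
      intro a
      refine (Ex_hybrid (fun i : Fin n × Fin R => D (a i.1)) u (fun i w => hD0 _ _)
        (fun i => hD1 _) hu0 hu1 _ ε
        (fun i ζ => ?_)).trans ?_
      · have h5 := hadv (a i.1) _ (DT_hit blk cell j a
          (fun w t => xBl (Function.update ω j (a, Function.update ζ i w)) j (e.symm t))
          (fun t => xBl_dep ω j a ζ i (e.symm t)) T d)
        have h6 := (abs_le.1 h5).2
        simp only [u, ← Finset.mul_sum]
        rw [one_div_mul_eq_div]
        linarith
      · simp only [xBl_update ω j a, Fintype.card_prod, Fintype.card_fin]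
        push_cast
        linarith
    have h5 := Finset.sum_le_sum (fun a (_ : a ∈ univ) => h4 a)
    rw [Finset.sum_add_distrib, ← Ex_sum, Finset.sum_const, Finset.card_univ, nsmul_eq_mul,
      hcard] at h5
    have h6 := (Ex_mono u hu0 (fun ζ => sum_hit_le blk cell j
      (fun t => xBl (Function.update ω j (fun _ => false, ζ)) j (e.symm t)) T d)).trans
      (Ex_const u hu1 _).le
    have h7 : (20 : ℝ) * d ≤ 2 ^ n := by exact_mod_cast h2
    rw [one_div_mul_eq_div, div_le_iff₀ hm]
    linarith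
  have key : ∀ (ω : Om K n R) (j : P n), 1 / 3 ≤ bad (ω j) + ∑ k, p k *
      ((reads blk j (fun t => xIn ω (e.symm t)) (T k) : ℝ) / d +
        hit blk cell j (ω j).1 (fun t => xBl ω j (e.symm t)) (T k) d) := by
    intro ω j
    have hnn : ∀ k, 0 ≤ (reads blk j (fun t => xIn ω (e.symm t)) (T k) : ℝ) / d ∧
        0 ≤ hit blk cell j (ω j).1 (fun t => xBl ω j (e.symm t)) (T k) d := fun k =>
      ⟨by positivity, hit_nonneg _ _ _ _ _ _ _⟩
    by_cases hg : ∀ l, γ * R / 2 ≤ ∑ ρ, sg ((ω j).1 l) * phi ((ω j).2 (l, ρ))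
    · have a1 := hc (fun t => xIn ω (e.symm t))
      have a2 := hc (fun t => xPos tb ω j (e.symm t))
      simp only [Equiv.symm_apply_apply] at a1 a2
      rw [FF_xIn] at a1
      rw [FF_xPos hK tb htb _ ω j hg] at a2
      have a3 : ∀ k, (if (T k).eval (fun t => xIn ω (e.symm t)) = false then p k else 0) +
          (if (T k).eval (fun t => xPos tb ω j (e.symm t)) = true then p k else 0) ≤ p k + p k *
          ((reads blk j (fun t => xIn ω (e.symm t)) (T k) : ℝ) / d +
            hit blk cell j (ω j).1 (fun t => xBl ω j (e.symm t)) (T k) d) := by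
        intro k
        have b1 := hnn k
        have b2 := mul_nonneg (hp0 k) (add_nonneg b1.1 b1.2)
        have b3 := hp0 k
        split_ifs with c1 c2
        · have b4 := reads_or_hit blk cell j (ω j).1 (fun t => xIn ω (e.symm t))
            (fun t => xPos tb ω j (e.symm t)) (fun t => xBl ω j (e.symm t))
            (fun t ht => xPos_eq tb ω j _ ht) (fun t ht => xBl_eq ω j _ ht) (T k) d
            (by rw [c1, c2]; simp)
          have b5 : 1 ≤ (reads blk j (fun t => xIn ω (e.symm t)) (T k) : ℝ) / d +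
              hit blk cell j (ω j).1 (fun t => xBl ω j (e.symm t)) (T k) d := by
            rcases b4 with b4 | b4
            · have : 1 ≤ (reads blk j (fun t => xIn ω (e.symm t)) (T k) : ℝ) / d := by
                rw [le_div_iff₀ hd', one_mul]
                exact_mod_cast b4.le
              linarith
            · linarith
          nlinarith
        · linarith
        · linarith
        · linarith
      have a4 := Finset.sum_le_sum (fun k (_ : k ∈ univ) => a3 k)
      rw [Finset.sum_add_distrib, Finset.sum_add_distrib, hp1] at a4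
      simp only [bad, if_pos hg]
      linarith
    · simp only [bad, if_neg hg]
      have := Finset.sum_nonneg (fun k (_ : k ∈ univ) =>
        mul_nonneg (hp0 k) (add_nonneg (hnn k).1 (hnn k).2))
      linarith
  have key2 : ∀ ω : Om K n R, 2 ^ n / 3 ≤ (r : ℝ) / d + ∑ j, (bad (ω j) + ∑ k, p k *
      hit blk cell j (ω j).1 (fun t => xBl ω j (e.symm t)) (T k) d) := by
    intro ω
    have a1 := Finset.sum_le_sum (fun j (_ : j ∈ univ) => key ω j)
    simp only [mul_add, Finset.sum_add_distrib, Finset.sum_const, Finset.card_univ, nsmul_eq_mul,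
      hcard] at a1 ⊢
    have a2 : ∑ j, ∑ k, p k * ((reads blk j (fun t => xIn ω (e.symm t)) (T k) : ℝ) / d) ≤
        r / d := by
      rw [Finset.sum_comm]
      refine (Finset.sum_le_sum (g := fun k => p k * (r / d)) (fun k _ => ?_)).trans ?_
      · rw [← Finset.mul_sum, ← Finset.sum_div]
        refine mul_le_mul_of_nonneg_left (div_le_div_of_nonneg_right ?_ hd'.le) (hp0 k)
        exact_mod_cast (sum_reads_le blk _ (T k)).trans (hT k)
      · rw [← Finset.sum_mul, hp1, one_mul]
    linarith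
  have a1 := Ex_mono c hc0 key2
  rw [Ex_const c hc1, Ex_add, Ex_const c hc1, Ex_sum] at a1
  have a2 : ∀ j, Ex c (fun ω => bad (ω j) + ∑ k, p k *
      hit blk cell j (ω j).1 (fun t => xBl ω j (e.symm t)) (T k) d) ≤ 3 / 20 := by
    intro j
    rw [Ex_add, Ex_sum]
    have b1 : ∑ k, Ex c (fun ω => p k *
        hit blk cell j (ω j).1 (fun t => xBl ω j (e.symm t)) (T k) d) ≤ ∑ k, p k * (1 / 10) :=
      Finset.sum_le_sum (fun k _ => by
        rw [Ex_mul]; exact mul_le_mul_of_nonneg_left (hhit _ j) (hp0 k))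
    rw [← Finset.sum_mul, hp1] at b1
    have := hbad j
    linarith
  have a3 := Finset.sum_le_card_nsmul univ _ _ (fun j _ => a2 j)
  rw [Finset.card_univ, nsmul_eq_mul, hcard] at a3
  have a4 : (2 : ℝ) ^ n / 6 ≤ r / d := by linarith
  rw [div_le_div_iff₀ (by norm_num) hd'] at a4
  have a5 : (2 : ℝ) ^ n * d ≤ 6 * r := by linarith
  exact_mod_cast a5

end Crest.Agent.R350
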