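import Crest.Agent.R350.QR

/-! From realizable functionals to the standard query model. -/

open Finset Matrix Crest.MathPhysics.Query

namespace Crest.Agent.R350

variable {N w : ℕ}

/-- embedding of work-register states -/
def emb (i0 : Fin N) (ψ : Fin w → ℂ) : QIdx N w → ℂ :=
  fun e => if e.1 = i0 ∧ e.2.1 = false then ψ e.2.2 else 0

/-- a matrix acting on the work register only -/
def lift (U : Matrix (Fin w) (Fin w) ℂ) : Matrix (QIdx N w) (QIdx N w) ℂ :=
  (Matrix.blockDiagonal (fun _ : Fin N × Bool => U)).submatrix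
    ((Equiv.prodAssoc _ _ _).symm.trans (Equiv.prodComm _ _))
    ((Equiv.prodAssoc _ _ _).symm.trans (Equiv.prodComm _ _))

lemma lift_unitary {U : Matrix (Fin w) (Fin w) ℂ} (hU : U ∈ Matrix.unitaryGroup (Fin w) ℂ) :
    (lift U : Matrix (QIdx N w) (QIdx N w) ℂ) ∈ Matrix.unitaryGroup (QIdx N w) ℂ :=
  unitary_submatrix (unitary_blockDiagonal fun _ => hU) _ _

lemma lift_emb (i0 : Fin N) (U : Matrix (Fin w) (Fin w) ℂ) (ψ : Fin w → ℂ) :
    (lift U).mulVec (emb i0 ψ) = emb i0 (U.mulVec ψ) := by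
  funext ⟨i, b, z⟩
  simp only [Matrix.mulVec, dotProduct, lift, emb, Matrix.submatrix_apply, Fintype.sum_prod_type,
    Matrix.blockDiagonal_apply]
  simp only [Equiv.trans_apply, Equiv.prodAssoc_symm_apply, Equiv.prodComm_apply,
    Prod.swap_prod_mk, Prod.mk.injEq]
  rw [Finset.sum_eq_single i, Finset.sum_eq_single b]
  · by_cases h : i = i0 ∧ b = false <;> simp [h]
  · intro b' _ hb'; simp [Ne.symm hb']
  · simp
  · intro i' _ hi'; simp [Ne.symm hi']
  · simp

/-- first index map of the query preparation -/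
def e1 : QIdx N w ≃ Bool × (Fin N × Fin w) where
  toFun e := (e.2.1, (e.1, e.2.2))
  invFun p := (p.2.1, p.1, p.2.2)
  left_inv _ := rfl
  right_inv _ := rfl

/-- second index map of the query preparation -/
def e2 (i0 : Fin N) (q : Fin w → Option (Fin N)) : QIdx N w ≃ Bool × (Fin N × Fin w) where
  toFun e := (xor e.2.1 (q e.2.2).isSome, (Equiv.swap i0 ((q e.2.2).getD i0) e.1, e.2.2))
  invFun p := (Equiv.swap i0 ((q p.2.2).getD i0) p.2.1, xor p.1 (q p.2.2).isSome, p.2.2)
  left_inv e := by simp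
  right_inv p := by simp

/-- the query preparation -/
noncomputable def prep (i0 : Fin N) (q : Fin w → Option (Fin N)) :
    Matrix (QIdx N w) (QIdx N w) ℂ :=
  (Matrix.blockDiagonal (fun _ : Fin N × Fin w => hg)).submatrix e1 (e2 i0 q)

lemma prep_unitary (i0 : Fin N) (q : Fin w → Option (Fin N)) :
    prep i0 q ∈ Matrix.unitaryGroup (QIdx N w) ℂ :=
  unitary_submatrix (unitary_blockDiagonal fun _ => hg_unitary) _ _

lemma prep_emb (i0 : Fin N) (q : Fin w → Option (Fin N)) (ψ : Fin w → ℂ) (e : QIdx N w) :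
    (prep i0 q).mulVec (emb i0 ψ) e =
      if e.1 = (q e.2.2).getD i0 then hg e.2.1 (q e.2.2).isSome * ψ e.2.2 else 0 := by
  obtain ⟨i, b, z⟩ := e
  simp only [Matrix.mulVec, dotProduct, prep, emb, Matrix.submatrix_apply, Fintype.sum_prod_type,
    Matrix.blockDiagonal_apply]
  simp only [e1, e2, Equiv.coe_fn_mk, Prod.mk.injEq]
  rw [Finset.sum_eq_single i0, Finset.sum_eq_single false, Finset.sum_eq_single z]
  · by_cases h : i = (q z).getD i0 <;> simp [h]
  · intro z' _ hz'; simp [Ne.symm hz']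
  · simp
  · intro b' _ hb'; simp [hb']
  · simp
  · intro i' _ hi'; simp [hi']
  · simp

lemma oracle_prep (i0 : Fin N) (q : Fin w → Option (Fin N)) (x : Fin N → Bool) (ψ : Fin w → ℂ) :
    oracle x ((prep i0 q).mulVec (emb i0 ψ)) =
      (prep i0 q).mulVec (emb i0 ((phase q x).mulVec ψ)) := by
  funext ⟨i, b, z⟩
  simp only [oracle, prep_emb, phase, Matrix.mulVec_diagonal]
  split_ifs with h
  · cases hq : q z with
    | none => simp [hg, ph]
    | some j =>
      rw [hq] at h
      simp only [Option.getD_some] at h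
      subst h
      cases b <;> cases hx : x i <;> simp [hg, ph, hx]
  · rfl

lemma stateAfter_congr (U V : ℕ → Matrix (QIdx N w) (QIdx N w) ℂ) (x : Fin N → Bool)
    (ψ : QIdx N w → ℂ) : ∀ T, (∀ t ≤ T, U t = V t) → stateAfter U x ψ T = stateAfter V x ψ T
  | 0, h => by simp [stateAfter, h 0 le_rfl]
  | T + 1, h => by
      simp only [stateAfter]
      rw [h (T + 1) le_rfl, stateAfter_congr U V x ψ T fun t ht => h t (by omega)]

lemma Impl.std (i0 : Fin N) : ∀ {T : ℕ} {A : (Fin N → Bool) → Matrix (Fin w) (Fin w) ℂ},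
    Impl T A → ∀ W ∈ Matrix.unitaryGroup (QIdx N w) ℂ,
      ∃ U : ℕ → Matrix (QIdx N w) (QIdx N w) ℂ, (∀ t, U t ∈ Matrix.unitaryGroup (QIdx N w) ℂ) ∧
        ∀ x ψ, stateAfter U x (emb i0 ψ) T = W.mulVec (emb i0 ((A x).mulVec ψ)) := by
  intro T
  induction T with
  | zero =>
    rintro A ⟨V, hV, h⟩ W hW
    refine ⟨fun _ => W * lift V, fun _ => mul_mem hW (lift_unitary hV), fun x ψ => ?_⟩
    simp only [stateAfter]
    rw [← Matrix.mulVec_mulVec, lift_emb, h]
  | succ T ih =>
    rintro A ⟨V, q, B, hV, hB, h⟩ W hW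
    obtain ⟨U, hU, hU'⟩ := ih hB (prep i0 q) (prep_unitary i0 q)
    refine ⟨fun t => if t ≤ T then U t else W * lift V * Star.star (prep i0 q), fun t => ?_,
      fun x ψ => ?_⟩
    · beta_reduce
      split_ifs
      · exact hU t
      · exact mul_mem (mul_mem hW (lift_unitary hV)) (Unitary.star_mem (prep_unitary i0 q))
    · simp only [stateAfter]
      rw [if_neg (by omega), stateAfter_congr _ U x _ T (fun t ht => if_pos ht), hU',
        oracle_prep, Matrix.mulVec_mulVec, Matrix.mul_assoc,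
        Matrix.mem_unitaryGroup_iff'.1 (prep_unitary i0 q), Matrix.mul_one,
        ← Matrix.mulVec_mulVec, lift_emb, h, Matrix.mulVec_mulVec, Matrix.mulVec_mulVec]

theorem QR.std {ι : Type} {T : ℕ} {Φ : (ι → Bool) → (Bool → ℝ) → ℝ} (h : QR T Φ)
    (F : (ι → Bool) → Bool) (hF : ∀ x, 2 / 3 ≤ Φ x (fun b => if b = F x then 1 else 0))
    (e : ι ≃ Fin N) (i0 : Fin N) :
    QuantumComputes (fun y : Fin N → Bool => F (fun v => y (e v))) T := by
  obtain ⟨E, _, _, A, e0, out, hA, h⟩ := h.comap e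
  let eq : Fin (Fintype.card E) ≃ E := (Fintype.equivFin E).symm
  obtain ⟨U, hU, hU'⟩ := (hA.submatrix eq eq).std i0 1 (one_mem _)
  refine ⟨Fintype.card E, U, emb i0 (Pi.single (eq.symm e0) 1), fun s => out (eq s.2.2), hU,
    ?_, fun y => ?_⟩
  · simp only [emb, Fintype.sum_prod_type]
    rw [Finset.sum_eq_single i0, Finset.sum_eq_single false, Finset.sum_eq_single (eq.symm e0)]
    · simp
    · intro z _ hz; simp [hz]
    · simp
    · intro b _ hb; simp [hb]
    · simp
    · intro i _ hi; simp [hi]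
    · simp
  · refine (hF (fun v => y (e v))).trans (le_of_eq ?_)
    have h' := h y (fun b => if b = F (fun v => y (e v)) then 1 else 0)
    beta_reduce at h' ⊢
    rw [h', hU', Matrix.one_mulVec, ← eq.sum_comp]
    simp only [emb, Fintype.sum_prod_type]
    rw [Finset.sum_eq_single i0, Finset.sum_eq_single false]
    · refine sum_congr rfl fun z _ => ?_
      simp
    · intro b _ hb; simp [hb]
    · simp
    · intro i _ hi; simp [hi]
    · simp

end Crest.Agent.R350
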