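import Crest.Agent.R350.Alg2
import Crest.Agent.R350.Std
import Crest.Agent.R350.Lower

/-! Choice of the parameters. -/

open Finset

namespace Crest.Agent.R350

/-- polynomially bounded functions -/
def Poly (f : ℕ → ℕ) : Prop := ∃ C b : ℕ, ∀ n, 1 ≤ n → f n ≤ C * n ^ b

namespace Poly

lemma const (c : ℕ) : Poly (fun _ => c) := ⟨c, 0, fun n _ => by simp⟩

lemma id : Poly (fun n => n) := ⟨1, 1, fun n _ => by simp⟩

lemma add {f g : ℕ → ℕ} (hf : Poly f) (hg : Poly g) : Poly (fun n => f n + g n) := by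
  obtain ⟨C, b, h⟩ := hf
  obtain ⟨C', b', h'⟩ := hg
  refine ⟨C + C', b + b', fun n hn => ?_⟩
  have h1 : n ^ b ≤ n ^ (b + b') := Nat.pow_le_pow_right hn (by omega)
  have h2 : n ^ b' ≤ n ^ (b + b') := Nat.pow_le_pow_right hn (by omega)
  have := h n hn
  have := h' n hn
  have := Nat.mul_le_mul_left C h1
  have := Nat.mul_le_mul_left C' h2
  show f n + g n ≤ _
  rw [add_mul]; omega

lemma mul {f g : ℕ → ℕ} (hf : Poly f) (hg : Poly g) : Poly (fun n => f n * g n) := by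
  obtain ⟨C, b, h⟩ := hf
  obtain ⟨C', b', h'⟩ := hg
  refine ⟨C * C', b + b', fun n hn => ?_⟩
  calc f n * g n ≤ (C * n ^ b) * (C' * n ^ b') := Nat.mul_le_mul (h n hn) (h' n hn)
    _ = _ := by ring

lemma pow {f : ℕ → ℕ} (hf : Poly f) (k : ℕ) : Poly (fun n => f n ^ k) := by
  induction k with
  | zero => simpa using const 1
  | succ k ih => simpa only [pow_succ] using ih.mul hf

lemma small {f : ℕ → ℕ} (hf : Poly f) : ∃ j0, ∀ j, j0 ≤ j → f (2 * j) ≤ 2 ^ j := by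
  obtain ⟨C, b, h⟩ := hf
  have h1 := tendsto_pow_const_div_const_pow_of_one_lt b (r := (2 : ℝ)) (by norm_num)
  have h2 := h1.eventually (gt_mem_nhds (a := (1 : ℝ) / (C * 2 ^ b + 1)) (by positivity))
  obtain ⟨j0, hj0⟩ := Filter.eventually_atTop.1 h2
  refine ⟨j0 + 1, fun j hj => (h (2 * j) (by omega)).trans ?_⟩
  have h3 := hj0 j (by omega)
  rw [div_lt_div_iff₀ (by positivity) (by positivity)] at h3
  have h4 : ((C * (2 * j) ^ b : ℕ) : ℝ) ≤ ((2 ^ j : ℕ) : ℝ) := by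
    push_cast
    rw [mul_pow]
    have : (0 : ℝ) ≤ (j : ℝ) ^ b := by positivity
    nlinarith
  exact_mod_cast h4

end Poly

/-- inverse signal strength -/
def pg (k n : ℕ) : ℕ := (16 * (4 * (2 * k) + 13) * n) ^ (2 * k - 1)
/-- number of forrelation instances per address bit -/
def pR (k n : ℕ) : ℕ := 64 * pg k n ^ 2 * (n + 4)
/-- number of repetitions of the forrelation test -/
def pN0 (k n : ℕ) : ℕ := 16 * pg k n ^ 2 * (n + 5)
/-- number of bits of a trace value -/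
def pB (k n : ℕ) : ℕ := 2 * k * n + 2
/-- number of constraints per position -/
def pQ (k n : ℕ) : ℕ := 3 + n * (pR k n * (2 * k * (n + 1)))
/-- total polylogarithmic cost -/
def pZ (k n : ℕ) : ℕ := 3 * pQ k n * (8 * (pQ k n + n + 1) ^ 2 * (n + 4)) *
  (3 * (n * (10 * n * (n * (n + 1)) + (n * (pN0 k n * (2 * k)) + 10 * n * (n + 1))) +
    (n * (n + 1) + (n * (pN0 k n * (2 * k)) + (n + 3 * pB k n + pR k n * pB k n + 1)))))

macro "poly_tac" : tactic => `(tactic| repeat (first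
  | with_reducible assumption | with_reducible exact Poly.id | with_reducible exact Poly.const _
  | with_reducible apply Poly.pow | with_reducible apply Poly.add
  | with_reducible apply Poly.mul))

lemma poly_pg (k : ℕ) : Poly (pg k) := by
  unfold pg; poly_tac

lemma poly_pR (k : ℕ) : Poly (pR k) := by
  have := poly_pg k
  unfold pR; poly_tac

lemma poly_pZ (k : ℕ) : Poly (pZ k) := by
  have h1 := poly_pg k
  have h2 := poly_pR k
  have h3 : Poly (pN0 k) := by unfold pN0; poly_tac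
  have h4 : Poly (pB k) := by unfold pB; poly_tac
  have h5 : Poly (pQ k) := by unfold pQ; poly_tac
  unfold pZ; poly_tac

lemma mul_exp_le (n : ℕ) (c : ℕ) (D : ℝ) (hD : 0 < D) (h : D ≤ Real.exp c) :
    (n : ℝ) * Real.exp (-((n : ℝ) + c)) ≤ 1 / D := by
  have h1 : (n : ℝ) ≤ Real.exp n := by linarith [Real.add_one_le_exp (n : ℝ)]
  rw [Real.exp_neg, Real.exp_add, le_div_iff₀ hD]
  have h2 := Real.exp_pos (n : ℝ)
  have h3 := Real.exp_pos (c : ℝ)
  rw [mul_assoc, inv_mul_eq_div, ← mul_div_assoc, div_le_one (by positivity)]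
  exact mul_le_mul h1 h hD.le h2.le

lemma le_exp_nat (c : ℕ) : (2.7 : ℝ) ^ c ≤ Real.exp c := by
  rw [← Real.exp_one_pow]
  exact pow_le_pow_left₀ (by norm_num) (by linarith [Real.exp_one_gt_d9]) c

lemma pg_pos {k n : ℕ} (hn : 1 ≤ n) : 1 ≤ pg k n := Nat.one_le_pow _ _ (by positivity)

theorem upper' (k j n : ℕ) (hn : n = 2 * j) (hk : 2 ≤ k) (hj : 3 ≤ j) {N : ℕ}
    (e : Ix (2 * k) n (pR k n) (pB k n) ≃ Fin N) :
    ∃ q, q ≤ pZ k n * 2 ^ j ∧ Crest.MathPhysics.Query.QuantumComputes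
      (fun y : Fin N → Bool => FF (1 / (pg k n : ℝ) * (pR k n) / 2)
        (fun v => y (e v))) q := by
  have hg := pg_pos (k := k) (n := n) (by omega)
  have hg' : (1 : ℝ) ≤ pg k n := by exact_mod_cast hg
  set Q := pQ k n with hQ
  have hQ3 : 3 ≤ Q := by rw [hQ, pQ]; omega
  have h4 : 2 ^ n = 2 ^ j * 2 ^ j := by rw [hn, two_mul, pow_add]
  have hpos : 1 ≤ 2 ^ j := Nat.one_le_two_pow
  set L := Nat.clog 9 (Q * 2 ^ n) with hL
  have hL0 : Q * 2 ^ n ≤ 9 ^ L := Nat.le_pow_clog (by norm_num) _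
  have hL3 : 3 ^ L ≤ 3 * Q * 2 ^ j := by
    have h1 : 9 ^ (L - 1) < Q * 2 ^ n :=
      Nat.pow_pred_clog_lt_self (by norm_num) (by rw [h4]; nlinarith)
    have h2 : (3 ^ (L - 1)) ^ 2 < (Q * 2 ^ j) ^ 2 := by
      rw [← pow_mul, mul_comm (L - 1), pow_mul, mul_pow, sq (2 ^ j), ← h4]
      refine h1.trans_le (Nat.mul_le_mul_right _ (by nlinarith))
    have h3 := lt_of_pow_lt_pow_left₀ 2 (Nat.zero_le _) h2
    have h5 : 3 ^ L ≤ 3 * 3 ^ (L - 1) := by
      rw [← pow_succ']; exact Nat.pow_le_pow_right (by norm_num) (by omega)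
    rw [mul_assoc]; omega
  have hL4 : L ≤ Q + n := by
    rw [hL]
    apply Nat.clog_le_of_le_pow
    calc Q * 2 ^ n ≤ 2 ^ Q * 2 ^ n := Nat.mul_le_mul_right _ Nat.lt_two_pow_self.le
      _ = 2 ^ (Q + n) := by rw [pow_add]
      _ ≤ _ := Nat.pow_le_pow_left (by norm_num) _
  set Nn := 8 * (L + 1) ^ 2 * (n + 4) with hNn
  have hη : (n : ℝ) * eta L Nn ≤ 1 / 40 := by
    have h1 : eta L Nn ≤ Real.exp (-((n : ℝ) + (4 : ℕ))) := by
      unfold eta
      have h2 : 1 - 1 / (8 * ((L : ℝ) + 1) ^ 2) ≤ Real.exp (-(1 / (8 * ((L : ℝ) + 1) ^ 2))) := by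
        linarith [Real.add_one_le_exp (-(1 / (8 * ((L : ℝ) + 1) ^ 2)))]
      have h3 := eta_nonneg L 1
      rw [eta, pow_one] at h3
      refine (pow_le_pow_left₀ h3 h2 Nn).trans (le_of_eq ?_)
      rw [← Real.exp_nat_mul, hNn]
      congr 1
      push_cast
      field_simp
    exact (mul_le_mul_of_nonneg_left h1 (Nat.cast_nonneg n)).trans
      (mul_exp_le n 4 40 (by norm_num) (le_trans (by norm_num) (le_exp_nat 4)))
  have hn6 : (6 : ℝ) ≤ n := by exact_mod_cast (by omega : 6 ≤ n)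
  have hη0 := eta_nonneg L Nn
  obtain ⟨Ψ, hΨ, hΨ'⟩ := upper (K := 2 * k) (n := n) (R := pR k n) (B := pB k n) (by omega)
    (by unfold pR; have := Nat.pow_pos (n := 2) hg; nlinarith) (1 / (pg k n : ℝ)) (by positivity)
    (by rw [div_le_one (by positivity)]; exact hg') L Nn (pN0 k n) (10 * n)
    (le_trans (by rw [pow_succ]; nlinarith [Nat.one_le_two_pow (n := n)]) hL0)
    (le_trans (by
      simp only [Fintype.card_sum, Fintype.card_prod, Fintype.card_fin, card_P]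
      rw [hQ, pQ]
      have := Nat.lt_two_pow_self (n := n)
      nlinarith) hL0)
    (by nlinarith)
    (by
      have : (pN0 k n : ℝ) * (1 / (pg k n : ℝ)) ^ 2 / 16 = (n : ℝ) + (5 : ℕ) := by
        unfold pN0; push_cast; field_simp
      rw [this]
      exact mul_exp_le n 5 100 (by norm_num) (le_trans (by norm_num) (le_exp_nat 5)))
    (by
      have h1 : (4 : ℝ) ^ n * (3 / 4) ^ (10 * n) ≤ (1 / 2) ^ n * (1 / 2) ^ n := by
        rw [pow_mul (3 / 4 : ℝ) 10 n, ← mul_pow, ← mul_pow]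
        exact pow_le_pow_left₀ (by positivity) (by norm_num) n
      have h2 : (n : ℝ) * (1 / 2) ^ n ≤ 1 := by
        have : (n : ℝ) ≤ 2 ^ n := by exact_mod_cast Nat.lt_two_pow_self.le
        rw [one_div, inv_pow, ← div_eq_mul_inv, div_le_one (by positivity)]
        exact this
      have h3 : ((1 : ℝ) / 2) ^ n ≤ (1 / 2) ^ 6 :=
        pow_le_pow_of_le_one (by norm_num) (by norm_num) (by omega)
      have h5 : (0 : ℝ) ≤ (1 / 2) ^ n := by positivity
      have h6 : (n : ℝ) * (4 ^ n * (3 / 4) ^ (10 * n)) ≤ n * ((1 / 2) ^ n * (1 / 2) ^ n) :=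
        mul_le_mul_of_nonneg_left h1 (Nat.cast_nonneg n)
      have h7 : (n : ℝ) * ((1 / 2) ^ n * (1 / 2) ^ n) ≤ 1 * (1 / 2) ^ 6 := by
        rw [← mul_assoc]; exact mul_le_mul h2 h3 h5 zero_le_one
      rw [mul_add]
      norm_num at h7 ⊢
      linarith)
  refine ⟨_, ?_, hΨ.std _ hΨ' e (e ((fun _ => false), Sum.inr ((fun _ => false), Sum.inl ())))⟩
  have hX : 1 ≤ Nn * 3 ^ L := Nat.mul_pos (by rw [hNn]; positivity) (by positivity)
  have hY : Nn * 3 ^ L ≤ 3 * Q * (8 * (Q + n + 1) ^ 2 * (n + 4)) * 2 ^ j := by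
    have h1 : Nn ≤ 8 * (Q + n + 1) ^ 2 * (n + 4) := by
      rw [hNn]; gcongr
    calc Nn * 3 ^ L ≤ (8 * (Q + n + 1) ^ 2 * (n + 4)) * (3 * Q * 2 ^ j) := Nat.mul_le_mul h1 hL3
      _ = _ := by ring
  have hT : n * (pN0 k n * (2 * k)) ≤ Nn * 3 ^ L * (n * (pN0 k n * (2 * k))) :=
    Nat.le_mul_of_pos_left _ hX
  calc _ ≤ Nn * 3 ^ L * (3 * (n * (10 * n * (n * (n + 1)) +
        (n * (pN0 k n * (2 * k)) + 10 * n * (n + 1))) +
        (n * (n + 1) + (n * (pN0 k n * (2 * k)) + (n + 3 * pB k n + pR k n * pB k n + 1))))) := by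
        generalize n * (pN0 k n * (2 * k)) = a at *
        nlinarith
    _ ≤ _ := by
        rw [pZ, ← hQ, mul_right_comm _ _ (2 ^ j)]
        exact Nat.mul_le_mul_right _ hY

end Crest.Agent.R350
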