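import Crest.Agent.R350.Defs

/-! Row 350: the Hadamard matrix and the trace of the fast Hadamard transform. -/

open Finset

namespace Crest.Agent.R350

theorem had_comm {n : ℕ} (u v : P n) : had u v = had v u := by
  unfold had
  refine Finset.prod_congr rfl fun t _ => ?_
  rw [Bool.and_comm]

theorem had_sq {n : ℕ} (u v : P n) : had u v * had u v = 1 := by
  unfold had
  rw [← Finset.prod_mul_distrib]
  refine Finset.prod_eq_one fun t _ => ?_
  split_ifs <;> norm_num

theorem had_zero {n : ℕ} (v : P n) : had (fun _ => false) v = 1 := by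
  unfold had
  simp

theorem had_orth {n : ℕ} (u u' : P n) :
    ∑ v, had u v * had u' v = if u = u' then 2 ^ n else 0 := by
  have h1 : ∀ v : P n, had u v * had u' v =
      ∏ t, ((if u t && v t then -1 else 1 : ℤ) * (if u' t && v t then -1 else 1)) := by
    intro v
    unfold had
    rw [← Finset.prod_mul_distrib]
  simp_rw [h1]
  have h2 := Finset.prod_univ_sum (fun _ : Fin n => (Finset.univ : Finset Bool))
    (fun (t : Fin n) (b : Bool) =>
      ((if u t && b then -1 else 1 : ℤ) * (if u' t && b then -1 else 1)))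
  rw [Fintype.piFinset_univ] at h2
  rw [← h2]
  have h3 : ∀ t : Fin n, ∑ b : Bool, ((if u t && b then -1 else 1 : ℤ) *
      (if u' t && b then -1 else 1)) = if u t = u' t then 2 else 0 := by
    intro t
    rw [Fintype.sum_bool]
    cases u t <;> cases u' t <;> simp
  simp_rw [h3]
  split_ifs with h
  · subst h
    simp
  · obtain ⟨t, ht⟩ := Function.ne_iff.mp h
    exact Finset.prod_eq_zero (Finset.mem_univ t) (by simp [ht])

theorem abs_had {n : ℕ} (u v : P n) : |had u v| = 1 := by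
  have := had_sq u v
  rcases Int.eq_one_or_neg_one_of_mul_eq_one this with h | h <;> simp [h]

theorem zz_sq {K n : ℕ} (z : Fin K × P n → Bool) (i : ℕ) (u : P n) :
    zz z i u * zz z i u = 1 := by
  unfold zz sgZ
  split_ifs <;> norm_num

theorem abs_zz {K n : ℕ} (z : Fin K × P n → Bool) (i : ℕ) (u : P n) : |zz z i u| = 1 := by
  have := zz_sq z i u
  rcases Int.eq_one_or_neg_one_of_mul_eq_one this with h | h <;> simp [h]

theorem parseval_had {n : ℕ} (f : P n → ℤ) :
    ∑ u, (∑ v, had u v * f v) ^ 2 = 2 ^ n * ∑ v, f v ^ 2 := by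
  have h1 : ∀ u : P n, (∑ v, had u v * f v) ^ 2 =
      ∑ v, ∑ v', (f v * f v') * (had v u * had v' u) := by
    intro u
    rw [sq, Finset.sum_mul_sum]
    refine Finset.sum_congr rfl fun v _ => Finset.sum_congr rfl fun v' _ => ?_
    rw [had_comm v u, had_comm v' u]
    ring
  simp_rw [h1]
  rw [Finset.sum_comm, Finset.mul_sum]
  refine Finset.sum_congr rfl fun v _ => ?_
  rw [Finset.sum_comm]
  have h2 : ∀ v' : P n, ∑ u, (f v * f v') * (had v u * had v' u) =
      if v = v' then 2 ^ n * f v ^ 2 else 0 := by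
    intro v'
    rw [← Finset.mul_sum, had_orth]
    split_ifs with h
    · subst h
      ring
    · simp
  simp_rw [h2]
  simp

theorem sum_fvec_sq {K n : ℕ} (z : Fin K × P n → Bool) (i : ℕ) :
    ∑ u, fvec z i u ^ 2 = (2 ^ n) ^ (i + 1) := by
  induction i with
  | zero => simp [fvec]
  | succ i ih =>
    have h1 : ∑ u, fvec z (i + 1) u ^ 2 = 2 ^ n * ∑ v, (zz z i v * fvec z i v) ^ 2 :=
      parseval_had (fun v => zz z i v * fvec z i v)
    have h2 : ∀ v, (zz z i v * fvec z i v) ^ 2 = fvec z i v ^ 2 := by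
      intro v
      rw [mul_pow, sq (zz z i v), zz_sq, one_mul]
    rw [h1]
    simp_rw [h2]
    rw [ih]
    ring

theorem abs_phi_le_one {K n : ℕ} (z : Fin K × P n → Bool) : |phi z| ≤ 1 := by
  have h1 : fvec z K (fun _ => false) ^ 2 ≤ (2 ^ n) ^ (K + 1) := by
    rw [← sum_fvec_sq z K]
    exact Finset.single_le_sum (f := fun u => fvec z K u ^ 2) (fun u _ => sq_nonneg _)
      (Finset.mem_univ _)
  have h2 : ((fvec z K (fun _ => false) : ℤ) : ℝ) ^ 2 ≤ ((2 : ℝ) ^ n) ^ (K + 1) := by
    exact_mod_cast h1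
  have hpos : 0 < Real.sqrt (2 ^ n) ^ (K + 1) := by positivity
  unfold phi
  rw [abs_div, abs_of_pos hpos, div_le_one hpos]
  refine abs_le.mpr (abs_le_of_sq_le_sq' ?_ hpos.le)
  rw [← pow_mul, mul_comm, pow_mul, Real.sq_sqrt (by positivity)]
  exact h2

/-- the partial Hadamard transform -/
def hadP {n : ℕ} (s : ℕ) (u v : P n) : ℤ :=
  ∏ t : Fin n, if t.val < s then (if u t && v t then -1 else 1) else (if u t = v t then 1 else 0)

theorem hadP_zero {n : ℕ} (u v : P n) : hadP 0 u v = if u = v then 1 else 0 := by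
  unfold hadP
  simp only [Nat.not_lt_zero, if_false]
  split_ifs with h
  · subst h
    simp
  · obtain ⟨t, ht⟩ := Function.ne_iff.mp h
    exact Finset.prod_eq_zero (Finset.mem_univ t) (by simp [ht])

theorem hadP_top {n : ℕ} (u v : P n) : hadP n u v = had u v := by
  unfold hadP had
  refine Finset.prod_congr rfl fun t _ => ?_
  rw [if_pos t.2]

theorem abs_hadP_le {n : ℕ} (s : ℕ) (u v : P n) : |hadP s u v| ≤ 1 := by
  unfold hadP
  rw [Finset.abs_prod]
  refine Finset.prod_le_one (fun t _ => abs_nonneg _) fun t _ => ?_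
  split_ifs <;> norm_num

theorem hadP_succ {n s : ℕ} (h : s < n) (u v : P n) :
    hadP (s + 1) u v = hadP s (Function.update u ⟨s, h⟩ false) v
      + sgZ (u ⟨s, h⟩) * hadP s (Function.update u ⟨s, h⟩ true) v := by
  unfold hadP
  have key : ∀ b : Bool, ∏ t ∈ Finset.univ.erase (⟨s, h⟩ : Fin n),
      (if t.val < s then (if Function.update u ⟨s, h⟩ b t && v t then -1 else 1 : ℤ)
        else (if Function.update u ⟨s, h⟩ b t = v t then 1 else 0)) =
      ∏ t ∈ Finset.univ.erase (⟨s, h⟩ : Fin n),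
      (if t.val < s + 1 then (if u t && v t then -1 else 1 : ℤ)
        else (if u t = v t then 1 else 0)) := by
    intro b
    refine Finset.prod_congr rfl fun t ht => ?_
    have hne : t ≠ ⟨s, h⟩ := Finset.ne_of_mem_erase ht
    have hne' : t.val ≠ s := fun e => hne (Fin.ext e)
    rw [Function.update_of_ne hne]
    by_cases hlt : t.val < s
    · rw [if_pos hlt, if_pos (show t.val < s + 1 by omega)]
    · rw [if_neg hlt, if_neg (show ¬ t.val < s + 1 by omega)]
  rw [← Finset.mul_prod_erase _ _ (Finset.mem_univ (⟨s, h⟩ : Fin n)),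
    ← Finset.mul_prod_erase Finset.univ _ (Finset.mem_univ (⟨s, h⟩ : Fin n)),
    ← Finset.mul_prod_erase Finset.univ _ (Finset.mem_univ (⟨s, h⟩ : Fin n)), key, key]
  simp only [Function.update_self, lt_irrefl, if_false, Nat.lt_succ_self, if_true]
  unfold sgZ
  cases u ⟨s, h⟩ <;> cases v ⟨s, h⟩ <;> simp

/-- the honest trace -/
def trW {K n : ℕ} (z : Fin K × P n → Bool) (i s : ℕ) (u : P n) : ℤ :=
  ∑ v, hadP s u v * (zz z i v * fvec z i v)

theorem trW_zero {K n : ℕ} (z : Fin K × P n → Bool) (i : ℕ) (u : P n) :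
    trW z i 0 u = zz z i u * fvec z i u := by
  unfold trW
  simp_rw [hadP_zero]
  simp

theorem trW_top {K n : ℕ} (z : Fin K × P n → Bool) (i : ℕ) (u : P n) :
    trW z i n u = fvec z (i + 1) u := by
  unfold trW
  simp_rw [hadP_top]
  rfl

theorem trW_succ {K n : ℕ} (z : Fin K × P n → Bool) (i : ℕ) {s : ℕ} (h : s < n) (u : P n) :
    trW z i (s + 1) u = trW z i s (Function.update u ⟨s, h⟩ false)
      + sgZ (u ⟨s, h⟩) * trW z i s (Function.update u ⟨s, h⟩ true) := by
  unfold trW
  rw [Finset.mul_sum, ← Finset.sum_add_distrib]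
  refine Finset.sum_congr rfl fun v _ => ?_
  rw [hadP_succ h]
  ring

theorem trace_row {K n : ℕ} (z : Fin K × P n → Bool) (w : ℕ → ℕ → P n → ℤ) (i : ℕ)
    (hw : ∀ s < n + 1, ∀ u, w i s u = rule z w i s u)
    (h0 : ∀ u, (if i = 0 then 1 else w (i - 1) n u) = fvec z i u) :
    ∀ s < n + 1, ∀ u, w i s u = trW z i s u := by
  intro s
  induction s with
  | zero =>
    intro hs u
    rw [hw 0 hs u, trW_zero, ← h0 u]
    rfl
  | succ s ih =>
    intro hs u
    have h : s < n := by omega
    rw [hw _ hs u, trW_succ z i h, ← ih (by omega), ← ih (by omega)]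
    simp only [rule, dif_pos h]

theorem trace_all {K n : ℕ} (z : Fin K × P n → Bool) (w : ℕ → ℕ → P n → ℤ)
    (hw : ∀ i < K, ∀ s < n + 1, ∀ u, w i s u = rule z w i s u) :
    ∀ i < K, ∀ s < n + 1, ∀ u, w i s u = trW z i s u := by
  intro i
  induction i with
  | zero =>
    intro hi
    exact trace_row z w 0 (hw 0 hi) (fun u => by simp [fvec])
  | succ i ih =>
    intro hi
    refine trace_row z w (i + 1) (hw _ hi) (fun u => ?_)
    rw [if_neg (Nat.succ_ne_zero i), Nat.add_sub_cancel, ih (by omega) n (by omega), trW_top]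

theorem trace_sound {K n : ℕ} (hK : 1 ≤ K) (z : Fin K × P n → Bool) (w : ℕ → ℕ → P n → ℤ)
    (hw : ∀ i < K, ∀ s < n + 1, ∀ u, w i s u = rule z w i s u) (u : P n) :
    w (K - 1) n u = fvec z K u := by
  rw [trace_all z w hw (K - 1) (by omega) n (by omega), trW_top, Nat.sub_add_cancel hK]

theorem abs_trW_le_aux {K n : ℕ} (z : Fin K × P n → Bool) (i s : ℕ) (u : P n) (M : ℤ)
    (hM : ∀ v, |fvec z i v| ≤ M) : |trW z i s u| ≤ 2 ^ n * M := by
  unfold trW
  refine (Finset.abs_sum_le_sum_abs _ _).trans ?_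
  have h1 : ∀ v ∈ (Finset.univ : Finset (P n)),
      |hadP s u v * (zz z i v * fvec z i v)| ≤ M := by
    intro v _
    rw [abs_mul, abs_mul, abs_zz, one_mul]
    have := abs_hadP_le s u v
    have h2 := hM v
    have h3 := abs_nonneg (fvec z i v)
    have h4 := abs_nonneg (hadP s u v)
    nlinarith
  refine (Finset.sum_le_card_nsmul _ _ _ h1).trans ?_
  simp

theorem abs_fvec_le {K n : ℕ} (z : Fin K × P n → Bool) (i : ℕ) (u : P n) :
    |fvec z i u| ≤ (2 ^ n) ^ i := by
  induction i generalizing u with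
  | zero => simp [fvec]
  | succ i ih =>
    rw [← trW_top, pow_succ']
    exact abs_trW_le_aux z i n u _ ih

theorem abs_trW_le {K n : ℕ} (z : Fin K × P n → Bool) (i s : ℕ) (u : P n) :
    |trW z i s u| ≤ (2 ^ n) ^ (i + 1) := by
  rw [pow_succ']
  exact abs_trW_le_aux z i s u _ (abs_fvec_le z i)

theorem dec_surj {B : ℕ} (hB : 1 ≤ B) (m : ℤ) (hm : |m| < 2 ^ (B - 1)) :
    ∃ b : Fin B → Bool, dec B b = m := by
  have hc : Fintype.card (Fin B → Bool) = 2 ^ B := by simp
  obtain ⟨h1, h2⟩ := abs_lt.mp hm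
  have h3 : (2 : ℤ) ^ B = 2 * 2 ^ (B - 1) := by
    rw [← pow_succ', Nat.sub_add_cancel hB]
  have h4 : (m + 2 ^ (B - 1)).toNat < Fintype.card (Fin B → Bool) := by
    rw [hc]
    have : (((m + 2 ^ (B - 1)).toNat : ℕ) : ℤ) < ((2 ^ B : ℕ) : ℤ) := by
      rw [Int.toNat_of_nonneg (by omega)]
      push_cast
      omega
    exact_mod_cast this
  refine ⟨(Fintype.equivFin (Fin B → Bool)).symm ⟨_, h4⟩, ?_⟩
  unfold dec
  rw [Equiv.apply_symm_apply]
  simp only
  rw [Int.toNat_of_nonneg (by omega)]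
  ring

theorem trace_complete {K n B : ℕ} (hB : K * n + 2 ≤ B) (z : Fin K × P n → Bool) :
    ∃ tb : Fin K → Fin (n + 1) → P n → Fin B → Bool, ∀ w : ℕ → ℕ → P n → ℤ,
      (∀ i s u, w i s u = if h : i < K ∧ s < n + 1 then dec B (tb ⟨i, h.1⟩ ⟨s, h.2⟩ u) else 0) →
      ∀ i < K, ∀ s < n + 1, ∀ u, w i s u = rule z w i s u := by
  have hex : ∀ (i : Fin K) (s : Fin (n + 1)) (u : P n),
      ∃ b : Fin B → Bool, dec B b = trW z i s u := by
    intro i s u
    refine dec_surj (by omega) _ ((abs_trW_le z i s u).trans_lt ?_)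
    rw [← pow_mul]
    refine pow_lt_pow_right₀ (by norm_num) ?_
    have h1 : n * (i.val + 1) ≤ n * K := Nat.mul_le_mul_left n i.2
    have h2 : n * K = K * n := Nat.mul_comm _ _
    omega
  choose tb htb using hex
  refine ⟨tb, fun w hw => ?_⟩
  have hW : ∀ i < K, ∀ s < n + 1, ∀ u, w i s u = trW z i s u := by
    intro i hi s hs u
    rw [hw, dif_pos ⟨hi, hs⟩, htb]
  intro i hi s hs u
  rw [hW i hi s hs]
  cases s with
  | zero =>
    rw [trW_zero]
    simp only [rule]
    cases i with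
    | zero => simp [fvec]
    | succ i =>
      rw [if_neg (Nat.succ_ne_zero i), Nat.add_sub_cancel, hW i (by omega) n (by omega), trW_top]
  | succ s =>
    have h : s < n := by omega
    rw [trW_succ z i h]
    simp only [rule, dif_pos h]
    rw [hW i hi s (by omega), hW i hi s (by omega)]

end Crest.Agent.R350
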