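import Crest.Agent.R350.Multi
import Crest.Agent.R350.Trace

/-! The Gaussian forrelation point, its mean at parameter zero and the chain of Stein steps. -/

open MvPolynomial Finset
open scoped NNReal

namespace Crest.Agent.R350

variable {K n : ℕ}

/-- the normalised Hadamard matrix -/
noncomputable def UU (a b : P n) : ℝ := (had a b : ℝ) / Real.sqrt (2 ^ n)

lemma sqrt_two_pow_sq (n : ℕ) : Real.sqrt (2 ^ n) * Real.sqrt (2 ^ n) = 2 ^ n :=
  Real.mul_self_sqrt (by positivity)

lemma sqrt_two_pow_pos (n : ℕ) : 0 < Real.sqrt (2 ^ n) := Real.sqrt_pos.mpr (by positivity)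

lemma UU_sq (a b : P n) : UU a b * UU a b = 1 / 2 ^ n := by
  have h : (had a b : ℝ) * had a b = 1 := by exact_mod_cast had_sq a b
  unfold UU
  rw [div_mul_div_comm, h, sqrt_two_pow_sq]

lemma UU_orth (b b' : P n) : ∑ a, UU a b * UU a b' = if b = b' then 1 else 0 := by
  have h : ∑ a, (had b a : ℝ) * had b' a = if b = b' then 2 ^ n else 0 := by
    exact_mod_cast had_orth b b'
  unfold UU
  simp_rw [div_mul_div_comm, sqrt_two_pow_sq, ← Finset.sum_div, had_comm _ b, had_comm _ b', h]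
  split_ifs <;> simp

lemma card_P (n : ℕ) : Fintype.card (P n) = 2 ^ n := by simp

/-- coordinate vectors -/
def ex (v : Fin K × P n) : Fin K × P n → ℝ := fun w => if w = v then 1 else 0

/-- columns of the Hadamard matrix in block `i` -/
noncomputable def uy (i : ℕ) (b : P n) : Fin K × P n → ℝ :=
  fun w => if w.1.val = i then UU w.2 b else 0

lemma ex_dot (v : Fin K × P n) (u : Fin K × P n → ℝ) : ∑ w, ex v w * u w = u v := by
  simp [ex]

lemma uy_uy (i : Fin K) (i' : ℕ) (b b' : P n) :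
    ∑ w : Fin K × P n, uy i.val b w * uy i' b' w = if i.val = i' ∧ b = b' then 1 else 0 := by
  rw [Fintype.sum_prod_type, Finset.sum_eq_single i]
  · by_cases h : i.val = i'
    · simp only [uy, h, if_true, true_and, UU_orth]
    · simp [uy, h]
  · intro j _ hj
    have : j.val ≠ i.val := fun h => hj (Fin.ext h)
    simp [uy, this]
  · simp

noncomputable def Xp (v : Fin K × P n) : MvPolynomial (Option (Fin K × P n)) ℝ :=
  if v.1.val + 1 = K then 1 else lin (ex v)

noncomputable def Yp (v : Fin K × P n) : MvPolynomial (Option (Fin K × P n)) ℝ :=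
  if v.1.val = 0 then X none else lin (uy (v.1.val - 1) v.2)

/-- the coordinates of the forrelation point -/
noncomputable def Zp (v : Fin K × P n) : MvPolynomial (Option (Fin K × P n)) ℝ := Yp v * Xp v

lemma der_Xp (u : Fin K × P n → ℝ) (v : Fin K × P n) (h : u v = 0) : der u (Xp v) = 0 := by
  unfold Xp
  split_ifs
  · simp
  · rw [der_lin]
    simp_rw [mul_comm (u _)]
    rw [ex_dot, h, map_zero]

lemma EL_prod_Zp (ε : ℝ≥0) (S : Finset (Fin K × P n)) (hS : S.Nonempty) :
    EL ε 0 (∏ v ∈ S, Zp v) = 0 := by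
  obtain ⟨v0, hv0, hmin⟩ := Finset.exists_min_image S (fun v => v.1.val) hS
  rw [← Finset.mul_prod_erase _ _ hv0, Zp, mul_assoc, Yp]
  split_ifs with h0
  · rw [EL_X_none_mul, zero_mul]
  · have hX : ∀ v ∈ S, der (uy (v0.1.val - 1) v0.2) (Xp v) = 0 := by
      intro v hv
      refine der_Xp _ _ ?_
      have := hmin v hv
      simp only [uy]
      rw [if_neg (by omega)]
    rw [stein_lin, Derivation.leibniz, hX v0 hv0, der_prod_eq_zero]
    · simp
    · intro v hv
      have hvS := Finset.mem_of_mem_erase hv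
      have h1 := hmin v hvS
      rw [Zp, Derivation.leibniz, hX v hvS, Yp, if_neg (by omega), der_lin]
      have h2 := uy_uy (K := K) ⟨v0.1.val - 1, by omega⟩ (v.1.val - 1) v0.2 v.2
      simp only at h2
      rw [h2, if_neg]
      · simp
      · rintro ⟨h3, h4⟩
        exact Finset.ne_of_mem_erase hv (Prod.ext (Fin.ext (by omega)) h4.symm)

lemma EL_zero_DP (ε : ℝ≥0) (g : (Fin K × P n → Bool) → ℝ) :
    EL ε 0 (DP g Zp ∅) = (∑ w, g w) / 2 ^ (K * 2 ^ n) := by
  unfold DP
  rw [map_sum, Finset.sum_div]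
  refine Finset.sum_congr rfl fun w _ => ?_
  rw [EL_C_mul, Finset.prod_empty, one_mul, Finset.sdiff_empty]
  simp_rw [add_comm (C (1 / 2 : ℝ))]
  rw [Finset.prod_add, map_sum, Finset.sum_eq_single ∅]
  · rw [Finset.prod_empty, one_mul, ← map_prod, EL_C]
    simp [Finset.prod_const, Finset.card_univ, div_eq_mul_inv]
  · intro S _ hS
    rw [Finset.prod_mul_distrib, ← map_prod, ← map_prod, mul_comm, EL_C_mul, EL_C_mul,
      EL_prod_Zp _ _ (Finset.nonempty_iff_ne_empty.mpr hS)]
    simp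
  · simp

/-- a path read at a natural number -/
def aN (a : Fin K → P n) (i : ℕ) : P n := if h : i < K then a ⟨i, h⟩ else fun _ => false

/-- the weight of the first `j` steps of a path -/
noncomputable def Wp (j : ℕ) (a : Fin K → P n) : ℝ := ∏ i ∈ range j, UU (aN a i) (aN a (i + 1))

/-- the first `j + 1` points of a path -/
def Ip (j : ℕ) (a : Fin K → P n) : Finset (Fin K × P n) :=
  univ.filter (fun v => v.1.val ≤ j ∧ v.2 = a v.1)

lemma mem_Ip {j : ℕ} {a : Fin K → P n} {v : Fin K × P n} :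
    v ∈ Ip j a ↔ v.1.val ≤ j ∧ v.2 = a v.1 := by simp [Ip]

lemma aN_update_of_ne (a : Fin K → P n) (j : Fin K) (c : P n) (i : ℕ) (h : i ≠ j.val) :
    aN (Function.update a j c) i = aN a i := by
  unfold aN
  split_ifs with hi
  · rw [Function.update_of_ne (fun h' => h (by rw [← h']))]
  · rfl

lemma Wp_update {j : ℕ} (h : j + 1 < K) (a : Fin K → P n) (c : P n) :
    Wp (j + 1) (Function.update a ⟨j + 1, h⟩ c) = Wp j a * UU (a ⟨j, by omega⟩) c := by
  unfold Wp
  rw [Finset.prod_range_succ]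
  congr 1
  · refine Finset.prod_congr rfl fun i hi => ?_
    have := Finset.mem_range.mp hi
    rw [aN_update_of_ne _ _ _ _ (by simp; omega), aN_update_of_ne _ _ _ _ (by simp; omega)]
  · rw [aN_update_of_ne _ _ _ _ (by simp)]
    simp [aN, h, show j < K by omega]

lemma Ip_update {j : ℕ} (h : j + 1 < K) (a : Fin K → P n) (c : P n) :
    Ip (j + 1) (Function.update a ⟨j + 1, h⟩ c) = insert (⟨j + 1, h⟩, c) (Ip j a) := by
  ext ⟨i, b⟩
  simp only [mem_Ip, Finset.mem_insert, Prod.mk.injEq]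
  by_cases hi : i = ⟨j + 1, h⟩
  · subst hi; simp
  · have : i.val ≠ j + 1 := fun h' => hi (Fin.ext h')
    rw [Function.update_of_ne hi]
    simp only [hi, false_and, false_or]
    constructor
    · rintro ⟨h1, h2⟩; exact ⟨by omega, h2⟩
    · rintro ⟨h1, h2⟩; exact ⟨by omega, h2⟩

lemma sum_update {α β : Type} [Fintype α] [DecidableEq α] [Fintype β] (i : α) (h : (α → β) → ℝ) :
    ∑ a : α → β, ∑ c, h (Function.update a i c) = Fintype.card β * ∑ a, h a := by
  let e : ((α → β) × β) ≃ ((α → β) × β) :=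
    { toFun := fun p => (Function.update p.1 i p.2, p.1 i)
      invFun := fun p => (Function.update p.1 i p.2, p.1 i)
      left_inv := fun p => by simp
      right_inv := fun p => by simp }
  rw [← Fintype.sum_prod_type', Finset.mul_sum]
  have : ∑ p : (α → β) × β, h (Function.update p.1 i p.2) = ∑ p : (α → β) × β, h p.1 :=
    Equiv.sum_comp e (fun p => h p.1)
  rw [this, Fintype.sum_prod_type]
  simp [Finset.card_univ]

lemma sum_eval_path (i : Fin K) (f : P n → ℝ) :
    (2 : ℝ) ^ n * ∑ a : Fin K → P n, f (a i) = (2 ^ n) ^ K * ∑ b, f b := by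
  have := sum_update i (fun a : Fin K → P n => f (a i))
  simp only [Function.update_self, Finset.sum_const, Finset.card_univ, Fintype.card_fun,
    Fintype.card_fin, nsmul_eq_mul] at this
  push_cast at this
  exact this.symm

lemma der_ex_Zp (v0 v : Fin K × P n) (h : v ≠ v0) :
    der (ex v0) (Zp v) = C (if v.1.val = v0.1.val + 1 then UU v0.2 v.2 else 0) * Xp v := by
  rw [Zp, Derivation.leibniz, der_Xp _ _ (by simp [ex, h]), Yp]
  by_cases h0 : v.1.val = 0
  · rw [if_pos h0, der_X_none, if_neg (by omega)]; simp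
  · rw [if_neg h0, der_lin, ex_dot, uy]
    simp only [mul_zero, zero_add, smul_eq_mul, mul_comm (Xp v)]
    by_cases h1 : v.1.val = v0.1.val + 1
    · rw [if_pos h1, if_pos (by omega)]
    · rw [if_neg h1, if_neg (by omega)]

/-- the `j`-th term of the chain -/
noncomputable def tt (ε : ℝ≥0) (t : ℝ) (g : (Fin K × P n → Bool) → ℝ) (j : Fin K) : ℝ :=
  ∑ a : Fin K → P n, Wp j a * EL ε t (Xp (j, a j) * DP g Zp (Ip j a))

lemma tt_step (ε : ℝ≥0) (t : ℝ) (g : (Fin K × P n → Bool) → ℝ) {j : ℕ} (h : j + 1 < K) :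
    tt ε t g ⟨j, by omega⟩ = ε * 2 ^ n * tt ε t g ⟨j + 1, h⟩ := by
  unfold tt
  have h1 := sum_update (⟨j + 1, h⟩ : Fin K) (fun a : Fin K → P n =>
    Wp (j + 1) a * EL ε t (Xp (⟨j + 1, h⟩, a ⟨j + 1, h⟩) * DP g Zp (Ip (j + 1) a)))
  rw [card_P] at h1
  push_cast at h1
  rw [mul_assoc, ← h1, Finset.mul_sum]
  refine Finset.sum_congr rfl fun a _ => ?_
  simp only [Wp_update, Ip_update, Function.update_self]
  rw [Xp, if_neg (by simp; omega), stein_lin, der_DP]
  have h2 : ∑ v ∈ univ \ Ip j a, der (ex ((⟨j, by omega⟩ : Fin K), a ⟨j, by omega⟩)) (Zp v) *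
      DP g Zp (insert v (Ip j a)) =
      ∑ c : P n, C (UU (a ⟨j, by omega⟩) c) *
        (Xp (⟨j + 1, h⟩, c) * DP g Zp (insert (⟨j + 1, h⟩, c) (Ip j a))) := by
    have h3 : ∀ v ∈ univ \ Ip j a,
        der (ex ((⟨j, by omega⟩ : Fin K), a ⟨j, by omega⟩)) (Zp v) * DP g Zp (insert v (Ip j a)) =
        C (if v.1.val = j + 1 then UU (a ⟨j, by omega⟩) v.2 else 0) *
          (Xp v * DP g Zp (insert v (Ip j a))) := by
      intro v hv
      rw [der_ex_Zp, mul_assoc]
      rintro rfl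
      simp [mem_Ip] at hv
    rw [Finset.sum_congr rfl h3, Finset.sum_subset (Finset.sdiff_subset (s := univ)),
      Fintype.sum_prod_type, Finset.sum_eq_single (⟨j + 1, h⟩ : Fin K)]
    · simp
    · intro i _ hi
      have : i.val ≠ j + 1 := fun h' => hi (Fin.ext h')
      simp [this]
    · simp
    · intro v _ hv
      have hv' : v ∈ Ip j a := by simpa using hv
      have := (mem_Ip.mp hv').1
      rw [if_neg (by omega)]; simp
  rw [h2, map_sum, Finset.mul_sum, Finset.mul_sum, Finset.mul_sum]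
  refine Finset.sum_congr rfl fun c _ => ?_
  rw [EL_C_mul]; ring

lemma tt_zero_eq (ε : ℝ≥0) (t : ℝ) (g : (Fin K × P n → Bool) → ℝ) (hK : 0 < K) (j : ℕ)
    (h : j < K) : tt ε t g ⟨0, hK⟩ = (ε * 2 ^ n) ^ j * tt ε t g ⟨j, h⟩ := by
  induction j with
  | zero => simp
  | succ j ih => rw [ih (by omega), tt_step ε t g h]; ring

lemma pderiv_none_Zp (v : Fin K × P n) :
    pderiv none (Zp v) = if v.1.val = 0 then Xp v else 0 := by
  have h1 : pderiv none (Xp v) = 0 := by
    unfold Xp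
    split_ifs
    · simp
    · exact pderiv_none_lin _
  rw [Zp, pderiv_mul, h1, Yp]
  split_ifs
  · simp
  · simp [pderiv_none_lin]

lemma tt_zero (ε : ℝ≥0) (t : ℝ) (g : (Fin K × P n → Bool) → ℝ) (hK : 0 < K) :
    (2 : ℝ) ^ n * tt ε t g ⟨0, hK⟩ = (2 ^ n) ^ K * EL ε t (pderiv none (DP g Zp ∅)) := by
  have h1 : ∀ a : Fin K → P n, Ip 0 a = {(⟨0, hK⟩, a ⟨0, hK⟩)} := by
    intro a
    ext ⟨i, b⟩
    simp only [mem_Ip, Finset.mem_singleton, Prod.mk.injEq]
    constructor
    · rintro ⟨h1, h2⟩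
      have : i = ⟨0, hK⟩ := Fin.ext (by simp; omega)
      subst this
      exact ⟨rfl, h2⟩
    · rintro ⟨rfl, h2⟩
      exact ⟨le_rfl, h2⟩
  unfold tt
  simp only [Wp, Finset.range_zero, Finset.prod_empty, one_mul, h1]
  rw [sum_eval_path ⟨0, hK⟩ (fun b => EL ε t (Xp (⟨0, hK⟩, b) * DP g Zp {(⟨0, hK⟩, b)})),
    der_DP, Finset.sdiff_empty, Fintype.sum_prod_type, Finset.sum_eq_single (⟨0, hK⟩ : Fin K),
    map_sum]
  · simp [pderiv_none_Zp]
  · intro i _ hi
    have : i.val ≠ 0 := fun h' => hi (Fin.ext h')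
    simp [pderiv_none_Zp, this]
  · simp

/-- the polynomial whose expectation is the derivative -/
noncomputable def LP (g : (Fin K × P n → Bool) → ℝ) : MvPolynomial (Option (Fin K × P n)) ℝ :=
  ∑ a : Fin K → P n, C (Wp (K - 1) a) * DP g Zp (Ip (K - 1) a)

theorem EL_pderiv_DP (ε : ℝ≥0) (t : ℝ) (g : (Fin K × P n → Bool) → ℝ) (hK : 0 < K) :
    EL ε t (pderiv none (DP g Zp ∅)) = ε ^ (K - 1) * EL ε t (LP g) := by
  have h1 := tt_zero ε t g hK
  rw [tt_zero_eq ε t g hK (K - 1) (by omega)] at h1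
  have h2 : tt ε t g ⟨K - 1, by omega⟩ = EL ε t (LP g) := by
    unfold tt LP
    rw [map_sum]
    refine Finset.sum_congr rfl fun a _ => ?_
    rw [EL_C_mul, Xp, if_pos (by simp; omega), one_mul]
  rw [h2] at h1
  have h3 : ((2 : ℝ) ^ n) ^ K = 2 ^ n * (2 ^ n) ^ (K - 1) := by
    rw [← pow_succ']; congr 1; omega
  have h4 : ((2 : ℝ) ^ n) ^ K ≠ 0 := by positivity
  apply mul_left_cancel₀ h4
  rw [← h1, h3, mul_pow]; ring

end Crest.Agent.R350
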