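import Mathlib
import Crest.Prelude.Def_QueryComplexity

/-! Definitions for row 350: decision-tree functions, K-fold forrelation, the total function. -/

open Finset

namespace Crest.Agent.R350

/-- sign of a bit -/
def sg (b : Bool) : ℝ := if b then -1 else 1

/-- integer sign of a bit -/
def sgZ (b : Bool) : ℤ := if b then -1 else 1

/-- real functions with values in `[-1,1]` computed by decision trees of depth at most `d` -/
inductive DT {ι : Type} : ℕ → ((ι → Bool) → ℝ) → Prop
  | const (d : ℕ) (c : ℝ) (h : |c| ≤ 1) : DT d (fun _ => c)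
  | node (d : ℕ) (v : ι) (g0 g1 : (ι → Bool) → ℝ) (h0 : DT d g0) (h1 : DT d g1) :
      DT (d + 1) (fun x => if x v then g1 x else g0 x)

/-- the partial derivative `∂_I` of the multilinear extension of `g` at the point `z` -/
noncomputable def Dv {V : Type} [Fintype V] [DecidableEq V] (g : (V → Bool) → ℝ) (z : V → ℝ)
    (I : Finset V) : ℝ :=
  ∑ w : V → Bool, g w * ((∏ v ∈ I, sg (w v) / 2) * ∏ v ∈ univ \ I, (1 + sg (w v) * z v) / 2)

/-- a linear combination of partial derivatives -/
noncomputable def Lam {V : Type} [Fintype V] [DecidableEq V] (g : (V → Bool) → ℝ) (z : V → ℝ)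
    (c : Finset V → ℝ) : ℝ :=
  ∑ I : Finset V, c I * Dv g z I

/-- positions, candidates and addresses -/
abbrev P (n : ℕ) : Type := Fin n → Bool

/-- entries of the Hadamard matrix -/
def had {n : ℕ} (u v : P n) : ℤ := ∏ t, if u t && v t then -1 else 1

/-- the sign vector of block `i` (all ones outside the range) -/
def zz {K n : ℕ} (z : Fin K × P n → Bool) (i : ℕ) (u : P n) : ℤ :=
  if h : i < K then sgZ (z (⟨i, h⟩, u)) else 1

/-- unnormalised forrelation vectors -/
def fvec {K n : ℕ} (z : Fin K × P n → Bool) : ℕ → P n → ℤ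
  | 0 => fun _ => 1
  | i + 1 => fun u => ∑ v, had u v * (zz z i v * fvec z i v)

/-- the `K`-fold forrelation -/
noncomputable def phi {K n : ℕ} (z : Fin K × P n → Bool) : ℝ :=
  (fvec z K (fun _ => false) : ℝ) / Real.sqrt (2 ^ n) ^ (K + 1)

/-- index of the forrelation bits of one candidate -/
abbrev ZIx (K n R : ℕ) : Type := Fin n × Fin R × (Fin K × P n)

/-- index of the trace values of one cell -/
abbrev TIx (K n R : ℕ) : Type := Fin n × Fin R × Fin K × Fin (n + 1) × P n

/-- index of the bits of one cell: mark, pointers, trace -/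
abbrev CIx (K n R B : ℕ) : Type := Unit ⊕ (P n × Fin n) ⊕ (TIx K n R × Fin B)

/-- index of the bits of one candidate -/
abbrev BIx (K n R B : ℕ) : Type := ZIx K n R ⊕ (P n × CIx K n R B)

/-- index of all input bits -/
abbrev Ix (K n R B : ℕ) : Type := P n × BIx K n R B

/-- decoding of `B` bits into an integer -/
noncomputable def dec (B : ℕ) (b : Fin B → Bool) : ℤ :=
  ((Fintype.equivFin (Fin B → Bool) b : ℕ) : ℤ) - 2 ^ (B - 1)

section
variable {K n R B : ℕ}

def zOf (x : Ix K n R B → Bool) (j : P n) (l : Fin n) (ρ : Fin R) : Fin K × P n → Bool :=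
  fun v => x (j, Sum.inl (l, ρ, v))

def mark (x : Ix K n R B → Bool) (j a : P n) : Bool := x (j, Sum.inr (a, Sum.inl ()))

def ptr (x : Ix K n R B → Bool) (j a i : P n) : P n :=
  fun t => x (j, Sum.inr (a, Sum.inr (Sum.inl (i, t))))

/-- the stored trace value -/
noncomputable def rd (x : Ix K n R B → Bool) (j a : P n) (l : Fin n) (ρ : Fin R) (i s : ℕ)
    (u : P n) : ℤ :=
  if h : i < K ∧ s < n + 1 then
    dec B (fun t => x (j, Sum.inr (a, Sum.inr (Sum.inr ((l, ρ, ⟨i, h.1⟩, ⟨s, h.2⟩, u), t)))))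
  else 0

/-- the local rule of the fast Hadamard transform -/
def rule (z : Fin K × P n → Bool) (w : ℕ → ℕ → P n → ℤ) (i : ℕ) : ℕ → P n → ℤ
  | 0 => fun u => zz z i u * (if i = 0 then 1 else w (i - 1) n u)
  | s + 1 => fun u =>
      if h : s < n then
        w i s (Function.update u ⟨s, h⟩ false)
          + sgZ (u ⟨s, h⟩) * w i s (Function.update u ⟨s, h⟩ true)
      else 0

/-- the local constraints of a cell -/
abbrev Con (K n R : ℕ) : Type := P n ⊕ P n ⊕ TIx K n R ⊕ Fin n

/-- the cell `(j, a)` satisfies the constraint `c` -/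
def ok (θ : ℝ) (x : Ix K n R B → Bool) (j a : P n) : Con K n R → Prop
  | Sum.inl a' => mark x j a' = true
  | Sum.inr (Sum.inl i) => i = j ∨ mark x i (ptr x j a i) = false
  | Sum.inr (Sum.inr (Sum.inl (l, ρ, i, s, u))) =>
      rd x j a l ρ i s u = rule (zOf x j l ρ) (rd x j a l ρ) i s u
  | Sum.inr (Sum.inr (Sum.inr l)) =>
      θ ≤ sg (a l) * ∑ ρ : Fin R,
        (rd x j a l ρ (K - 1) n (fun _ => false) : ℝ) / Real.sqrt (2 ^ n) ^ (K + 1)

open Classical in
/-- the total function -/
noncomputable def FF (θ : ℝ) (x : Ix K n R B → Bool) : Bool :=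
  decide (∃ j a, ∀ c, ok θ x j a c)

end

end Crest.Agent.R350
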