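import Crest.Agent.R350.Trunc

/-! The hard distributions for `K`-fold forrelation. -/

open MvPolynomial Finset MeasureTheory
open scoped NNReal

namespace Crest.Agent.R350

variable {K n : ℕ}

lemma measurableSet_good : MeasurableSet {x : Fin K × P n → ℝ | good x} := by
  refine IsClosed.measurableSet ?_
  simp only [good, Set.ofPred_forall]
  refine isClosed_iInter fun k => isClosed_iInter fun b => isClosed_le ?_ continuous_const
  unfold LL
  fun_prop

open Classical in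
/-- the truncated weight -/
noncomputable def tw (t : ℝ) (w : Fin K × P n → Bool) (x : Fin K × P n → ℝ) : ℝ :=
  if good x then wt (zt t x) w else wt (fun _ => 0) w

lemma integrable_tw (ε : ℝ≥0) (t : ℝ) (w : Fin K × P n → Bool) :
    Integrable (tw t w) (gm (Fin K × P n) ε) := by
  classical
  have h1 : Integrable (fun x => wt (zt t x) w) (gm (Fin K × P n) ε) := by
    have := integrable_eval ε t (∏ v, (C (1 / 2) + C (sg (w v) / 2) * Zp v))
    refine this.congr (Filter.Eventually.of_forall fun x => ?_)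
    simp only [map_prod, map_add, map_mul, eval_C, wt, zt]
    exact Finset.prod_congr rfl fun v _ => by ring
  have h2 := Integrable.piecewise (s := {x : Fin K × P n → ℝ | good x}) measurableSet_good
    h1.integrableOn (integrable_const (wt (fun _ => 0) w)).integrableOn
  refine h2.congr (Filter.Eventually.of_forall fun x => ?_)
  simp only [Set.piecewise, tw, Set.mem_ofPred_eq]

/-- the hard distribution -/
noncomputable def DD (ε : ℝ≥0) (t : ℝ) (w : Fin K × P n → Bool) : ℝ :=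
  ∫ x, tw t w x ∂gm (Fin K × P n) ε

lemma DD_nonneg (hK : 2 ≤ K) (ε : ℝ≥0) {t : ℝ} (ht : |t| ≤ 1) (w : Fin K × P n → Bool) :
    0 ≤ DD ε t w := by
  refine integral_nonneg fun x => ?_
  simp only [tw, Pi.zero_apply]
  split_ifs with h
  · exact wt_nonneg _ (fun v => (abs_zt_good hK ht h v).trans (by norm_num)) w
  · exact wt_nonneg _ (fun v => by simp) w

lemma sum_DD_mul (ε : ℝ≥0) (t : ℝ) (g : (Fin K × P n → Bool) → ℝ) :
    ∑ w, DD ε t w * g w = ∫ x, ∑ w, tw t w x * g w ∂gm (Fin K × P n) ε := by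
  rw [integral_finsetSum _ fun w _ => (integrable_tw ε t w).mul_const _]
  simp_rw [integral_mul_const]
  rfl

lemma sum_DD (ε : ℝ≥0) (t : ℝ) : ∑ w : Fin K × P n → Bool, DD ε t w = 1 := by
  have := sum_DD_mul (K := K) (n := n) ε t (fun _ => 1)
  simp only [mul_one] at this
  rw [this]
  have h : ∀ x : Fin K × P n → ℝ, ∑ w, tw t w x = 1 := by
    intro x
    unfold tw
    split_ifs <;> exact sum_wt _
  simp [h]

lemma trunc_le (hK : 1 ≤ K) {r : ℕ} (hr : 2 * K ≤ r) {lam : ℝ} (hlam : 0 < lam) (ε : ℝ≥0) {t : ℝ}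
    (ht : |t| ≤ 1) (g : (Fin K × P n → Bool) → ℝ) (hg : ∀ w, |g w| ≤ 1) :
    |∑ w, DD ε t w * g w - EL ε t (DP g Zp ∅)| ≤ 2 * EL ε t (ErrP K n r lam) := by
  have hi : Integrable (fun x => ∑ w, tw t w x * g w) (gm (Fin K × P n) ε) :=
    integrable_finsetSum _ fun w _ => (integrable_tw ε t w).mul_const _
  rw [sum_DD_mul, EL_apply, EL_apply, ← integral_sub hi (integrable_eval _ _ _),
    ← integral_const_mul]
  refine abs_integral_le_integral_abs.trans (integral_mono (hi.sub (integrable_eval _ _ _)).abs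
    ((integrable_eval _ _ _).const_mul _) fun x => ?_)
  simp only [eval_DP]
  unfold tw
  split_ifs with h
  · rw [← Dv_empty]
    have := eval_ErrP_nonneg (K := K) (n := n) r hlam t x
    change |Dv g (zt t x) ∅ - Dv g (zt t x) ∅| ≤ _
    rw [sub_self, abs_zero]
    linarith
  · rw [← Dv_empty]
    have h1 := abs_Dv_le g hg (fun _ => 0) ∅
    have h2 := (abs_Dv_le g hg (zt t x) ∅).trans (prod_zt_le ht x)
    have h3 := AA_le_ErrP hK hr hlam t h
    have h4 := one_le_AA x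
    simp only [abs_zero, zero_le_one, sup_of_le_left, Finset.prod_const_one] at h1
    have h5 := abs_sub (Dv g (fun _ => 0) ∅) (Dv g (zt t x) ∅)
    change |Dv g (fun _ => 0) ∅ - Dv g (zt t x) ∅| ≤ _
    linarith

lemma abs_EL_LP_le (hK : 2 ≤ K) (hn : 1 ≤ n) {r : ℕ} (hr : 2 * K ≤ r) {lam : ℝ} (hlam : 0 < lam)
    (ε : ℝ≥0) {t : ℝ} (ht : |t| ≤ 1) (d : ℕ) (hd : 1 ≤ d) (g : (Fin K × P n → Bool) → ℝ)
    (hg : DT d g) :
    |EL ε t (LP g)| ≤ (60 * n * Real.sqrt d) ^ K / Real.sqrt (2 ^ n) ^ (K - 1) +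
      (2 ^ n) ^ K * EL ε t (ErrP K n r lam) := by
  set β := (60 * n * Real.sqrt d) ^ K / Real.sqrt (2 ^ n) ^ (K - 1) with hβ
  have hβ0 : 0 ≤ β := by positivity
  have hp : ∀ x, |eval (ext t x) (LP g)| ≤
      eval (ext t x) (C β + C ((2 ^ n) ^ K) * ErrP K n r lam) := by
    intro x
    rw [eval_LP, map_add, map_mul, eval_C, eval_C]
    have h0 := eval_ErrP_nonneg (K := K) (n := n) r hlam t x
    by_cases h : good x
    · have := abs_Lam_good (by omega) hn d hd g hg (zt t x) (abs_zt_good hK ht h)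
      exact this.trans (le_add_of_nonneg_right (by positivity))
    · have h1 := abs_Lam_crude g hg.abs_le (zt t x)
      have h2 := (prod_zt_le ht x).trans (AA_le_ErrP (by omega) hr hlam t h)
      refine h1.trans (le_add_of_nonneg_of_le hβ0 ?_)
      gcongr
  rw [← EL_C_mul, ← EL_C (σ := Fin K × P n) ε t β, ← map_add, abs_le]
  constructor
  · rw [← map_neg]
    exact EL_mono _ _ fun x => by rw [map_neg]; exact (abs_le.mp (hp x)).1
  · exact EL_mono _ _ fun x => (abs_le.mp (hp x)).2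

theorem hard_dist (K n : ℕ) (hK : 2 ≤ K) (hn : 1 ≤ n) (s : Bool) :
    ∃ D : (Fin K × P n → Bool) → ℝ, (∀ w, 0 ≤ D w) ∧ ∑ w, D w = 1 ∧
      (1 / ((16 * (4 * K + 13) * n : ℕ) : ℝ)) ^ (K - 1) - 1 / 2 ^ n ≤ sg s * ∑ w, D w * phi w ∧
      ∀ (d : ℕ) (g : (Fin K × P n → Bool) → ℝ), 1 ≤ d → DT d g →
        |∑ w, D w * g w - (∑ w, g w) / 2 ^ (K * 2 ^ n)| ≤
          (60 * n * Real.sqrt d) ^ K / Real.sqrt (2 ^ n) ^ (K - 1) + 1 / 2 ^ n := by
  obtain ⟨ε, hε⟩ : ∃ ε : ℝ≥0, (ε : ℝ) = 1 / ((16 * (4 * K + 13) * n : ℕ) : ℝ) :=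
    ⟨⟨_, by positivity⟩, rfl⟩
  have hs : |sg s| ≤ 1 := (abs_sg s).le
  have hK0 : (0 : ℝ) < K := by exact_mod_cast (show 0 < K by omega)
  have hlam : (0 : ℝ) < 36 * K * (2 ^ n) ^ (K + 1) := by positivity
  have hr : 2 * K ≤ (4 * K + 13) * n := by nlinarith
  have herr := EL_ErrP_le (K := K) (n := n) (by omega) hn ε hε
  have hε1 : (ε : ℝ) ≤ 1 := by
    rw [hε, div_le_one (by positivity)]
    exact_mod_cast (show 1 ≤ 16 * (4 * K + 13) * n by nlinarith)
  have hder : ∀ (g : (Fin K × P n → Bool) → ℝ) (t : ℝ),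
      HasDerivAt (fun t => EL ε t (DP g Zp ∅)) (ε ^ (K - 1) * EL ε t (LP g)) t := by
    intro g t
    rw [← EL_pderiv_DP ε t g (by omega)]
    exact hasDerivAt_EL ε _ t
  set M : ℝ := 2 ^ n with hM
  have hM1 : 1 ≤ M := one_le_pow₀ (by norm_num)
  have hMK : 1 ≤ M ^ K := one_le_pow₀ hM1
  refine ⟨DD ε (sg s), DD_nonneg hK ε hs, sum_DD ε _, ?_, ?_⟩
  · have h1 : ∀ t, EL ε t (LP (K := K) (n := n) phi) = 1 := by
      intro t
      simp [EL_apply, eval_LP, Lam_phi (show 1 ≤ K by omega)]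
    have h2 : ∀ t, HasDerivAt (fun t => EL ε t (DP (phi (K := K) (n := n)) Zp ∅) - ε ^ (K - 1) * t)
        0 t := by
      intro t
      have := (hder phi t).sub ((hasDerivAt_id t).const_mul ((ε : ℝ) ^ (K - 1)))
      rw [h1, sub_self] at this
      exact this
    have h3 := is_const_of_deriv_eq_zero (fun t => (h2 t).differentiableAt)
      (fun t => (h2 t).deriv) (sg s) 0
    rw [EL_zero_DP, sum_phi (by omega), zero_div, mul_zero, sub_zero, sub_eq_zero] at h3
    have h4 := trunc_le (by omega) hr hlam ε hs (phi (K := K) (n := n)) abs_phi_le_one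
    rw [h3] at h4
    have h5 : 2 * (1 / (3 * M ^ (K + 1))) ≤ 1 / M := by
      rw [pow_succ, mul_one_div, div_le_div_iff₀ (by positivity) (by positivity)]
      nlinarith
    have h6 := herr (sg s)
    have h7 : |sg s * (∑ w, DD ε (sg s) w * phi (K := K) (n := n) w - ε ^ (K - 1) * sg s)|
        ≤ 1 / M := by
      rw [abs_mul, abs_sg, one_mul]; linarith
    have h8 := (abs_le.mp h7).1
    rw [mul_sub, mul_left_comm, sg_mul_self, mul_one] at h8
    rw [← hε]
    linarith
  · intro d g hd hg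
    set β := (60 * n * Real.sqrt d) ^ K / Real.sqrt (2 ^ n) ^ (K - 1) with hβ
    have hβ0 : 0 ≤ β := by positivity
    have h1 : ∀ t ∈ Set.Icc (-1 : ℝ) 1,
        ‖(ε : ℝ) ^ (K - 1) * EL ε t (LP g)‖ ≤ β + M ^ K * (1 / (3 * M ^ (K + 1))) := by
      intro t ht
      have h2 := abs_EL_LP_le hK hn hr hlam ε (abs_le.mpr ht) d hd g hg
      rw [Real.norm_eq_abs, abs_mul, abs_of_nonneg (by positivity)]
      refine (mul_le_of_le_one_left (abs_nonneg _) (pow_le_one₀ ε.2 hε1)).trans (h2.trans ?_)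
      have := herr t
      gcongr
    have h2 := (convex_Icc (-1 : ℝ) 1).norm_image_sub_le_of_norm_hasDerivWithin_le
      (fun t _ => (hder g t).hasDerivWithinAt) h1 (x := 0) (y := sg s) (by simp) (abs_le.mp hs)
    rw [sub_zero, Real.norm_eq_abs, Real.norm_eq_abs, abs_sg, mul_one, EL_zero_DP] at h2
    have h4 := trunc_le (by omega) hr hlam ε hs g hg.abs_le
    have h6 := herr (sg s)
    have h5 : 2 * (1 / (3 * M ^ (K + 1))) + M ^ K * (1 / (3 * M ^ (K + 1))) ≤ 1 / M := by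
      rw [← add_mul, pow_succ, mul_one_div, div_le_div_iff₀ (by positivity) (by positivity)]
      nlinarith
    have h7 := abs_sub_le (∑ w, DD ε (sg s) w * g w) (EL ε (sg s) (DP g Zp ∅))
      ((∑ w, g w) / 2 ^ (K * 2 ^ n))
    linarith

end Crest.Agent.R350
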