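import Crest.Agent.R350.Asym
import Crest.Agent.R350.Hard

/-! The randomized lower bound with the chosen parameters. -/

open Finset

namespace Crest.Agent.R350

theorem lower' (k : ℕ) (hk : 2 ≤ k) : ∃ j0 : ℕ, ∀ j n : ℕ, j0 ≤ j → n = 2 * j → ∀ (N : ℕ)
    (e : Ix (2 * k) n (pR k n) (pB k n) ≃ Fin N) (r : ℕ),
    Crest.MathPhysics.Query.RandomizedComputes
      (fun y : Fin N → Bool => FF (1 / (pg k n : ℝ) * (pR k n) / 2) (fun v => y (e v))) r →
    ((2 : ℝ) ^ n) ^ (2 - 1 / (k : ℝ)) ≤ 6 * r := by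
  have hg := poly_pg k
  have hR := poly_pR k
  have p1 : Poly (fun n => 20 * (n * pR k n * ((60 * n) ^ (2 * k) * 2 ^ k + 1))) := by poly_tac
  have p2 : Poly (fun n => 4 * pg k n) := by poly_tac
  have p3 : Poly (fun _ => 40 ^ k) := by poly_tac
  obtain ⟨j1, hj1⟩ := p1.small
  obtain ⟨j2, hj2⟩ := p2.small
  obtain ⟨j3, hj3⟩ := p3.small
  refine ⟨j1 + j2 + j3 + 1, fun j n hj hn N e r hr => ?_⟩
  have q1 := hj1 j (by omega)
  have q2 := hj2 j (by omega)
  have q3 := hj3 j (by omega)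
  rw [← hn] at q1 q2
  have hn1 : 1 ≤ n := by omega
  have hjn : 2 ^ j ≤ 2 ^ n := Nat.pow_le_pow_right (by norm_num) (by omega)
  have hgp := pg_pos (k := k) hn1
  have hgp' : (1 : ℝ) ≤ pg k n := by exact_mod_cast hgp
  have hk0 : (0 : ℝ) < k := by exact_mod_cast (by omega : 0 < k)
  have hk1 : (1 : ℝ) ≤ k := by exact_mod_cast (by omega : 1 ≤ k)
  have hm1 : (1 : ℝ) ≤ 2 ^ n := one_le_pow₀ (by norm_num)
  set x : ℝ := ((2 : ℝ) ^ n) ^ (1 - 1 / (k : ℝ)) with hx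
  have hx1 : 1 ≤ x := Real.one_le_rpow hm1 (by
    rw [sub_nonneg, div_le_one hk0]; exact hk1)
  have hxk : x ^ k = ((2 : ℝ) ^ n) ^ (k - 1) := by
    rw [hx, ← Real.rpow_natCast, ← Real.rpow_mul (by positivity),
      ← Real.rpow_natCast _ (k - 1)]
    congr 1
    rw [Nat.cast_sub (by omega)]
    field_simp
    simp
  set d := ⌈x⌉₊ with hd
  have hd1 : x ≤ d := Nat.le_ceil x
  have hd2 : (d : ℝ) ≤ 2 * x := by
    have := Nat.ceil_lt_add_one (a := x) (by linarith)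
    linarith
  have hd0 : 1 ≤ d := by
    have : (1 : ℝ) ≤ d := hx1.trans hd1
    exact_mod_cast this
  have hdk : (d : ℝ) ^ k ≤ 2 ^ k * ((2 : ℝ) ^ n) ^ (k - 1) := by
    rw [← hxk, ← mul_pow]
    exact pow_le_pow_left₀ (Nat.cast_nonneg _) hd2 k
  choose D hD0 hD1 hD2 hD3 using fun s => hard_dist (2 * k) n (by omega) hn1 s
  have h2j : (0 : ℝ) < 2 ^ j := by positivity
  have hsq : Real.sqrt (2 ^ n) = 2 ^ j := by
    rw [hn, mul_comm, pow_mul, Real.sqrt_sq h2j.le]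
  have key := lower (K := 2 * k) (n := n) (R := pR k n) (B := pB k n) (by omega) le_rfl
    (1 / (pg k n : ℝ)) ((((60 * n) ^ (2 * k) * 2 ^ k + 1 : ℕ) : ℝ) / 2 ^ j) (by positivity)
    (by rw [div_le_one (by positivity)]; exact hgp') d hd0 D hD0 hD1
    (fun s => by
      refine le_trans ?_ (hD2 s)
      have e1 : (1 / ((16 * (4 * (2 * k) + 13) * n : ℕ) : ℝ)) ^ (2 * k - 1) = 1 / (pg k n : ℝ) := by
        rw [pg, one_div_pow, Nat.cast_pow]
      rw [e1]
      have e2 : (4 : ℝ) * pg k n ≤ 2 ^ n := by exact_mod_cast q2.trans hjn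
      have e3 : (1 : ℝ) / 2 ^ n ≤ 1 / (4 * pg k n) :=
        one_div_le_one_div_of_le (by positivity) e2
      have e4 : (1 : ℝ) / (4 * pg k n) = 1 / pg k n / 4 := by field_simp
      linarith)
    (fun s g hg => by
      refine (hD3 s d g hd0 hg).trans ?_
      have e1 : (1 : ℝ) / 2 ^ n ≤ 1 / 2 ^ j :=
        one_div_le_one_div_of_le h2j (by exact_mod_cast hjn)
      have e2 : (60 * n * Real.sqrt d) ^ (2 * k) / Real.sqrt (2 ^ n) ^ (2 * k - 1) ≤
          (60 * n) ^ (2 * k) * 2 ^ k / 2 ^ j := by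
        rw [hsq, mul_pow, pow_mul (Real.sqrt d), Real.sq_sqrt (Nat.cast_nonneg _),
          div_le_div_iff₀ (by positivity) h2j]
        have e3 : ((2 : ℝ) ^ j) ^ (2 * k - 1) = ((2 : ℝ) ^ n) ^ (k - 1) * 2 ^ j := by
          rw [hn, ← pow_mul, ← pow_mul, ← pow_add]
          congr 1
          obtain ⟨k', rfl⟩ : ∃ k', k = k' + 1 := ⟨k - 1, by omega⟩
          have : 2 * (k' + 1) - 1 = 2 * k' + 1 := by omega
          rw [this, Nat.add_sub_cancel]
          ring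
        rw [e3]
        calc _ ≤ (60 * n) ^ (2 * k) * (2 ^ k * ((2 : ℝ) ^ n) ^ (k - 1)) * 2 ^ j := by gcongr
          _ = _ := by ring
      push_cast
      rw [add_div]
      linarith)
    (by
      have e1 : (20 : ℝ) * (n * pR k n * (((60 * n) ^ (2 * k) * 2 ^ k + 1 : ℕ) : ℝ)) ≤ 2 ^ j := by
        exact_mod_cast q1
      rw [← mul_div_assoc, div_le_iff₀ h2j]
      linarith)
    (by
      have e1 : ((20 * d : ℕ) : ℝ) ^ k ≤ ((2 : ℝ) ^ n) ^ k := by
        have e2 : (40 : ℝ) ^ k ≤ 2 ^ n := by exact_mod_cast q3.trans hjn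
        have e3 : ((2 : ℝ) ^ n) ^ k = 2 ^ n * ((2 : ℝ) ^ n) ^ (k - 1) := by
          rw [← pow_succ']; congr 1; omega
        push_cast
        rw [mul_pow, e3]
        calc (20 : ℝ) ^ k * (d : ℝ) ^ k ≤ 20 ^ k * (2 ^ k * ((2 : ℝ) ^ n) ^ (k - 1)) := by gcongr
          _ = 40 ^ k * ((2 : ℝ) ^ n) ^ (k - 1) := by
            rw [← mul_assoc, ← mul_pow]; norm_num
          _ ≤ _ := by gcongr
      have e4 := le_of_pow_le_pow_left₀ (by omega) (by positivity) e1
      exact_mod_cast e4)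
    (by
      have : (pR k n : ℝ) * (1 / (pg k n : ℝ)) ^ 2 / 64 = (n : ℝ) + (4 : ℕ) := by
        unfold pR; push_cast; field_simp
      rw [this]
      exact mul_exp_le n 4 20 (by norm_num) (le_trans (by norm_num) (le_exp_nat 4)))
    N e r hr
  have key' : (2 : ℝ) ^ n * d ≤ 6 * r := by exact_mod_cast key
  have e1 : ((2 : ℝ) ^ n) ^ (2 - 1 / (k : ℝ)) = 2 ^ n * x := by
    rw [hx, ← Real.rpow_one_add' (by positivity) (by
      have : 1 / (k : ℝ) ≤ 1 := by rw [div_le_one hk0]; exact hk1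
      intro h; linarith)]
    congr 1; ring
  rw [e1]
  exact le_trans (by gcongr) key'

end Crest.Agent.R350
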