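import Crest.Agent.R350.Search
import Crest.Agent.R350.Trace

/-! The forrelation test and the address decoder. -/

open Finset Matrix

namespace Crest.Agent.R350

variable {K n : ℕ}

/-- the normalised Hadamard matrix -/
noncomputable def Um (n : ℕ) : Matrix (P n) (P n) ℂ :=
  Matrix.of fun u v => (((had u v : ℝ) / Real.sqrt (2 ^ n) : ℝ) : ℂ)

lemma Um_unitary : Um n ∈ Matrix.unitaryGroup (P n) ℂ := by
  rw [Matrix.mem_unitaryGroup_iff]
  ext u u'
  rw [Matrix.mul_apply, Matrix.one_apply]
  simp only [Um, Matrix.star_apply, Matrix.of_apply, Complex.star_def, Complex.conj_ofReal]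
  have h2 : (0 : ℝ) < 2 ^ n := by positivity
  have h1 : ∑ v, ((had u v : ℝ) / Real.sqrt (2 ^ n)) * ((had u' v : ℝ) / Real.sqrt (2 ^ n))
      = if u = u' then 1 else 0 := by
    have h3 : ∀ v, ((had u v : ℝ) / Real.sqrt (2 ^ n)) * ((had u' v : ℝ) / Real.sqrt (2 ^ n))
        = ((had u v * had u' v : ℤ) : ℝ) / 2 ^ n := by
      intro v
      rw [div_mul_div_comm, Real.mul_self_sqrt h2.le]; push_cast; ring
    simp only [h3, ← sum_div]
    rw [← Int.cast_sum, had_orth]
    split_ifs
    · push_cast; field_simp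
    · simp
  have h4 := congrArg Complex.ofReal h1
  rw [Complex.ofReal_sum] at h4
  simp only [Complex.ofReal_mul] at h4
  rw [h4]
  split_ifs <;> simp

/-- query pattern of fold `i` -/
def qf (K n i : ℕ) : P n → Option (Fin K × P n) :=
  fun u => if h : i < K then some (⟨i, h⟩, u) else none

/-- the forrelation circuit -/
noncomputable def Wm (z : Fin K × P n → Bool) : ℕ → Matrix (P n) (P n) ℂ
  | 0 => Um n
  | i + 1 => Um n * phase (qf K n i) z * Wm z i

lemma Wm_impl : ∀ i : ℕ, Impl i (fun z : Fin K × P n → Bool => Wm z i)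
  | 0 => Impl.const Um_unitary
  | i + 1 => ⟨Um n, qf K n i, _, Um_unitary, Wm_impl i, fun _ => rfl⟩

lemma ph_qf (z : Fin K × P n → Bool) (i : ℕ) (u : P n) :
    ph (qf K n i u) z = ((zz z i u : ℝ) : ℂ) := by
  unfold qf zz
  split_ifs with h
  · simp only [ph, sgZ]; split_ifs <;> simp
  · simp [ph]

lemma Wm_col (z : Fin K × P n → Bool) : ∀ (i : ℕ) (u : P n),
    Wm z i u (fun _ => false) = (((fvec z i u : ℝ) / Real.sqrt (2 ^ n) ^ (i + 1) : ℝ) : ℂ)
  | 0, u => by
      simp only [Wm, Um, Matrix.of_apply, fvec]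
      rw [had_comm, had_zero]; simp
  | i + 1, u => by
      simp only [Wm]
      rw [Matrix.mul_apply]
      simp only [phase, Matrix.mul_diagonal, Wm_col z i, ph_qf, Um, Matrix.of_apply, fvec]
      rw [Int.cast_sum, sum_div, Complex.ofReal_sum]
      refine sum_congr rfl fun v _ => ?_
      rw [← Complex.ofReal_mul, ← Complex.ofReal_mul]
      congr 1
      have : Real.sqrt (2 ^ n) ≠ 0 := by positivity
      push_cast
      field_simp
      ring

lemma QR.forr (K n : ℕ) : QR K (fun (z : Fin K × P n → Bool) (f : Bool → ℝ) =>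
    (1 + phi z) / 2 * f false + (1 - phi z) / 2 * f true) := by
  let Hc : Matrix (P n × Bool) (P n × Bool) ℂ :=
    (Matrix.blockDiagonal (fun _ : P n => hg)).submatrix (Equiv.prodComm _ _) (Equiv.prodComm _ _)
  have hHc : Hc ∈ Matrix.unitaryGroup (P n × Bool) ℂ :=
    unitary_submatrix (unitary_blockDiagonal fun _ => hg_unitary) _ _
  let B : Bool → (Fin K × P n → Bool) → Matrix (P n) (P n) ℂ :=
    fun c z => if c then Wm z K else 1
  have hB : ∀ c, Impl K (B c) := by
    intro c
    cases c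
    · exact (Impl.const (one_mem _)).mono (Nat.zero_le _)
    · exact Wm_impl K
  refine ⟨P n × Bool, inferInstance, inferInstance, _, ((fun _ => false), false), fun p => p.2,
    (Impl.mul_left hHc (Impl.block hB)).mul_right hHc, fun z f => ?_⟩
  set o : P n := fun _ => false with ho
  let r : P n → ℝ := fun u => (fvec z K u : ℝ) / Real.sqrt (2 ^ n) ^ (K + 1)
  have hr : ∀ u, Wm z K u o = (r u : ℂ) := fun u => Wm_col z K u
  have hent : ∀ u c, (Hc * Matrix.blockDiagonal (fun c => B c z) * Hc) (u, c) (o, false)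
      = ((((if u = o then 1 else 0) + sg c * r u) / 2 : ℝ) : ℂ) := by
    intro u c
    have h1 : ∀ v c', (Hc * Matrix.blockDiagonal (fun c => B c z)) (u, c) (v, c')
        = hg c c' * B c' z u v := by
      intro v c'
      rw [Matrix.mul_apply, Fintype.sum_prod_type]
      simp [Hc, Matrix.blockDiagonal_apply]
    rw [Matrix.mul_apply, Fintype.sum_prod_type]
    simp only [h1]
    have h2 : ∀ v c', Hc (v, c') (o, false) = if v = o then hg c' false else 0 := by
      intro v c'; simp [Hc, Matrix.blockDiagonal_apply]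
    simp only [h2, mul_ite, mul_zero]
    rw [Finset.sum_eq_single o]
    · have := s2
      have hB0 : B false z u o = if u = o then 1 else 0 := by
        simp only [B, Bool.false_eq_true, if_false]; rw [Matrix.one_apply]
      have hB1 : B true z u o = (r u : ℂ) := by simp only [B, if_true, hr]
      simp only [if_true, Fintype.sum_bool, hB0, hB1, hg, sg]
      cases c <;> by_cases hu : u = o <;> simp [hu] at this ⊢
      · linear_combination (1 + (r o : ℂ)) * this
      · linear_combination (r u : ℂ) * this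
      · linear_combination (1 - (r o : ℂ)) * this
      · linear_combination (-(r u : ℂ)) * this
    · intro v _ hv; simp [hv]
    · simp
  have hn : ∑ u, r u ^ 2 = 1 := by
    rw [← col_norm ((Wm_impl K).unitary z) o]
    refine sum_congr rfl fun u _ => ?_
    rw [hr, Complex.norm_real, Real.norm_eq_abs, sq_abs]
  have hphi : phi z = r o := rfl
  have hs : ∀ c, ∑ u, (((if u = o then 1 else 0) + sg c * r u) / 2) ^ 2
      = (1 + sg c * phi z) / 2 := by
    intro c
    have hc : sg c ^ 2 = 1 := by cases c <;> simp [sg]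
    have : ∀ u, (((if u = o then 1 else 0) + sg c * r u) / 2) ^ 2
        = (if u = o then (1 + 2 * sg c * r o) / 4 else 0) + r u ^ 2 / 4 := by
      intro u
      split_ifs with hu
      · subst hu; linear_combination (r o ^ 2 / 4) * hc
      · linear_combination (r u ^ 2 / 4) * hc
    simp only [this, sum_add_distrib, ← sum_div, hn, sum_ite_eq', mem_univ, if_true, hphi]
    ring
  beta_reduce
  rw [Fintype.sum_prod_type_right, Fintype.sum_bool]
  simp only [hent, Complex.norm_real, Real.norm_eq_abs, sq_abs, ← sum_mul, hs]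
  simp [sg]
  ring

lemma maj_bound {φ : (Bool → ℝ) → ℝ} (h : IsExp φ) (g : ℝ) (hg0 : 0 ≤ g) (hg1 : g ≤ 1) (b : Bool)
    (hb : g ≤ sg b * φ sg) (N : ℕ) :
    1 - Real.exp (-(N * g ^ 2 / 4)) ≤ piF N (fun _ => φ)
      (fun ω => if decide (∑ t, sg (ω t) < 0) = b then 1 else 0) := by
  have hE := piF_isExp N (φ := fun _ => φ) (fun _ => h)
  let w : Bool → ℝ := fun c => Real.exp (-(g / 2 * (sg b * sg c)))
  have h1 : φ w ≤ Real.exp (-(g ^ 2 / 4)) := by
    have h2 : ∀ c, w c ≤ (1 + g ^ 2 / 4) - g / 2 * sg b * sg c := by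
      intro c
      have hs : (sg b * sg c) ^ 2 = 1 := by cases b <;> cases c <;> simp [sg]
      have ha : |-(g / 2 * (sg b * sg c))| ≤ 1 := by
        rw [abs_neg, abs_mul, abs_of_nonneg (by linarith : 0 ≤ g / 2)]
        have : |sg b * sg c| = 1 := by cases b <;> cases c <;> simp [sg]
        rw [this]; linarith
      have := (abs_le.1 (Real.abs_exp_sub_one_sub_id_le ha)).2
      simp only [w]
      nlinarith
    have h3 := h.mono h2
    rw [h.sub, h.const, h.const_mul] at h3
    have h4 := Real.add_one_le_exp (-(g ^ 2 / 4))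
    nlinarith
  have h5 : piF N (fun _ => φ) (fun ω => ∏ t, w (ω t)) ≤ Real.exp (-(N * g ^ 2 / 4)) := by
    rw [piF_prod N (fun _ => h) (fun _ => w), prod_const, card_univ, Fintype.card_fin]
    refine (pow_le_pow_left₀ (h.nonneg fun c => (Real.exp_pos _).le) h1 N).trans (le_of_eq ?_)
    rw [← Real.exp_nat_mul]; congr 1; ring
  have h6 : ∀ ω : Fin N → Bool, 1 - ∏ t, w (ω t)
      ≤ if decide (∑ t, sg (ω t) < 0) = b then 1 else 0 := by
    intro ω
    have hpos : 0 ≤ ∏ t, w (ω t) := prod_nonneg fun t _ => (Real.exp_pos _).le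
    split_ifs with hd
    · linarith
    · have h7 : sg b * ∑ t, sg (ω t) ≤ 0 := by
        cases b
        · have h : ∑ t, sg (ω t) < 0 := by simpa using hd
          have : sg false = 1 := by simp [sg]
          rw [this]; linarith
        · have h : 0 ≤ ∑ t, sg (ω t) := by simpa using hd
          have : sg true = -1 := by simp [sg]
          rw [this]; linarith
      have h8 : ∏ t, w (ω t) = Real.exp (-(g / 2 * (sg b * ∑ t, sg (ω t)))) := by
        simp only [w, ← Real.exp_sum, mul_sum, sum_neg_distrib]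
      have h9 : 1 ≤ ∏ t, w (ω t) := by
        rw [h8]; apply Real.one_le_exp; nlinarith
      linarith
  have h10 := hE.mono h6
  rw [hE.sub, hE.const] at h10
  linarith

theorem decode {R B : ℕ} (hR : 1 ≤ R) (γ : ℝ) (hγ0 : 0 ≤ γ) (hγ1 : γ ≤ 1) (N : ℕ) (j : P n) :
    ∃ Dec : (Ix K n R B → Bool) → (P n → ℝ) → ℝ, QR (n * (N * K)) Dec ∧ ∀ x a,
      (∀ l, γ * R / 2 ≤ sg (a l) * ∑ ρ : Fin R, phi (zOf x j l ρ)) →
      1 - n * Real.exp (-(N * γ ^ 2 / 16)) ≤ Dec x (fun a' => if a' = a then 1 else 0) := by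
  have : Nonempty (Fin R) := ⟨⟨0, hR⟩⟩
  have hR' : (0 : ℝ) < R := by exact_mod_cast hR
  have h1 : ∀ l : Fin n, QR K (fun (x : Ix K n R B → Bool) (f : Bool → ℝ) =>
      (∑ ρ : Fin R, ((1 + phi (zOf x j l ρ)) / 2 * f false + (1 - phi (zOf x j l ρ)) / 2 * f true))
        / Fintype.card (Fin R)) := by
    intro l
    have := (QR.unif (ι := Ix K n R B) (Fin R)).bind
      (Ψ := fun ρ x (f : Bool → ℝ) =>
        (1 + phi (zOf x j l ρ)) / 2 * f false + (1 - phi (zOf x j l ρ)) / 2 * f true)
      (fun ρ => (QR.forr K n).comap (fun v => ((j, Sum.inl (l, ρ, v)) : Ix K n R B)))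
    rwa [zero_add] at this
  have h2 := fun l => (QR.pi N (fun _ => h1 l)).map
    (fun ω : Fin N → Bool => decide (∑ t, sg (ω t) < 0))
  refine ⟨_, QR.pi n h2, fun x a ha => ?_⟩
  have h3 : (fun a' : P n => if a' = a then (1 : ℝ) else 0)
      = fun a' => ∏ l, if a' l = a l then (1 : ℝ) else 0 := by
    funext a'
    rw [prod_ite_zero]
    simp [funext_iff]
  set η := Real.exp (-(N * γ ^ 2 / 16)) with hη
  have hη1 : η ≤ 1 := by
    rw [hη]; apply Real.exp_le_one_iff.2; have : (0 : ℝ) ≤ N * γ ^ 2 / 16 := by positivity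
    linarith
  rw [h3, piF_prod n (fun l => (h2 l).isExp x) (fun l b => if b = a l then (1 : ℝ) else 0)]
  have h4 : 1 - n * η ≤ ∏ _l : Fin n, (1 - η) := by
    rw [prod_const, card_univ, Fintype.card_fin]
    have := one_add_mul_le_pow (a := -η) (by linarith) n
    rw [sub_eq_add_neg (1 : ℝ) η]; linarith
  refine h4.trans (prod_le_prod (fun _ _ => by linarith) fun l _ => ?_)
  have h5 := maj_bound ((h1 l).isExp x) (γ / 2) (by linarith) (by linarith) (a l) (by
    have h6 := ha l
    simp only [Fintype.card_fin]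
    have h7 : ∀ ρ, (1 + phi (zOf x j l ρ)) / 2 * sg false + (1 - phi (zOf x j l ρ)) / 2 * sg true
        = phi (zOf x j l ρ) := by intro ρ; simp [sg]; ring
    simp only [h7]
    rw [← mul_div_assoc, le_div_iff₀ hR']
    linarith) N
  have h8 : -(N * (γ / 2) ^ 2 / 4) = -(N * γ ^ 2 / 16) := by ring
  rw [h8] at h5
  exact h5

end Crest.Agent.R350
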