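import Mathlib

/-! Gaussian expectations of polynomials: Stein's identity and the derivative in a parameter. -/

open MeasureTheory ProbabilityTheory MvPolynomial Finset
open scoped NNReal

namespace Crest.Agent.R350

/-- moments of the centred Gaussian of variance `v` -/
noncomputable def mom (v : ℝ≥0) (j : ℕ) : ℝ := ∫ x, x ^ j ∂(gaussianReal 0 v)

noncomputable def momT (v : ℝ≥0) (j : ℕ) (t : ℝ) : ℝ :=
  ∫ x, x ^ j * Real.exp (t * x) ∂(gaussianReal 0 v)

lemma momT_deriv (v : ℝ≥0) (j : ℕ) (t : ℝ) : HasDerivAt (momT v j) (momT v (j + 1) t) t :=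
  hasDerivAt_integral_pow_mul_exp_real (X := fun x : ℝ => x) (μ := gaussianReal 0 v) (by simp) j

lemma momT_zero (v : ℝ≥0) (t : ℝ) : momT v 0 t = Real.exp (v * t ^ 2 / 2) := by
  have := congrFun (mgf_fun_id_gaussianReal (μ := 0) (v := v)) t
  simp only [mgf, zero_mul, zero_add] at this
  simpa [momT] using this

lemma momT_succ (v : ℝ≥0) (j : ℕ) :
    ∀ t, momT v (j + 1) t = v * t * momT v j t + v * j * momT v (j - 1) t := by
  induction j with
  | zero =>
    intro t
    have h1 := momT_deriv v 0 t
    have h2 : HasDerivAt (momT v 0) (v * t * momT v 0 t) t := by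
      have : momT v 0 = fun t => Real.exp (v * t ^ 2 / 2) := funext (momT_zero v)
      rw [this]
      have h3 : HasDerivAt (fun t : ℝ => (v : ℝ) * t ^ 2 / 2) (v * t) t := by
        have := ((hasDerivAt_pow 2 t).const_mul (v : ℝ)).div_const 2
        refine this.congr_deriv ?_
        norm_num; ring
      refine h3.exp.congr_deriv ?_
      ring
    simpa using h1.unique h2
  | succ j ih =>
    intro t
    have h1 := momT_deriv v (j + 1) t
    have h2 : HasDerivAt (momT v (j + 1))
        (v * t * momT v (j + 1) t + v * ((j + 1 : ℕ) : ℝ) * momT v j t) t := by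
      have : momT v (j + 1) = fun t => v * t * momT v j t + v * j * momT v (j - 1) t := funext ih
      have h3 := (((hasDerivAt_id t).const_mul (v : ℝ)).mul (momT_deriv v j t)).add
        ((momT_deriv v (j - 1) t).const_mul ((v : ℝ) * j))
      have h4 : HasDerivAt (momT v (j + 1)) (v * 1 * momT v j t + v * id t * momT v (j + 1) t
          + v * j * momT v (j - 1 + 1) t) t := by
        conv => enter [1]; rw [this]
        exact h3
      refine h4.congr_deriv ?_
      rcases j with _ | j
      · simp; ring
      · simp; ring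
    simpa using h1.unique h2

lemma mom_zero (v : ℝ≥0) : mom v 0 = 1 := by simp [mom]

lemma mom_succ (v : ℝ≥0) (j : ℕ) : mom v (j + 1) = v * j * mom v (j - 1) := by
  have := momT_succ v j 0
  simpa [momT, mom] using this

lemma integrable_pow_gauss (v : ℝ≥0) (j : ℕ) :
    Integrable (fun x : ℝ => x ^ j) (gaussianReal 0 v) :=
  integrable_pow_of_mem_interior_integrableExpSet (X := fun x : ℝ => x) (by simp) j

lemma mom_even_nonneg (v : ℝ≥0) (r : ℕ) : 0 ≤ mom v (2 * r) := by
  induction r with
  | zero => simp [mom_zero]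
  | succ r ih =>
    rw [show 2 * (r + 1) = (2 * r + 1) + 1 by ring, mom_succ, Nat.add_sub_cancel]
    positivity

lemma mom_even_le (v : ℝ≥0) (R r : ℕ) (h : r ≤ R) : mom v (2 * r) ≤ (2 * R * v) ^ r := by
  induction r with
  | zero => simp [mom_zero]
  | succ r ih =>
    rw [show 2 * (r + 1) = (2 * r + 1) + 1 by ring, mom_succ, Nat.add_sub_cancel, pow_succ]
    have h1 := ih (by omega)
    have h2 : ((2 * r + 1 : ℕ) : ℝ) ≤ 2 * R := by
      have : 2 * r + 1 ≤ 2 * R := by omega
      exact_mod_cast this
    have h3 := mom_even_nonneg v r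
    have hv : (0 : ℝ) ≤ v := v.2
    calc (v : ℝ) * ((2 * r + 1 : ℕ) : ℝ) * mom v (2 * r)
        ≤ (v : ℝ) * (2 * R) * (2 * R * v) ^ r := by gcongr
      _ = _ := by ring

variable {σ : Type} [Fintype σ] [DecidableEq σ]

/-- the product Gaussian measure -/
noncomputable def gm (σ : Type) [Fintype σ] (v : ℝ≥0) : Measure (σ → ℝ) :=
  Measure.pi (fun _ => gaussianReal 0 v)

instance (v : ℝ≥0) : IsProbabilityMeasure (gm σ v) := by unfold gm; infer_instance

/-- add the parameter as the value of the variable `none` -/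
def ext (t : ℝ) (x : σ → ℝ) : Option σ → ℝ := fun o => o.elim t x

omit [DecidableEq σ] in
lemma eval_ext_monomial (t : ℝ) (x : σ → ℝ) (d : Option σ →₀ ℕ) (c : ℝ) :
    eval (ext t x) (monomial d c) = c * t ^ d none * ∏ a, x a ^ d (some a) := by
  rw [eval_monomial, Finsupp.prod_fintype _ _ (by simp), Fintype.prod_option]
  simp [ext, mul_assoc]

omit [DecidableEq σ] in
lemma integrable_eval (v : ℝ≥0) (t : ℝ) (p : MvPolynomial (Option σ) ℝ) :
    Integrable (fun x => eval (ext t x) p) (gm σ v) := by
  induction p using MvPolynomial.induction_on' with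
  | monomial d c =>
    simp_rw [eval_ext_monomial]
    exact (Integrable.fintype_prod (f := fun a (y : ℝ) => y ^ d (some a))
      (fun a => integrable_pow_gauss v _)).const_mul _
  | add p q hp hq =>
    simp_rw [map_add]
    exact hp.add hq

/-- Gaussian expectation of a polynomial at parameter `t` -/
noncomputable def EL (v : ℝ≥0) (t : ℝ) : MvPolynomial (Option σ) ℝ →ₗ[ℝ] ℝ where
  toFun p := ∫ x, eval (ext t x) p ∂gm σ v
  map_add' p q := by
    simp_rw [map_add]
    exact integral_add (integrable_eval v t p) (integrable_eval v t q)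
  map_smul' c p := by
    simp_rw [smul_eval]
    simp [integral_const_mul]

omit [DecidableEq σ] in
lemma EL_apply (v : ℝ≥0) (t : ℝ) (p : MvPolynomial (Option σ) ℝ) :
    EL v t p = ∫ x, eval (ext t x) p ∂gm σ v := rfl

omit [DecidableEq σ] in
lemma EL_monomial (v : ℝ≥0) (t : ℝ) (d : Option σ →₀ ℕ) (c : ℝ) :
    EL v t (monomial d c) = c * t ^ d none * ∏ a, mom v (d (some a)) := by
  rw [EL_apply]
  simp_rw [eval_ext_monomial]
  rw [integral_const_mul, gm,
    integral_fintype_prod_eq_prod (f := fun a (y : ℝ) => y ^ d (some a))]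
  rfl

omit [DecidableEq σ] in
lemma EL_C (v : ℝ≥0) (t c : ℝ) : EL (σ := σ) v t (C c) = c := by
  simp [EL_apply]

omit [DecidableEq σ] in
lemma EL_one (v : ℝ≥0) (t : ℝ) : EL (σ := σ) v t 1 = 1 := by
  simp [EL_apply]

omit [DecidableEq σ] in
lemma EL_C_mul (v : ℝ≥0) (t c : ℝ) (p : MvPolynomial (Option σ) ℝ) :
    EL v t (C c * p) = c * EL v t p := by
  rw [C_mul', map_smul, smul_eq_mul]

omit [DecidableEq σ] in
lemma EL_mono (v : ℝ≥0) (t : ℝ) {p q : MvPolynomial (Option σ) ℝ}
    (h : ∀ x, eval (ext t x) p ≤ eval (ext t x) q) : EL v t p ≤ EL v t q :=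
  integral_mono (integrable_eval v t p) (integrable_eval v t q) h

omit [DecidableEq σ] in
lemma EL_X_none_mul (v : ℝ≥0) (t : ℝ) (p : MvPolynomial (Option σ) ℝ) :
    EL v t (X none * p) = t * EL v t p := by
  simp [EL_apply, ext, integral_const_mul]

/-- Stein's identity -/
lemma stein (v : ℝ≥0) (t : ℝ) (a : σ) (p : MvPolynomial (Option σ) ℝ) :
    EL v t (X (some a) * p) = v * EL v t (pderiv (some a) p) := by
  induction p using MvPolynomial.induction_on' with
  | monomial d c =>
    rw [pderiv_monomial, X, monomial_mul, EL_monomial, EL_monomial,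
      ← Finset.mul_prod_erase _ _ (Finset.mem_univ a),
      ← Finset.mul_prod_erase _ _ (Finset.mem_univ a)]
    have h1 : ∀ b ∈ Finset.univ.erase a,
        mom v ((Finsupp.single (some a) 1 + d : Option σ →₀ ℕ) (some b)) = mom v (d (some b)) := by
      intro b hb
      have : a ≠ b := (Finset.ne_of_mem_erase hb).symm
      simp [this]
    have h2 : ∀ b ∈ Finset.univ.erase a,
        mom v ((d - Finsupp.single (some a) 1 : Option σ →₀ ℕ) (some b)) = mom v (d (some b)) := by
      intro b hb
      have : a ≠ b := (Finset.ne_of_mem_erase hb).symm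
      simp [this]
    rw [Finset.prod_congr rfl h1, Finset.prod_congr rfl h2]
    simp only [Finsupp.coe_add, Pi.add_apply, Finsupp.single_eq_same, Finsupp.coe_tsub,
      Pi.sub_apply, ne_eq, reduceCtorEq, not_false_eq_true, Finsupp.single_eq_of_ne, zero_add,
      tsub_zero, one_mul]
    rw [add_comm 1, mom_succ]
    ring
  | add p q hp hq =>
    rw [mul_add, map_add, map_add, map_add, hp, hq, mul_add]

omit [DecidableEq σ] in
lemma hasDerivAt_EL (v : ℝ≥0) (p : MvPolynomial (Option σ) ℝ) (t : ℝ) :
    HasDerivAt (fun t => EL v t p) (EL v t (pderiv none p)) t := by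
  induction p using MvPolynomial.induction_on' with
  | monomial d c =>
    simp_rw [pderiv_monomial, EL_monomial]
    have := (((hasDerivAt_pow (d none) t).const_mul c).mul_const (∏ a, mom v (d (some a))))
    refine this.congr_deriv ?_
    simp
    left; ring
  | add p q hp hq =>
    simp_rw [map_add]
    exact hp.add hq

/-- a linear form in the Gaussian variables -/
noncomputable def lin (u : σ → ℝ) : MvPolynomial (Option σ) ℝ := ∑ a, C (u a) * X (some a)

/-- the derivative in the direction `u` -/
noncomputable def der (u : σ → ℝ) :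
    Derivation ℝ (MvPolynomial (Option σ) ℝ) (MvPolynomial (Option σ) ℝ) :=
  mkDerivation ℝ (fun o => o.elim 0 (fun a => C (u a)))

lemma der_apply (u : σ → ℝ) (p : MvPolynomial (Option σ) ℝ) :
    der u p = ∑ a, C (u a) * pderiv (some a) p := by
  induction p using MvPolynomial.induction_on with
  | C c => simp [derivation_C]
  | add p q hp hq => simp [hp, hq, mul_add, Finset.sum_add_distrib]
  | mul_X p o hp =>
    rw [Derivation.leibniz, hp]
    simp only [pderiv_mul, mul_add, Finset.sum_add_distrib, smul_eq_mul, Finset.mul_sum]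
    rw [add_comm]
    congr 1
    · exact Finset.sum_congr rfl (fun a _ => by ring)
    · rw [der, mkDerivation_X]
      rcases o with _ | b
      · simp
      · rw [Finset.sum_eq_single b]
        · simp [mul_comm]
        · intro a _ hab
          rw [pderiv_X_of_ne (by simpa using hab.symm)]; simp
        · simp

omit [Fintype σ] [DecidableEq σ] in
lemma der_X_none (u : σ → ℝ) : der u (X none) = 0 := by
  rw [der, mkDerivation_X]; rfl

omit [Fintype σ] [DecidableEq σ] in
lemma der_X_some (u : σ → ℝ) (a : σ) : der u (X (some a)) = C (u a) := by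
  rw [der, mkDerivation_X]; rfl

omit [DecidableEq σ] in
lemma der_lin (u u' : σ → ℝ) : der u (lin u') = C (∑ a, u a * u' a) := by
  rw [lin, map_sum, map_sum]
  refine Finset.sum_congr rfl (fun a _ => ?_)
  rw [Derivation.leibniz, derivation_C, der_X_some]
  simp [mul_comm]

omit [DecidableEq σ] in
lemma pderiv_none_lin (u : σ → ℝ) : pderiv none (lin u) = 0 := by
  rw [lin, map_sum]
  refine Finset.sum_eq_zero (fun a _ => ?_)
  rw [pderiv_C_mul, pderiv_X_of_ne (by simp)]; simp

lemma stein_lin (v : ℝ≥0) (t : ℝ) (u : σ → ℝ) (p : MvPolynomial (Option σ) ℝ) :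
    EL v t (lin u * p) = v * EL v t (der u p) := by
  rw [lin, der_apply, Finset.sum_mul, map_sum, map_sum, Finset.mul_sum]
  refine Finset.sum_congr rfl (fun a _ => ?_)
  rw [mul_assoc, EL_C_mul, EL_C_mul, stein]; ring

lemma EL_lin_pow_mul (v : ℝ≥0) (t : ℝ) (u : σ → ℝ) (hu : ∑ a, u a * u a = 1)
    (p : MvPolynomial (Option σ) ℝ) (hp : der u p = 0) (j : ℕ) :
    EL v t (lin u ^ j * p) = mom v j * EL v t p := by
  induction j using Nat.strong_induction_on with
  | _ j ih =>
    rcases j with _ | j
    · simp [mom_zero]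
    · rw [pow_succ', mul_assoc, stein_lin, Derivation.leibniz, hp, Derivation.leibniz_pow,
        der_lin, hu, mom_succ]
      simp only [mul_zero, zero_add, map_one, smul_eq_mul, mul_one, nsmul_eq_mul]
      have : p * ((j : MvPolynomial (Option σ) ℝ) * lin u ^ (j - 1))
          = C (j : ℝ) * (lin u ^ (j - 1) * p) := by
        simp; ring
      rw [this, EL_C_mul, ih (j - 1) (by omega)]; ring

omit [Fintype σ] [DecidableEq σ] in
lemma der_prod_eq_zero {ι : Type} [DecidableEq ι] (u : σ → ℝ) (s : Finset ι)
    (f : ι → MvPolynomial (Option σ) ℝ) (h : ∀ i ∈ s, der u (f i) = 0) :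
    der u (∏ i ∈ s, f i) = 0 := by
  induction s using Finset.induction_on with
  | empty => simp
  | insert i s hi ih =>
    rw [Finset.prod_insert hi, Derivation.leibniz, h i (by simp),
      ih (fun j hj => h j (by simp [hj]))]
    simp

/-- orthonormal linear forms behave like independent Gaussians -/
lemma EL_prod_one_add {ι : Type} [DecidableEq ι] (v : ℝ≥0) (t : ℝ) (u : ι → σ → ℝ)
    (hu : ∀ i j, ∑ a, u i a * u j a = if i = j then 1 else 0) (m : ℕ) (s : Finset ι) :
    EL v t (∏ i ∈ s, (1 + lin (u i) ^ m)) = (1 + mom v m) ^ s.card := by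
  induction s using Finset.induction_on with
  | empty => simp [EL_one]
  | insert i s hi ih =>
    rw [Finset.prod_insert hi, add_mul, one_mul, map_add, EL_lin_pow_mul _ _ _ (by simp [hu]), ih,
      Finset.card_insert_of_notMem hi]
    · ring
    · refine der_prod_eq_zero _ _ _ (fun j hj => ?_)
      have : i ≠ j := fun h => hi (h ▸ hj)
      rw [map_add, Derivation.leibniz_pow, der_lin, hu, if_neg this]
      simp

end Crest.Agent.R350
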