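import Crest.Agent.R350.Defs

/-! Row 350: moment growth of linear combinations of partial derivatives of a decision tree. -/

open Finset

namespace Crest.Agent.R350

namespace Growth

theorem taylor (x t : ℝ) (n : ℕ) :
    |(x + t) ^ (n + 2) - x ^ (n + 2) - (n + 2) * x ^ (n + 1) * t| ≤
      ((n : ℝ) + 2) ^ 2 / 2 * t ^ 2 * (|x| + |t|) ^ n := by
  induction n with
  | zero =>
    have : (x + t) ^ (0 + 2) - x ^ (0 + 2) - ((0 : ℕ) + 2 : ℝ) * x ^ (0 + 1) * t = t ^ 2 := by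
      push_cast
      ring
    rw [this, abs_of_nonneg (sq_nonneg t)]
    push_cast
    nlinarith [sq_nonneg t]
  | succ n ih =>
    have e : (x + t) ^ (n + 1 + 2) - x ^ (n + 1 + 2) - (((n + 1 : ℕ) : ℝ) + 2) * x ^ (n + 1 + 1) * t
        = (x + t) * ((x + t) ^ (n + 2) - x ^ (n + 2) - (n + 2) * x ^ (n + 1) * t)
          + (n + 2) * x ^ (n + 1) * t ^ 2 := by
      push_cast
      ring
    rw [e]
    have hM : 0 ≤ |x| + |t| := by positivity
    have h1 : |(x + t) * ((x + t) ^ (n + 2) - x ^ (n + 2) - (n + 2) * x ^ (n + 1) * t)| ≤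
        (|x| + |t|) * (((n : ℝ) + 2) ^ 2 / 2 * t ^ 2 * (|x| + |t|) ^ n) := by
      rw [abs_mul]
      exact mul_le_mul (abs_add_le x t) ih (abs_nonneg _) hM
    have h2 : |((n : ℝ) + 2) * x ^ (n + 1) * t ^ 2| ≤
        ((n : ℝ) + 2) * (|x| + |t|) ^ (n + 1) * t ^ 2 := by
      rw [abs_mul, abs_mul, abs_pow, abs_of_nonneg (sq_nonneg t),
        abs_of_nonneg (by positivity : (0 : ℝ) ≤ (n : ℝ) + 2)]
      have : |x| ^ (n + 1) ≤ (|x| + |t|) ^ (n + 1) :=
        pow_le_pow_left₀ (abs_nonneg x) (le_add_of_nonneg_right (abs_nonneg t)) _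
      gcongr
    refine (abs_add_le _ _).trans ((add_le_add h1 h2).trans ?_)
    have h3 : 0 ≤ t ^ 2 * (|x| + |t|) ^ (n + 1) := by positivity
    have e2 : (|x| + |t|) * (((n : ℝ) + 2) ^ 2 / 2 * t ^ 2 * (|x| + |t|) ^ n) +
        ((n : ℝ) + 2) * (|x| + |t|) ^ (n + 1) * t ^ 2 =
        (((n : ℝ) + 2) ^ 2 / 2 + (n + 2)) * (t ^ 2 * (|x| + |t|) ^ (n + 1)) := by ring
    have e3 : (((n + 1 : ℕ) : ℝ) + 2) ^ 2 / 2 * t ^ 2 * (|x| + |t|) ^ (n + 1) =
        (((n : ℝ) + 2) ^ 2 / 2 + (n + 2) + 1 / 2) * (t ^ 2 * (|x| + |t|) ^ (n + 1)) := by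
      push_cast
      ring
    rw [e2, e3]
    nlinarith

/-- the remainder term is absorbed by the two main terms -/
theorem absorb (q d : ℕ) (hd : 1 ≤ d) (X h : ℝ) (hX : 0 ≤ X) (hh : 0 ≤ h) :
    2 * ((q : ℝ) + 1) ^ 2 * h ^ 2 * (X + h) ^ (2 * q) ≤
      1 / d * X ^ (2 * q + 2) + (5 * (q + 1) * Real.sqrt d * h) ^ (2 * q + 2) := by
  have hd1 : (1 : ℝ) ≤ d := by exact_mod_cast hd
  have hs1 : 1 ≤ Real.sqrt d := Real.one_le_sqrt.mpr hd1
  have hss : Real.sqrt d * Real.sqrt d = d := Real.mul_self_sqrt (by positivity)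
  have hq : (0 : ℝ) ≤ q := by positivity
  set T : ℝ := 4 * (q + 1) * Real.sqrt d with hT
  have hT4 : 4 * ((q : ℝ) + 1) ≤ T := by rw [hT]; nlinarith
  have hTpos : 0 < T := by linarith
  by_cases hc : T * h ≤ X
  · have h1 : h ≤ X / T := by rw [le_div_iff₀ hTpos]; linarith
    have h2 : X + h ≤ X * (1 + 1 / T) := by
      have : X * (1 + 1 / T) = X + X / T := by ring
      linarith
    have h3 : (1 + 1 / T) ^ (2 * q) ≤ 2 := by
      have h4 : (1 + 1 / T) ≤ Real.exp (1 / T) := by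
        have := Real.add_one_le_exp (1 / T)
        linarith
      have h5 : (1 + 1 / T) ^ (2 * q) ≤ Real.exp (1 / T) ^ (2 * q) :=
        pow_le_pow_left₀ (by positivity) h4 _
      rw [← Real.exp_nat_mul] at h5
      have h6 : ((2 * q : ℕ) : ℝ) * (1 / T) ≤ 1 / 2 := by
        push_cast
        rw [mul_one_div, div_le_iff₀ hTpos]
        linarith
      have h7 : Real.exp (1 / 2) ≤ 2 := by
        have h8 : Real.exp (1 / 2) * Real.exp (1 / 2) = Real.exp 1 := by
          rw [← Real.exp_add]; norm_num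
        have h9 := Real.exp_one_lt_d9
        nlinarith [Real.exp_pos (1 / 2)]
      exact h5.trans ((Real.exp_le_exp.mpr h6).trans h7)
    have h10 : (X + h) ^ (2 * q) ≤ X ^ (2 * q) * 2 := by
      calc (X + h) ^ (2 * q) ≤ (X * (1 + 1 / T)) ^ (2 * q) :=
            pow_le_pow_left₀ (by positivity) h2 _
        _ = X ^ (2 * q) * (1 + 1 / T) ^ (2 * q) := mul_pow _ _ _
        _ ≤ X ^ (2 * q) * 2 := by gcongr
    have h11 : (T * h) ^ 2 ≤ X ^ 2 := pow_le_pow_left₀ (by positivity) hc 2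
    have h12 : (T * h) ^ 2 = 16 * ((q : ℝ) + 1) ^ 2 * h ^ 2 * d := by
      rw [hT]
      calc (4 * ((q : ℝ) + 1) * Real.sqrt d * h) ^ 2
          = 16 * ((q : ℝ) + 1) ^ 2 * h ^ 2 * (Real.sqrt d * Real.sqrt d) := by ring
        _ = _ := by rw [hss]
    have h13 : 4 * ((q : ℝ) + 1) ^ 2 * h ^ 2 ≤ 1 / d * X ^ 2 := by
      rw [one_div, ← div_eq_inv_mul, le_div_iff₀ (by positivity)]
      have : 0 ≤ ((q : ℝ) + 1) ^ 2 * h ^ 2 * d := by positivity
      nlinarith
    have h14 : 0 ≤ (5 * (q + 1) * Real.sqrt d * h) ^ (2 * q + 2) := by positivity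
    have h15 : 0 ≤ X ^ (2 * q) := by positivity
    calc 2 * ((q : ℝ) + 1) ^ 2 * h ^ 2 * (X + h) ^ (2 * q)
        ≤ 2 * ((q : ℝ) + 1) ^ 2 * h ^ 2 * (X ^ (2 * q) * 2) := by gcongr
      _ = (4 * ((q : ℝ) + 1) ^ 2 * h ^ 2) * X ^ (2 * q) := by ring
      _ ≤ (1 / d * X ^ 2) * X ^ (2 * q) := by gcongr
      _ = 1 / d * X ^ (2 * q + 2) := by ring
      _ ≤ _ := by linarith
  · push Not at hc
    set U : ℝ := 5 * (q + 1) * Real.sqrt d with hU
    have hTU : T + 1 ≤ U := by rw [hT, hU]; nlinarith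
    have h1 : X + h ≤ U * h := by nlinarith
    have h2 : (X + h) ^ (2 * q) ≤ (U * h) ^ (2 * q) := pow_le_pow_left₀ (by positivity) h1 _
    have h3 : 2 * ((q : ℝ) + 1) ^ 2 ≤ U ^ 2 := by
      have : 2 * ((q : ℝ) + 1) ≤ U := by linarith
      nlinarith
    have h4 : 0 ≤ 1 / d * X ^ (2 * q + 2) := by positivity
    have hU0 : 0 ≤ U := by linarith
    calc 2 * ((q : ℝ) + 1) ^ 2 * h ^ 2 * (X + h) ^ (2 * q)
        ≤ U ^ 2 * h ^ 2 * (U * h) ^ (2 * q) := by gcongr
      _ = (U * h) ^ (2 * q + 2) := by ring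
      _ ≤ _ := by linarith

/-- the two-point inequality -/
theorem two_point (q d : ℕ) (hd : 1 ≤ d) (x y a b ξ η : ℝ) (ha : 0 ≤ a) (hb : 0 ≤ b)
    (hab : a + b = 1) (h0 : a * ξ + b * η = 0) (hξ : |ξ| ≤ 2) (hη : |η| ≤ 2) :
    a * (x + ξ * y) ^ (2 * q + 2) + b * (x + η * y) ^ (2 * q + 2) ≤
      (1 + 1 / d) * x ^ (2 * q + 2) +
        (10 * (q + 1) * Real.sqrt d) ^ (2 * q + 2) * y ^ (2 * q + 2) := by
  have key : ∀ t : ℝ, |t| ≤ 2 * |y| → (x + t) ^ (2 * q + 2) ≤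
      x ^ (2 * q + 2) + ((2 * q : ℕ) + 2) * x ^ (2 * q + 1) * t +
        2 * ((q : ℝ) + 1) ^ 2 * (2 * |y|) ^ 2 * (|x| + 2 * |y|) ^ (2 * q) := by
    intro t ht
    have h1 := (le_abs_self _).trans (taylor x t (2 * q))
    have h2 : t ^ 2 ≤ (2 * |y|) ^ 2 := by
      rw [← sq_abs t]
      exact pow_le_pow_left₀ (abs_nonneg t) ht 2
    have h3 : (((2 * q : ℕ) : ℝ) + 2) ^ 2 / 2 * t ^ 2 * (|x| + |t|) ^ (2 * q) ≤
        2 * ((q : ℝ) + 1) ^ 2 * (2 * |y|) ^ 2 * (|x| + 2 * |y|) ^ (2 * q) := by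
      have e : (((2 * q : ℕ) : ℝ) + 2) ^ 2 / 2 = 2 * ((q : ℝ) + 1) ^ 2 := by
        push_cast
        ring
      rw [e]
      gcongr
    linarith
  have hx : ∀ s : ℝ, |s| ≤ 2 → |s * y| ≤ 2 * |y| := by
    intro s hs
    rw [abs_mul]
    exact mul_le_mul_of_nonneg_right hs (abs_nonneg y)
  have k1 := mul_le_mul_of_nonneg_left (key _ (hx ξ hξ)) ha
  have k2 := mul_le_mul_of_nonneg_left (key _ (hx η hη)) hb
  have k3 := absorb q d hd |x| (2 * |y|) (abs_nonneg x) (by positivity)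
  have ev : Even (2 * q + 2) := ⟨q + 1, by ring⟩
  have e1 : |x| ^ (2 * q + 2) = x ^ (2 * q + 2) := ev.pow_abs x
  have e2 : (5 * (q + 1) * Real.sqrt d * (2 * |y|)) ^ (2 * q + 2) =
      (10 * (q + 1) * Real.sqrt d) ^ (2 * q + 2) * y ^ (2 * q + 2) := by
    rw [← ev.pow_abs y, ← mul_pow]
    congr 1
    ring
  rw [e1, e2] at k3
  set R := 2 * ((q : ℝ) + 1) ^ 2 * (2 * |y|) ^ 2 * (|x| + 2 * |y|) ^ (2 * q) with hR
  set L := (((2 * q : ℕ) : ℝ) + 2) * x ^ (2 * q + 1) with hL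
  have e3 : a * (x ^ (2 * q + 2) + L * (ξ * y) + R) + b * (x ^ (2 * q + 2) + L * (η * y) + R) =
      (a + b) * (x ^ (2 * q + 2) + R) + L * y * (a * ξ + b * η) := by ring
  rw [hab, h0] at e3
  linarith

section
variable {V : Type} [Fintype V] [DecidableEq V]

theorem sum_split (v : V) (F : Finset V → ℝ) :
    ∑ I, F I = ∑ J ∈ (univ.erase v).powerset, (F J + F (insert v J)) := by
  rw [Finset.sum_add_distrib, ← Finset.sum_powerset_insert (Finset.notMem_erase v univ),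
    Finset.insert_erase (Finset.mem_univ v), Finset.powerset_univ]

/-- the weight of one coordinate -/
noncomputable def wt (z : V → ℝ) (I : Finset V) (v : V) (b : Bool) : ℝ :=
  if v ∈ I then sg b / 2 else (1 + sg b * z v) / 2

theorem Dv_eq (g : (V → Bool) → ℝ) (z : V → ℝ) (I : Finset V) :
    Dv g z I = ∑ w : V → Bool, g w * ∏ v, wt z I v (w v) := by
  unfold Dv
  refine Finset.sum_congr rfl fun w _ => ?_
  congr 1
  rw [← Finset.prod_sdiff (Finset.subset_univ I), mul_comm]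
  congr 1
  · refine Finset.prod_congr rfl fun v hv => ?_
    rw [wt, if_neg (Finset.mem_sdiff.mp hv).2]
  · refine Finset.prod_congr rfl fun v hv => ?_
    rw [wt, if_pos hv]

theorem Dv_const (c0 : ℝ) (z : V → ℝ) (I : Finset V) :
    Dv (fun _ => c0) z I = if I = ∅ then c0 else 0 := by
  rw [Dv_eq, ← Finset.mul_sum]
  have h2 := Finset.prod_univ_sum (fun _ : V => (Finset.univ : Finset Bool))
    (fun (v : V) (b : Bool) => wt z I v b)
  rw [Fintype.piFinset_univ] at h2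
  rw [← h2]
  have h3 : ∀ v, ∑ b : Bool, wt z I v b = if v ∈ I then 0 else 1 := by
    intro v
    rw [Fintype.sum_bool]
    by_cases hv : v ∈ I
    · simp only [wt, sg, if_pos hv, if_true, Bool.false_eq_true, if_false]
      ring
    · simp only [wt, sg, if_neg hv, if_true, Bool.false_eq_true, if_false]
      ring
  simp_rw [h3]
  split_ifs with h
  · subst h
    simp
  · obtain ⟨v, hv⟩ := Finset.nonempty_iff_ne_empty.mpr h
    rw [Finset.prod_eq_zero (Finset.mem_univ v) (by simp [hv]), mul_zero]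

theorem Lam_const (c0 : ℝ) (z : V → ℝ) (c : Finset V → ℝ) :
    Lam (fun _ => c0) z c = c ∅ * c0 := by
  unfold Lam
  simp_rw [Dv_const]
  simp

/-- the weight of all the other coordinates -/
noncomputable def rest (z : V → ℝ) (J : Finset V) (v : V) (w : V → Bool) : ℝ :=
  ∏ u ∈ univ.erase v, wt z J u (w u)

theorem Dv_eq' (g : (V → Bool) → ℝ) (z : V → ℝ) (I : Finset V) (v : V) :
    Dv g z I = ∑ w : V → Bool, g w * (wt z I v (w v) * rest z I v w) := by
  rw [Dv_eq]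
  refine Finset.sum_congr rfl fun w _ => ?_
  rw [rest, Finset.mul_prod_erase _ (fun u => wt z I u (w u)) (Finset.mem_univ v)]

theorem rest_update (z : V → ℝ) (J : Finset V) (v : V) (s : ℝ) (w : V → Bool) :
    rest (Function.update z v s) J v w = rest z J v w := by
  unfold rest
  refine Finset.prod_congr rfl fun u hu => ?_
  unfold wt
  rw [Function.update_of_ne (Finset.ne_of_mem_erase hu)]

theorem rest_insert (z : V → ℝ) (J : Finset V) (v : V) (w : V → Bool) :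
    rest z (insert v J) v w = rest z J v w := by
  unfold rest
  refine Finset.prod_congr rfl fun u hu => ?_
  unfold wt
  have : u ∈ insert v J ↔ u ∈ J := by
    rw [Finset.mem_insert]
    exact ⟨fun h => h.resolve_left (Finset.ne_of_mem_erase hu), Or.inr⟩
  simp only [this]

theorem Dv_node (v : V) (g0 g1 : (V → Bool) → ℝ) (z : V → ℝ) (J : Finset V) (hJ : v ∉ J) :
    Dv (fun x => if x v then g1 x else g0 x) z J =
      (1 + z v) / 2 * Dv g0 (Function.update z v 1) J +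
        (1 - z v) / 2 * Dv g1 (Function.update z v (-1)) J := by
  rw [Dv_eq' _ _ _ v, Dv_eq' _ _ _ v, Dv_eq' _ _ _ v, Finset.mul_sum, Finset.mul_sum,
    ← Finset.sum_add_distrib]
  refine Finset.sum_congr rfl fun w _ => ?_
  rw [rest_update, rest_update]
  unfold wt sg
  simp only [if_neg hJ, Function.update_self]
  cases w v <;> simp <;> ring

theorem Dv_node' (v : V) (g0 g1 : (V → Bool) → ℝ) (z : V → ℝ) (J : Finset V) (hJ : v ∉ J) :
    Dv (fun x => if x v then g1 x else g0 x) z (insert v J) =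
      1 / 2 * Dv g0 (Function.update z v 1) J -
        1 / 2 * Dv g1 (Function.update z v (-1)) J := by
  rw [Dv_eq' _ _ _ v, Dv_eq' _ _ _ v, Dv_eq' _ _ _ v, Finset.mul_sum, Finset.mul_sum,
    ← Finset.sum_sub_distrib]
  refine Finset.sum_congr rfl fun w _ => ?_
  rw [rest_update, rest_update, rest_insert]
  unfold wt sg
  simp only [if_neg hJ, Function.update_self, Finset.mem_insert_self, if_true]
  cases w v <;> simp <;> ring

/-- the coefficients after a query -/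
def nxt (c : Finset V → ℝ) (v : V) (ξ : ℝ) (I : Finset V) : ℝ :=
  if v ∈ I then 0 else c I + ξ * c (insert v I)

theorem Lam_nxt (g : (V → Bool) → ℝ) (z : V → ℝ) (c : Finset V → ℝ) (v : V) (ξ : ℝ) :
    Lam g z (nxt c v ξ) =
      ∑ J ∈ (univ.erase v).powerset, (c J + ξ * c (insert v J)) * Dv g z J := by
  unfold Lam
  rw [sum_split v]
  refine Finset.sum_congr rfl fun J hJ => ?_
  have hv : v ∉ J := fun h => Finset.notMem_erase v univ (Finset.mem_powerset.mp hJ h)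
  simp [nxt, hv]

theorem Lam_node (v : V) (g0 g1 : (V → Bool) → ℝ) (z : V → ℝ) (c : Finset V → ℝ) (ξ η : ℝ)
    (h : ∀ J, v ∉ J → (1 + z v) * ξ * c (insert v J) = c (insert v J) ∧
      (1 - z v) * η * c (insert v J) = - c (insert v J)) :
    Lam (fun x => if x v then g1 x else g0 x) z c =
      (1 + z v) / 2 * Lam g0 (Function.update z v 1) (nxt c v ξ) +
        (1 - z v) / 2 * Lam g1 (Function.update z v (-1)) (nxt c v η) := by
  rw [Lam_nxt, Lam_nxt, Finset.mul_sum, Finset.mul_sum, ← Finset.sum_add_distrib]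
  unfold Lam
  rw [sum_split v]
  refine Finset.sum_congr rfl fun J hJ => ?_
  have hv : v ∉ J := fun h => Finset.notMem_erase v univ (Finset.mem_powerset.mp hJ h)
  rw [Dv_node v g0 g1 z J hv, Dv_node' v g0 g1 z J hv]
  obtain ⟨h1, h2⟩ := h J hv
  linear_combination (-(1 / 2) * Dv g0 (Function.update z v 1) J) * h1 +
    (-(1 / 2) * Dv g1 (Function.update z v (-1)) J) * h2

/-- the potential -/
noncomputable def Phi (κ : ℝ) (m : ℕ) (c : Finset V → ℝ) : ℝ :=
  ∑ I : Finset V, κ ^ I.card * c I ^ m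

theorem Phi_nxt (κ : ℝ) (m : ℕ) (hm : m ≠ 0) (c : Finset V → ℝ) (v : V) (ξ : ℝ) :
    Phi κ m (nxt c v ξ) =
      ∑ J ∈ (univ.erase v).powerset, κ ^ J.card * (c J + ξ * c (insert v J)) ^ m := by
  unfold Phi
  rw [sum_split v]
  refine Finset.sum_congr rfl fun J hJ => ?_
  have hv : v ∉ J := fun h => Finset.notMem_erase v univ (Finset.mem_powerset.mp hJ h)
  simp [nxt, hv, hm]

theorem Phi_step (q d : ℕ) (hd : 1 ≤ d) (c : Finset V → ℝ) (v : V) (a b ξ η : ℝ) (ha : 0 ≤ a)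
    (hb : 0 ≤ b) (hab : a + b = 1) (h0 : a * ξ + b * η = 0) (hξ : |ξ| ≤ 2) (hη : |η| ≤ 2) :
    a * Phi ((10 * (q + 1) * Real.sqrt d) ^ (2 * q + 2)) (2 * q + 2) (nxt c v ξ) +
      b * Phi ((10 * (q + 1) * Real.sqrt d) ^ (2 * q + 2)) (2 * q + 2) (nxt c v η) ≤
      (1 + 1 / d) * Phi ((10 * (q + 1) * Real.sqrt d) ^ (2 * q + 2)) (2 * q + 2) c := by
  set κ : ℝ := (10 * (q + 1) * Real.sqrt d) ^ (2 * q + 2) with hκ
  have hκ0 : 0 ≤ κ := by positivity
  rw [Phi_nxt _ _ (by omega), Phi_nxt _ _ (by omega), Finset.mul_sum, Finset.mul_sum,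
    ← Finset.sum_add_distrib]
  unfold Phi
  rw [sum_split v, Finset.mul_sum]
  refine Finset.sum_le_sum fun J hJ => ?_
  have hv : v ∉ J := fun h => Finset.notMem_erase v univ (Finset.mem_powerset.mp hJ h)
  rw [Finset.card_insert_of_notMem hv]
  have h1 := two_point q d hd (c J) (c (insert v J)) a b ξ η ha hb hab h0 hξ hη
  rw [← hκ] at h1
  have ev : Even (2 * q + 2) := ⟨q + 1, by ring⟩
  have h2 : 0 ≤ c (insert v J) ^ (2 * q + 2) := ev.pow_nonneg _
  have h3 : 0 ≤ κ ^ J.card := by positivity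
  have h4 := mul_le_mul_of_nonneg_left h1 h3
  have h5 : 0 ≤ 1 / (d : ℝ) * (κ ^ (J.card + 1) * c (insert v J) ^ (2 * q + 2)) := by positivity
  have e : κ ^ (J.card + 1) = κ ^ J.card * κ := pow_succ _ _
  rw [e] at h5 ⊢
  nlinarith

/-- the invariant -/
def Inv (z : V → ℝ) (c : Finset V → ℝ) : Prop :=
  ∀ v, |z v| ≤ 1 / 2 ∨ (|z v| ≤ 1 ∧ ∀ I, v ∈ I → c I = 0)

omit [Fintype V] in
theorem Inv.step {z : V → ℝ} {c : Finset V → ℝ} (h : Inv z c) (v : V) (s ξ : ℝ) (hs : |s| ≤ 1) :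
    Inv (Function.update z v s) (nxt c v ξ) := by
  intro u
  by_cases huv : u = v
  · subst huv
    right
    refine ⟨by simpa using hs, fun I hI => ?_⟩
    simp [nxt, hI]
  · rw [Function.update_of_ne huv]
    rcases h u with h1 | ⟨h1, h2⟩
    · exact Or.inl h1
    · refine Or.inr ⟨h1, fun I hI => ?_⟩
      unfold nxt
      rw [h2 I hI, h2 _ (Finset.mem_insert_of_mem hI)]
      simp

theorem main (q d : ℕ) (hd : 1 ≤ d) (h : ℕ) (g : (V → Bool) → ℝ) (hg : DT h g) :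
    ∀ (z : V → ℝ) (c : Finset V → ℝ), Inv z c →
      Lam g z c ^ (2 * q + 2) ≤
        (1 + 1 / d) ^ h * Phi ((10 * (q + 1) * Real.sqrt d) ^ (2 * q + 2)) (2 * q + 2) c := by
  set κ : ℝ := (10 * (q + 1) * Real.sqrt d) ^ (2 * q + 2) with hκ
  have hκ0 : 0 ≤ κ := by positivity
  have ev : Even (2 * q + 2) := ⟨q + 1, by ring⟩
  have hα : (1 : ℝ) ≤ 1 + 1 / d := le_add_of_nonneg_right (by positivity)
  induction hg with
  | const h c0 hc =>
    intro z c _
    rw [Lam_const, mul_pow]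
    have h1 : c0 ^ (2 * q + 2) ≤ 1 := by
      rw [← ev.pow_abs]
      exact pow_le_one₀ (abs_nonneg _) hc
    have h2 : κ ^ (∅ : Finset V).card * c ∅ ^ (2 * q + 2) ≤ Phi κ (2 * q + 2) c :=
      Finset.single_le_sum (f := fun I : Finset V => κ ^ I.card * c I ^ (2 * q + 2))
        (fun I _ => mul_nonneg (pow_nonneg hκ0 _) (ev.pow_nonneg _)) (Finset.mem_univ _)
    rw [Finset.card_empty, pow_zero, one_mul] at h2
    have h3 : 0 ≤ c ∅ ^ (2 * q + 2) := ev.pow_nonneg _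
    have h4 : (1 : ℝ) ≤ (1 + 1 / d) ^ h := one_le_pow₀ hα
    nlinarith
  | node h v g0 g1 _ _ ih0 ih1 =>
    intro z c hI
    have hz1 : |z v| ≤ 1 := by
      rcases hI v with h1 | h1
      · linarith
      · exact h1.1
    obtain ⟨hz2, hz3⟩ := abs_le.mp hz1
    obtain ⟨ξ, η, k1, k2, k3, k4⟩ : ∃ ξ η : ℝ, (∀ J, v ∉ J →
        (1 + z v) * ξ * c (insert v J) = c (insert v J) ∧
        (1 - z v) * η * c (insert v J) = - c (insert v J)) ∧
        (1 + z v) / 2 * ξ + (1 - z v) / 2 * η = 0 ∧ |ξ| ≤ 2 ∧ |η| ≤ 2 := by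
      rcases hI v with h1 | ⟨_, h2⟩
      · obtain ⟨h3, h4⟩ := abs_le.mp h1
        have p1 : 0 < 1 + z v := by linarith
        have p2 : 0 < 1 - z v := by linarith
        refine ⟨1 / (1 + z v), -(1 / (1 - z v)), fun J _ => ⟨?_, ?_⟩, ?_, ?_, ?_⟩
        · field_simp
        · field_simp
        · field_simp
          ring
        · rw [abs_of_pos (by positivity), div_le_iff₀ p1]
          linarith
        · rw [abs_neg, abs_of_pos (by positivity), div_le_iff₀ p2]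
          linarith
      · refine ⟨0, 0, fun J _ => ?_, by simp, by simp, by simp⟩
        simp [h2 _ (Finset.mem_insert_self v J)]
    rw [Lam_node v g0 g1 z c ξ η k1]
    have ha : 0 ≤ (1 + z v) / 2 := by linarith
    have hb : 0 ≤ (1 - z v) / 2 := by linarith
    have hab : (1 + z v) / 2 + (1 - z v) / 2 = 1 := by ring
    have conv := (ev.convexOn_pow (𝕜 := ℝ)).2
      (Set.mem_univ (Lam g0 (Function.update z v 1) (nxt c v ξ)))
      (Set.mem_univ (Lam g1 (Function.update z v (-1)) (nxt c v η))) ha hb hab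
    simp only [smul_eq_mul] at conv
    have i0 := mul_le_mul_of_nonneg_left
      (ih0 _ _ (hI.step v 1 ξ (by simp))) ha
    have i1 := mul_le_mul_of_nonneg_left
      (ih1 _ _ (hI.step v (-1) η (by simp))) hb
    have st := Phi_step q d hd c v _ _ ξ η ha hb hab k2 k3 k4
    rw [← hκ] at st
    have hp : (0 : ℝ) ≤ (1 + 1 / d) ^ h := by positivity
    have st2 := mul_le_mul_of_nonneg_left st hp
    rw [pow_succ (1 + 1 / (d : ℝ)) h]
    nlinarith

end

end Growth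

theorem growth {V : Type} [Fintype V] [DecidableEq V] (p d : ℕ) (hp : 1 ≤ p) (hd : 1 ≤ d)
    (g : (V → Bool) → ℝ) (hg : DT d g) (z : V → ℝ) (hz : ∀ v, |z v| ≤ 1 / 2)
    (c : Finset V → ℝ) :
    Lam g z c ^ (2 * p) ≤
      3 * ∑ I : Finset V, (10 * p * Real.sqrt d) ^ (2 * p * I.card) * c I ^ (2 * p) := by
  obtain ⟨q, rfl⟩ : ∃ q, p = q + 1 := ⟨p - 1, by omega⟩
  have h := Growth.main q d hd d g hg z c (fun v => Or.inl (hz v))
  have e : 2 * (q + 1) = 2 * q + 2 := by ring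
  rw [e]
  have h3 : (1 + 1 / (d : ℝ)) ^ d ≤ 3 := by
    have hd0 : (0 : ℝ) < d := by exact_mod_cast hd
    have h4 : (1 + 1 / (d : ℝ)) ≤ Real.exp (1 / d) := by
      have := Real.add_one_le_exp (1 / (d : ℝ))
      linarith
    have h5 : (1 + 1 / (d : ℝ)) ^ d ≤ Real.exp (1 / d) ^ d :=
      pow_le_pow_left₀ (by positivity) h4 _
    rw [← Real.exp_nat_mul, mul_one_div, div_self hd0.ne'] at h5
    have h9 := Real.exp_one_lt_d9
    linarith
  have ev : Even (2 * q + 2) := ⟨q + 1, by ring⟩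
  have e2 : Growth.Phi ((10 * (q + 1) * Real.sqrt d) ^ (2 * q + 2)) (2 * q + 2) c =
      ∑ I : Finset V, (10 * ((q + 1 : ℕ) : ℝ) * Real.sqrt d) ^ ((2 * q + 2) * I.card) *
        c I ^ (2 * q + 2) := by
    unfold Growth.Phi
    refine Finset.sum_congr rfl fun I _ => ?_
    rw [← pow_mul]
    push_cast
    rfl
  rw [← e2]
  refine h.trans (mul_le_mul_of_nonneg_right h3 ?_)
  exact Finset.sum_nonneg fun I _ => mul_nonneg (by positivity) (ev.pow_nonneg _)

end Crest.Agent.R350
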