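import Crest.Agent.R350.Defs

/-! Families of unitaries implementable with a given number of phase queries. -/

open Finset Matrix

namespace Crest.Agent.R350

variable {ι : Type}

/-- value of the phase oracle -/
def ph (o : Option ι) (x : ι → Bool) : ℂ :=
  match o with
  | none => 1
  | some i => if x i then -1 else 1

lemma ph_mul_self (o : Option ι) (x : ι → Bool) : ph o x * ph o x = 1 := by
  cases o with
  | none => simp [ph]
  | some i => by_cases h : x i <;> simp [ph, h]

lemma star_ph (o : Option ι) (x : ι → Bool) : star (ph o x) = ph o x := by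
  cases o with
  | none => simp [ph]
  | some i => by_cases h : x i <;> simp [ph, h]

/-- the phase oracle -/
def phase {E : Type} [DecidableEq E] (q : E → Option ι) (x : ι → Bool) : Matrix E E ℂ :=
  Matrix.diagonal (fun e => ph (q e) x)

section
variable {E : Type} [Fintype E] [DecidableEq E]

omit [Fintype E] in
lemma star_phase (q : E → Option ι) (x : ι → Bool) : star (phase q x) = phase q x := by
  unfold phase
  rw [Matrix.star_eq_conjTranspose, Matrix.diagonal_conjTranspose]
  congr 1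
  funext e
  exact star_ph _ _

lemma phase_unitary (q : E → Option ι) (x : ι → Bool) :
    phase q x ∈ Matrix.unitaryGroup E ℂ := by
  rw [Matrix.mem_unitaryGroup_iff, star_phase]
  unfold phase
  rw [Matrix.diagonal_mul_diagonal]
  simp [ph_mul_self]

omit [Fintype E] in
lemma phase_none (x : ι → Bool) : phase (fun _ : E => (none : Option ι)) x = 1 := by
  unfold phase
  simp [ph]

/-- implementable with `T` queries -/
def Impl : ℕ → ((ι → Bool) → Matrix E E ℂ) → Prop
  | 0, A => ∃ U, U ∈ Matrix.unitaryGroup E ℂ ∧ ∀ x, A x = U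
  | T + 1, A => ∃ (U : Matrix E E ℂ) (q : E → Option ι) (B : (ι → Bool) → Matrix E E ℂ),
      U ∈ Matrix.unitaryGroup E ℂ ∧ Impl T B ∧ ∀ x, A x = U * phase q x * B x

lemma Impl.const {U : Matrix E E ℂ} (hU : U ∈ Matrix.unitaryGroup E ℂ) :
    Impl 0 (fun _ : ι → Bool => U) := ⟨U, hU, fun _ => rfl⟩

lemma Impl.unitary : ∀ {T : ℕ} {A : (ι → Bool) → Matrix E E ℂ}, Impl T A →
    ∀ x, A x ∈ Matrix.unitaryGroup E ℂ
  | 0, _, ⟨_, hU, h⟩, x => by rw [h x]; exact hU
  | _ + 1, _, ⟨_, q, _, hU, hB, h⟩, x => by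
      rw [h x]
      exact mul_mem (mul_mem hU (phase_unitary q x)) (hB.unitary x)

lemma Impl.congr {T : ℕ} {A B : (ι → Bool) → Matrix E E ℂ} (h : Impl T A)
    (hAB : ∀ x, B x = A x) : Impl T B := by
  have : B = A := funext hAB
  rw [this]; exact h

lemma Impl.mul_left {V : Matrix E E ℂ} (hV : V ∈ Matrix.unitaryGroup E ℂ) :
    ∀ {T : ℕ} {A : (ι → Bool) → Matrix E E ℂ}, Impl T A → Impl T (fun x => V * A x)
  | 0, _, ⟨U, hU, h⟩ => ⟨V * U, mul_mem hV hU, fun x => by beta_reduce; rw [h x]⟩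
  | _ + 1, _, ⟨U, q, B, hU, hB, h⟩ =>
      ⟨V * U, q, B, mul_mem hV hU, hB, fun x => by beta_reduce; rw [h x]; simp only [Matrix.mul_assoc]⟩

lemma Impl.mul : ∀ {S T : ℕ} {A B : (ι → Bool) → Matrix E E ℂ}, Impl S A → Impl T B →
    Impl (S + T) (fun x => A x * B x)
  | 0, T, _, B, ⟨U, hU, h⟩, hB => by
      rw [Nat.zero_add]
      exact (Impl.mul_left hU hB).congr (fun x => by rw [h x])
  | S + 1, T, _, B, ⟨U, q, C, hU, hC, h⟩, hB => by
      rw [Nat.succ_add]
      exact ⟨U, q, fun x => C x * B x, hU, hC.mul hB,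
        fun x => by beta_reduce; rw [h x]; simp only [Matrix.mul_assoc]⟩

lemma Impl.mul_right {V : Matrix E E ℂ} (hV : V ∈ Matrix.unitaryGroup E ℂ)
    {T : ℕ} {A : (ι → Bool) → Matrix E E ℂ} (h : Impl T A) : Impl T (fun x => A x * V) :=
  h.mul (Impl.const hV)

lemma Impl.phase (q : E → Option ι) : Impl 1 (fun x : ι → Bool => phase q x) :=
  ⟨1, q, fun _ => 1, one_mem _, Impl.const (one_mem _), fun x => by simp⟩

lemma Impl.succ {T : ℕ} {A : (ι → Bool) → Matrix E E ℂ} (h : Impl T A) : Impl (T + 1) A :=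
  ⟨1, fun _ => none, A, one_mem _, h, fun x => by rw [phase_none]; simp⟩

lemma Impl.mono {S T : ℕ} {A : (ι → Bool) → Matrix E E ℂ} (h : Impl S A) (hST : S ≤ T) :
    Impl T A := by
  induction hST with
  | refl => exact h
  | step _ ih => exact ih.succ

lemma Impl.star : ∀ {T : ℕ} {A : (ι → Bool) → Matrix E E ℂ}, Impl T A →
    Impl T (fun x => Star.star (A x))
  | 0, _, ⟨U, hU, h⟩ => ⟨Star.star U, Unitary.star_mem hU, fun x => by beta_reduce; rw [h x]⟩
  | _ + 1, _, ⟨U, q, B, hU, hB, h⟩ => by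
      refine ((hB.star).mul ((Impl.phase q).mul_right (Unitary.star_mem hU))).congr ?_
      intro x
      rw [h x, star_mul, star_mul, star_phase]

lemma Impl.comap {ι' : Type} (g : ι → ι') : ∀ {T : ℕ} {A : (ι → Bool) → Matrix E E ℂ},
    Impl T A → Impl T (fun y : ι' → Bool => A (fun i => y (g i)))
  | 0, _, ⟨U, hU, h⟩ => ⟨U, hU, fun _ => h _⟩
  | _ + 1, _, ⟨U, q, B, hU, hB, h⟩ => by
      refine ⟨U, fun e => (q e).map g, _, hU, hB.comap g, fun y => ?_⟩
      beta_reduce
      rw [h]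
      congr 2
      unfold R350.phase
      congr 1
      funext e
      beta_reduce
      cases q e <;> simp [ph]

end

section
variable {E E' : Type} [Fintype E] [DecidableEq E] [Fintype E'] [DecidableEq E']

lemma unitary_submatrix {U : Matrix E E ℂ} (hU : U ∈ Matrix.unitaryGroup E ℂ) (e1 e2 : E' ≃ E) :
    U.submatrix e1 e2 ∈ Matrix.unitaryGroup E' ℂ := by
  rw [Matrix.mem_unitaryGroup_iff] at hU ⊢
  rw [Matrix.star_eq_conjTranspose] at hU ⊢
  rw [Matrix.conjTranspose_submatrix, Matrix.submatrix_mul_equiv, hU]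
  simp

lemma Impl.submatrix (e1 e2 : E' ≃ E) : ∀ {T : ℕ} {A : (ι → Bool) → Matrix E E ℂ},
    Impl T A → Impl T (fun x => (A x).submatrix e1 e2) := by
  intro T
  induction T generalizing e1 with
  | zero =>
    rintro A ⟨U, hU, h⟩
    exact ⟨U.submatrix e1 e2, unitary_submatrix hU e1 e2, fun x => by beta_reduce; rw [h x]⟩
  | succ T ih =>
    rintro A ⟨U, q, B, hU, hB, h⟩
    refine ⟨U.submatrix e1 e1, fun e => q (e1 e), _, unitary_submatrix hU e1 e1, ih e1 hB,
      fun x => ?_⟩
    have hp : R350.phase (fun e => q (e1 e)) x = (R350.phase q x).submatrix e1 e1 := by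
      unfold R350.phase
      rw [Matrix.submatrix_diagonal_equiv]
      rfl
    beta_reduce
    rw [h x, hp, Matrix.submatrix_mul_equiv, Matrix.submatrix_mul_equiv]

lemma unitary_blockDiagonal {U : E' → Matrix E E ℂ} (hU : ∀ c, U c ∈ Matrix.unitaryGroup E ℂ) :
    Matrix.blockDiagonal U ∈ Matrix.unitaryGroup (E × E') ℂ := by
  rw [Matrix.mem_unitaryGroup_iff, Matrix.star_eq_conjTranspose,
    Matrix.blockDiagonal_conjTranspose, ← Matrix.blockDiagonal_mul, ← Matrix.blockDiagonal_one]
  congr 1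
  funext c
  have := hU c
  rw [Matrix.mem_unitaryGroup_iff, Matrix.star_eq_conjTranspose] at this
  exact this

lemma Impl.block : ∀ {T : ℕ} {A : E' → (ι → Bool) → Matrix E E ℂ},
    (∀ c, Impl T (A c)) → Impl T (fun x => Matrix.blockDiagonal (fun c => A c x)) := by
  intro T
  induction T with
  | zero =>
    intro A h
    choose U hU h using h
    exact ⟨Matrix.blockDiagonal U, unitary_blockDiagonal hU, fun x => by simp only [h]⟩
  | succ T ih =>
    intro A h
    choose U q B hU hB h using h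
    refine ⟨Matrix.blockDiagonal U, fun e => q e.2 e.1, _, unitary_blockDiagonal hU, ih hB,
      fun x => ?_⟩
    have hp : R350.phase (fun e : E × E' => q e.2 e.1) x
        = Matrix.blockDiagonal (fun c => R350.phase (q c) x) := by
      unfold R350.phase
      rw [Matrix.blockDiagonal_diagonal]
    simp only [h]
    rw [hp, ← Matrix.blockDiagonal_mul, ← Matrix.blockDiagonal_mul]

lemma unitary_fromBlocks {U : Matrix E E ℂ} (hU : U ∈ Matrix.unitaryGroup E ℂ) :
    Matrix.fromBlocks U 0 0 (1 : Matrix E' E' ℂ) ∈ Matrix.unitaryGroup (E ⊕ E') ℂ := by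
  rw [Matrix.mem_unitaryGroup_iff, Matrix.star_eq_conjTranspose] at hU ⊢
  rw [Matrix.fromBlocks_conjTranspose, Matrix.fromBlocks_multiply]
  simp [hU]

lemma Impl.sum : ∀ {T : ℕ} {A : (ι → Bool) → Matrix E E ℂ},
    Impl T A → Impl T (fun x => Matrix.fromBlocks (A x) 0 0 (1 : Matrix E' E' ℂ)) := by
  intro T
  induction T with
  | zero =>
    rintro A ⟨U, hU, h⟩
    exact ⟨_, unitary_fromBlocks hU, fun x => by beta_reduce; rw [h x]⟩
  | succ T ih =>
    rintro A ⟨U, q, B, hU, hB, h⟩
    refine ⟨_, Sum.elim q (fun _ => none), _, unitary_fromBlocks hU, ih hB, fun x => ?_⟩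
    have hp : R350.phase (Sum.elim q (fun _ : E' => none)) x
        = Matrix.fromBlocks (R350.phase q x) 0 0 (1 : Matrix E' E' ℂ) := by
      unfold R350.phase
      rw [← Matrix.diagonal_one, Matrix.fromBlocks_diagonal]
      congr 1
      funext e
      cases e <;> simp [ph]
    beta_reduce
    rw [h x, hp, Matrix.fromBlocks_multiply, Matrix.fromBlocks_multiply]
    simp

lemma Impl.pad {T : ℕ} {A : (ι → Bool) → Matrix E E ℂ} (h : Impl T A) (f : E → E')
    (hf : Function.Injective f) (e0 : E) (b0 : E') :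
    ∃ A' : (ι → Bool) → Matrix E' E' ℂ, Impl T A' ∧ ∀ x (g : E' → ℝ),
      ∑ s, ‖A' x s b0‖ ^ 2 * g s = ∑ e, ‖A x e e0‖ ^ 2 * g (f e) := by
  classical
  let eqv : E ⊕ ((Set.range f)ᶜ : Set E') ≃ E' :=
    ((Equiv.ofInjective f hf).sumCongr (Equiv.refl _)).trans (Equiv.Set.sumCompl (Set.range f))
  have heqv : ∀ e, eqv (Sum.inl e) = f e := fun e => by simp [eqv]
  refine ⟨fun x => (Matrix.fromBlocks (A x) 0 0 1).submatrix eqv.symm
    ((Equiv.swap b0 (f e0)).trans eqv.symm), (Impl.sum h).submatrix _ _, fun x g => ?_⟩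
  rw [← eqv.sum_comp, Fintype.sum_sum_type]
  have h0 : ∀ e, eqv.symm (f e) = Sum.inl e := fun e => by rw [← heqv, Equiv.symm_apply_apply]
  simp [h0, heqv]

end

end Crest.Agent.R350
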