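import Crest.Agent.R350.Defs
import Crest.Agent.R350.Gauss

/-! Multilinear extensions: bounds, characters, and the polynomial version. -/

open MvPolynomial Finset

namespace Crest.Agent.R350

variable {V : Type} [Fintype V] [DecidableEq V]

lemma sg_mul_self (b : Bool) : sg b * sg b = 1 := by cases b <;> simp [sg]

lemma abs_sg (b : Bool) : |sg b| = 1 := by cases b <;> simp [sg]

lemma DT.abs_le {ι : Type} {d : ℕ} {g : (ι → Bool) → ℝ} (h : DT d g) : ∀ w, |g w| ≤ 1 := by
  induction h with
  | const d c h => exact fun _ => h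
  | node d v g0 g1 _ _ h0 h1 =>
    intro w
    by_cases hw : w v = true
    · simpa [hw] using h1 w
    · simpa [hw] using h0 w

lemma prod_split {A : Type} [CommMonoid A] (I : Finset V) (f g : V → A) :
    (∏ v ∈ I, f v) * ∏ v ∈ univ \ I, g v = ∏ v, if v ∈ I then f v else g v := by
  rw [Finset.prod_ite]
  congr 1
  · congr 1; ext v; simp
  · congr 1; ext v; simp

lemma Dv_eq (g : (V → Bool) → ℝ) (z : V → ℝ) (I : Finset V) :
    Dv g z I = ∑ w : V → Bool, g w *
      ∏ v, if v ∈ I then sg (w v) / 2 else (1 + sg (w v) * z v) / 2 := by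
  unfold Dv
  simp_rw [prod_split]

lemma abs_Dv_le (g : (V → Bool) → ℝ) (hg : ∀ w, |g w| ≤ 1) (z : V → ℝ) (I : Finset V) :
    |Dv g z I| ≤ ∏ v, max 1 |z v| := by
  rw [Dv_eq]
  refine (Finset.abs_sum_le_sum_abs _ _).trans ?_
  have h1 : ∀ w : V → Bool,
      |g w * ∏ v, if v ∈ I then sg (w v) / 2 else (1 + sg (w v) * z v) / 2| ≤
      ∏ v, |if v ∈ I then sg (w v) / 2 else (1 + sg (w v) * z v) / 2| := by
    intro w
    rw [abs_mul, Finset.abs_prod]
    exact mul_le_of_le_one_left (Finset.prod_nonneg fun _ _ => abs_nonneg _) (hg w)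
  refine (Finset.sum_le_sum fun w _ => h1 w).trans ?_
  rw [← Fintype.prod_sum (fun v (b : Bool) =>
    |if v ∈ I then sg b / 2 else (1 + sg b * z v) / 2|)]
  refine Finset.prod_le_prod (fun v _ => Finset.sum_nonneg fun _ _ => abs_nonneg _) fun v _ => ?_
  rw [Fintype.sum_bool]
  split_ifs
  · simp only [sg, if_true, Bool.false_eq_true, if_false]
    refine le_trans (by norm_num [abs_div]) (le_max_left _ _)
  · simp only [sg, if_true, Bool.false_eq_true, if_false]
    have h2 := le_max_left 1 |z v|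
    have h3 := le_max_right 1 |z v|
    have h4 := le_abs_self (z v)
    have h5 := neg_abs_le (z v)
    rcases abs_cases ((1 + -1 * z v) / 2) with h | h <;>
      rcases abs_cases ((1 + 1 * z v) / 2) with h' | h' <;> linarith [h.1, h.2, h'.1, h'.2]

/-- the character of a set of coordinates -/
noncomputable def chi (J : Finset V) (w : V → Bool) : ℝ := ∏ v ∈ J, sg (w v)

lemma Dv_chi (J I : Finset V) (z : V → ℝ) :
    Dv (chi J) z I =
      ∏ v, if v ∈ J then (if v ∈ I then 1 else z v) else (if v ∈ I then 0 else 1) := by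
  rw [Dv_eq]
  have h1 : ∀ w : V → Bool, chi J w = ∏ v, if v ∈ J then sg (w v) else 1 := by
    intro w
    rw [chi, ← prod_split]; simp
  simp_rw [h1, ← Finset.prod_mul_distrib]
  rw [← Fintype.prod_sum (fun v (b : Bool) => (if v ∈ J then sg b else 1) *
    if v ∈ I then sg b / 2 else (1 + sg b * z v) / 2)]
  refine Finset.prod_congr rfl fun v _ => ?_
  rw [Fintype.sum_bool]
  split_ifs <;> simp [sg] <;> ring

lemma Dv_sum {ι : Type} (s : Finset ι) (c : ι → ℝ) (g : ι → (V → Bool) → ℝ) (z : V → ℝ)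
    (I : Finset V) : Dv (fun w => ∑ a ∈ s, c a * g a w) z I = ∑ a ∈ s, c a * Dv (g a) z I := by
  unfold Dv
  simp_rw [Finset.sum_mul, Finset.mul_sum]
  rw [Finset.sum_comm]
  exact Finset.sum_congr rfl fun a _ => Finset.sum_congr rfl fun w _ => by ring

/-- the product distribution with means `z` -/
noncomputable def wt (z : V → ℝ) (w : V → Bool) : ℝ := ∏ v, (1 + sg (w v) * z v) / 2

lemma Dv_empty (g : (V → Bool) → ℝ) (z : V → ℝ) : Dv g z ∅ = ∑ w, wt z w * g w := by
  unfold Dv wt
  simp [mul_comm]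

lemma sum_wt (z : V → ℝ) : ∑ w, wt z w = 1 := by
  unfold wt
  rw [← Fintype.prod_sum (fun v (b : Bool) => (1 + sg b * z v) / 2)]
  refine Finset.prod_eq_one fun v _ => ?_
  rw [Fintype.sum_bool]; simp [sg]; ring

omit [DecidableEq V] in
lemma wt_nonneg (z : V → ℝ) (hz : ∀ v, |z v| ≤ 1) (w : V → Bool) : 0 ≤ wt z w := by
  refine Finset.prod_nonneg fun v _ => ?_
  have h := abs_le.mp (hz v)
  cases w v <;> simp [sg] <;> linarith [h.1, h.2]

omit [DecidableEq V] in
lemma wt_zero (w : V → Bool) : wt (fun _ => 0) w = 1 / 2 ^ Fintype.card V := by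
  simp [wt, Finset.prod_const, Finset.card_univ]

variable {τ : Type}

/-- the partial derivative of the multilinear extension, at a point with polynomial coordinates -/
noncomputable def DP (g : (V → Bool) → ℝ) (Z : V → MvPolynomial τ ℝ) (I : Finset V) :
    MvPolynomial τ ℝ :=
  ∑ w : V → Bool, C (g w) * ((∏ v ∈ I, C (sg (w v) / 2)) *
    ∏ v ∈ univ \ I, (C (1 / 2) + C (sg (w v) / 2) * Z v))

lemma eval_DP (g : (V → Bool) → ℝ) (Z : V → MvPolynomial τ ℝ) (I : Finset V) (x : τ → ℝ) :
    eval x (DP g Z I) = Dv g (fun v => eval x (Z v)) I := by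
  unfold DP Dv
  simp only [map_sum, map_mul, map_prod, map_add, eval_C]
  refine Finset.sum_congr rfl fun w _ => ?_
  congr 2
  exact Finset.prod_congr rfl fun v _ => by ring

omit [Fintype V] in
lemma der_prod (δ : Derivation ℝ (MvPolynomial τ ℝ) (MvPolynomial τ ℝ)) (s : Finset V)
    (f : V → MvPolynomial τ ℝ) :
    δ (∏ v ∈ s, f v) = ∑ v ∈ s, δ (f v) * ∏ u ∈ s.erase v, f u := by
  induction s using Finset.induction_on with
  | empty => simp
  | insert i s hi ih =>
    rw [Finset.prod_insert hi, Derivation.leibniz, ih, Finset.sum_insert hi,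
      Finset.erase_insert hi, smul_eq_mul, smul_eq_mul, Finset.mul_sum, add_comm, mul_comm]
    congr 1
    refine Finset.sum_congr rfl fun v hv => ?_
    have hne : i ≠ v := fun h => hi (h ▸ hv)
    rw [Finset.erase_insert_of_ne hne, Finset.prod_insert (fun h => hi (Finset.mem_of_mem_erase h))]
    ring

lemma der_C_mul (δ : Derivation ℝ (MvPolynomial τ ℝ) (MvPolynomial τ ℝ)) (c : ℝ)
    (p : MvPolynomial τ ℝ) : δ (C c * p) = C c * δ p := by
  rw [C_mul', Derivation.map_smul, C_mul']

lemma der_DP (δ : Derivation ℝ (MvPolynomial τ ℝ) (MvPolynomial τ ℝ)) (g : (V → Bool) → ℝ)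
    (Z : V → MvPolynomial τ ℝ) (I : Finset V) :
    δ (DP g Z I) = ∑ v ∈ univ \ I, δ (Z v) * DP g Z (insert v I) := by
  unfold DP
  simp_rw [map_sum, Finset.mul_sum]
  rw [Finset.sum_comm]
  refine Finset.sum_congr rfl fun w _ => ?_
  rw [der_C_mul, ← map_prod, der_C_mul, der_prod, Finset.mul_sum, Finset.mul_sum]
  refine Finset.sum_congr rfl fun v hv => ?_
  have hv' : v ∉ I := (Finset.mem_sdiff.mp hv).2
  have h1 : (univ \ I).erase v = univ \ insert v I := by
    ext u; simp [not_or]
  rw [h1, Finset.prod_insert hv', map_add, derivation_C, der_C_mul, map_prod]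
  ring

end Crest.Agent.R350
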