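import Crest.Agent.R350.Chain
import Crest.Agent.R350.Growth

/-! The path coefficients: growth bound, crude bound and the value on the forrelation itself. -/

open MvPolynomial Finset

namespace Crest.Agent.R350

variable {K n : ℕ}

/-- the coefficients of the forrelation derivative -/
noncomputable def cc (K n : ℕ) (I : Finset (Fin K × P n)) : ℝ :=
  ∑ a : Fin K → P n, if Ip (K - 1) a = I then Wp (K - 1) a else 0

lemma mem_Ip_top {a : Fin K → P n} {v : Fin K × P n} : v ∈ Ip (K - 1) a ↔ v.2 = a v.1 := by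
  rw [mem_Ip]
  have := v.1.2
  exact ⟨fun h => h.2, fun h => ⟨by omega, h⟩⟩

lemma Ip_top_inj : Function.Injective (Ip (K := K) (n := n) (K - 1)) := by
  intro a a' h
  funext i
  have : (i, a i) ∈ Ip (K - 1) a' := h ▸ mem_Ip_top.mpr rfl
  exact mem_Ip_top.mp this

lemma card_Ip_top (a : Fin K → P n) : (Ip (K - 1) a).card = K := by
  have : Ip (K - 1) a = univ.image (fun i => (i, a i)) := by
    ext ⟨i, b⟩
    simp only [mem_Ip_top, Finset.mem_image, Finset.mem_univ, true_and, Prod.mk.injEq]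
    constructor
    · rintro rfl; exact ⟨i, rfl, rfl⟩
    · rintro ⟨j, rfl, rfl⟩; rfl
  rw [this, Finset.card_image_of_injective _ (fun i j h => (Prod.mk.inj h).1)]
  simp

lemma cc_Ip (a : Fin K → P n) : cc K n (Ip (K - 1) a) = Wp (K - 1) a := by
  unfold cc
  rw [Finset.sum_eq_single a]
  · simp
  · intro b _ hb
    rw [if_neg (fun h => hb (Ip_top_inj h))]
  · simp

lemma sum_cc (F : Finset (Fin K × P n) → ℝ → ℝ) (hF : ∀ I, F I 0 = 0) :
    ∑ I, F I (cc K n I) = ∑ a : Fin K → P n, F (Ip (K - 1) a) (Wp (K - 1) a) := by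
  rw [← Finset.sum_subset (Finset.subset_univ (univ.image (Ip (K := K) (n := n) (K - 1)))),
    Finset.sum_image (fun a _ b _ h => Ip_top_inj h)]
  · simp_rw [cc_Ip]
  · intro I _ hI
    have : cc K n I = 0 := by
      refine Finset.sum_eq_zero fun a _ => if_neg fun h => hI ?_
      exact Finset.mem_image.mpr ⟨a, Finset.mem_univ _, h⟩
    rw [this, hF]

lemma Lam_cc (g : (Fin K × P n → Bool) → ℝ) (z : Fin K × P n → ℝ) :
    Lam g z (cc K n) = ∑ a : Fin K → P n, Wp (K - 1) a * Dv g z (Ip (K - 1) a) :=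
  sum_cc (fun I c => c * Dv g z I) (fun _ => zero_mul _)

lemma eval_LP (g : (Fin K × P n → Bool) → ℝ) (x : Option (Fin K × P n) → ℝ) :
    eval x (LP g) = Lam g (fun v => eval x (Zp v)) (cc K n) := by
  rw [Lam_cc, LP, map_sum]
  simp only [map_mul, eval_C, eval_DP]

lemma Wp_sq (j : ℕ) (a : Fin K → P n) : Wp j a * Wp j a = (1 / 2 ^ n) ^ j := by
  unfold Wp
  rw [← Finset.prod_mul_distrib]
  simp only [UU_sq, Finset.prod_const, Finset.card_range]

lemma abs_Wp_le (j : ℕ) (a : Fin K → P n) : |Wp j a| ≤ 1 := by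
  rw [abs_le_one_iff_mul_self_le_one, Wp_sq]
  refine pow_le_one₀ (by positivity) ?_
  rw [div_le_one (by positivity)]
  exact one_le_pow₀ (by norm_num)

lemma abs_Lam_crude (g : (Fin K × P n → Bool) → ℝ) (hg : ∀ w, |g w| ≤ 1) (z : Fin K × P n → ℝ) :
    |Lam g z (cc K n)| ≤ (2 ^ n) ^ K * ∏ v, max 1 |z v| := by
  rw [Lam_cc]
  refine (Finset.abs_sum_le_sum_abs _ _).trans ?_
  have : ∀ a : Fin K → P n, |Wp (K - 1) a * Dv g z (Ip (K - 1) a)| ≤ ∏ v, max 1 |z v| := by
    intro a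
    rw [abs_mul]
    exact (mul_le_of_le_one_left (abs_nonneg _) (abs_Wp_le _ _)).trans (abs_Dv_le g hg z _)
  refine (Finset.sum_le_sum fun a _ => this a).trans (le_of_eq ?_)
  simp [Finset.card_univ]

lemma abs_Lam_good (hK : 1 ≤ K) (hn : 1 ≤ n) (d : ℕ) (hd : 1 ≤ d) (g : (Fin K × P n → Bool) → ℝ)
    (hg : DT d g) (z : Fin K × P n → ℝ) (hz : ∀ v, |z v| ≤ 1 / 2) :
    |Lam g z (cc K n)| ≤ (60 * n * Real.sqrt d) ^ K / Real.sqrt (2 ^ n) ^ (K - 1) := by
  have h1 := growth n d hn hd g hg z hz (cc K n)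
  rw [sum_cc (fun I c => (10 * n * Real.sqrt d) ^ (2 * n * I.card) * c ^ (2 * n))
    (fun I => by rw [zero_pow (by omega), mul_zero])] at h1
  have h2 : ∀ a : Fin K → P n, Wp (K - 1) a ^ (2 * n) = ((1 / 2 ^ n) ^ (K - 1)) ^ n := by
    intro a
    rw [pow_mul, sq, Wp_sq]
  simp only [card_Ip_top, h2, Finset.sum_const, Finset.card_univ, Fintype.card_fun,
    Fintype.card_fin, Fintype.card_bool, nsmul_eq_mul] at h1
  push_cast at h1
  rw [← pow_le_pow_iff_left₀ (abs_nonneg _) (by positivity) (show 2 * n ≠ 0 by omega),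
    Even.pow_abs (even_two_mul n)]
  refine h1.trans ?_
  have h3 : ((60 * n * Real.sqrt d) ^ K / Real.sqrt (2 ^ n) ^ (K - 1)) ^ (2 * n)
      = 36 ^ (n * K) * ((10 * n * Real.sqrt d) ^ (2 * n * K) * ((1 / 2 ^ n) ^ (K - 1)) ^ n) := by
    have h4 : (Real.sqrt (2 ^ n) ^ (K - 1)) ^ (2 * n) = ((2 ^ n) ^ (K - 1)) ^ n := by
      rw [← pow_mul, mul_comm (K - 1), mul_assoc, pow_mul, sq, sqrt_two_pow_sq, ← pow_mul,
        ← pow_mul, ← pow_mul]
      congr 1; ring
    have h5 : ((60 * n * Real.sqrt d) ^ K) ^ (2 * n)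
        = 36 ^ (n * K) * (10 * n * Real.sqrt d) ^ (2 * n * K) := by
      rw [← pow_mul, show (60 * n * Real.sqrt d : ℝ) = 6 * (10 * n * Real.sqrt d) by ring, mul_pow,
        show (36 : ℝ) = 6 ^ 2 by norm_num, ← pow_mul]
      congr 1 <;> (congr 1; ring)
    rw [div_pow, h4, h5, one_div, inv_pow, inv_pow, div_eq_mul_inv, mul_assoc]
  rw [h3, ← mul_assoc]
  refine mul_le_mul_of_nonneg_right ?_ (by positivity)
  rw [← pow_mul, show (36 : ℝ) = 18 * 2 by norm_num, mul_pow]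
  refine mul_le_mul_of_nonneg_right ?_ (by positivity)
  calc (3 : ℝ) ≤ 18 ^ 1 := by norm_num
    _ ≤ 18 ^ (n * K) := pow_le_pow_right₀ (by norm_num) (Nat.mul_pos hn hK)

lemma zz_cast (w : Fin K × P n → Bool) (i : Fin K) (b : P n) :
    (zz w i.val b : ℝ) = sg (w (i, b)) := by
  unfold zz sgZ sg
  rw [dif_pos i.2]
  simp only [Fin.eta]
  split_ifs <;> simp

lemma path_formula (w : Fin K × P n → Bool) (j : ℕ) (h : j < K) (F : P n → ℝ) :
    ((2 : ℝ) ^ n) ^ (j + 1) * ∑ a : Fin K → P n, Wp j a * chi (Ip j a) w * F (a ⟨j, h⟩) =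
      (2 ^ n) ^ K * ∑ b, F b * (zz w j b * fvec w j b : ℤ) / Real.sqrt (2 ^ n) ^ j := by
  induction j generalizing F with
  | zero =>
    have h1 : ∀ a : Fin K → P n, Ip 0 a = {(⟨0, h⟩, a ⟨0, h⟩)} := by
      intro a
      ext ⟨i, b⟩
      simp only [mem_Ip, Finset.mem_singleton, Prod.mk.injEq]
      constructor
      · rintro ⟨h1, h2⟩
        have : i = ⟨0, h⟩ := Fin.ext (by simp; omega)
        subst this
        exact ⟨rfl, h2⟩
      · rintro ⟨rfl, h2⟩
        exact ⟨le_rfl, h2⟩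
    simp only [Wp, Finset.range_zero, Finset.prod_empty, one_mul, h1, chi, Finset.prod_singleton,
      zero_add, pow_one, pow_zero, div_one, fvec, mul_one]
    rw [sum_eval_path ⟨0, h⟩ (fun b => sg (w (⟨0, h⟩, b)) * F b)]
    congr 1
    refine Finset.sum_congr rfl fun b _ => ?_
    rw [← zz_cast w ⟨0, h⟩ b, mul_comm]
  | succ j ih =>
    have h1 := sum_update (⟨j + 1, h⟩ : Fin K) (fun a : Fin K → P n =>
      Wp (j + 1) a * chi (Ip (j + 1) a) w * F (a ⟨j + 1, h⟩))
    rw [card_P] at h1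
    push_cast at h1
    rw [pow_succ, mul_assoc, ← h1]
    have h2 : ∀ a : Fin K → P n, ∑ c, Wp (j + 1) (Function.update a ⟨j + 1, h⟩ c) *
        chi (Ip (j + 1) (Function.update a ⟨j + 1, h⟩ c)) w *
          F (Function.update a ⟨j + 1, h⟩ c ⟨j + 1, h⟩) =
        Wp j a * chi (Ip j a) w *
          ∑ c, UU (a ⟨j, by omega⟩) c * (sg (w (⟨j + 1, h⟩, c)) * F c) := by
      intro a
      rw [Finset.mul_sum]
      refine Finset.sum_congr rfl fun c _ => ?_
      rw [Wp_update, Ip_update, Function.update_self, chi, chi,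
        Finset.prod_insert (by simp [mem_Ip])]
      ring
    rw [Finset.sum_congr rfl fun a _ => h2 a,
      ih (by omega) (fun b => ∑ c, UU b c * (sg (w (⟨j + 1, h⟩, c)) * F c))]
    congr 1
    simp only [fvec, Finset.sum_mul, Finset.sum_div, Finset.mul_sum]
    push_cast
    simp only [Finset.mul_sum, Finset.sum_div]
    rw [Finset.sum_comm]
    refine Finset.sum_congr rfl fun c _ => Finset.sum_congr rfl fun b _ => ?_
    rw [← zz_cast w ⟨j + 1, h⟩ c, UU, had_comm b c, pow_succ]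
    have := sqrt_two_pow_pos n
    field_simp

lemma phi_eq (hK : 1 ≤ K) (w : Fin K × P n → Bool) :
    phi w = ∑ a : Fin K → P n, (Wp (K - 1) a / 2 ^ n) * chi (Ip (K - 1) a) w := by
  have h1 := path_formula w (K - 1) (by omega) (fun _ => 1)
  rw [Nat.sub_add_cancel hK] at h1
  have h2 := mul_left_cancel₀ (by positivity) h1
  have h3 : fvec w K (fun _ => false) = ∑ b, zz w (K - 1) b * fvec w (K - 1) b := by
    have h4 : ∀ m, fvec w (m + 1) (fun _ => false) = ∑ b, zz w m b * fvec w m b := by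
      intro m
      simp only [fvec, had_zero, one_mul]
    have h5 := h4 (K - 1)
    rwa [Nat.sub_add_cancel hK] at h5
  simp only [mul_one, one_mul] at h2
  simp_rw [div_mul_eq_mul_div]
  rw [← Finset.sum_div, h2, ← Finset.sum_div, phi, h3]
  push_cast
  rw [div_div]
  congr 1
  rw [show K + 1 = (K - 1) + 2 by omega, pow_add, sq, sqrt_two_pow_sq]

lemma Dv_chi_Ip (a a' : Fin K → P n) (z : Fin K × P n → ℝ) :
    Dv (chi (Ip (K - 1) a')) z (Ip (K - 1) a) = if a' = a then 1 else 0 := by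
  rw [Dv_chi]
  split_ifs with h
  · subst h
    exact Finset.prod_eq_one fun v _ => by split_ifs <;> rfl
  · obtain ⟨i, hi⟩ := Function.ne_iff.mp h
    refine Finset.prod_eq_zero (Finset.mem_univ (i, a i)) ?_
    rw [if_neg (by rw [mem_Ip_top]; exact fun h' => hi h'.symm), if_pos (mem_Ip_top.mpr rfl)]

lemma Lam_phi (hK : 1 ≤ K) (z : Fin K × P n → ℝ) : Lam phi z (cc K n) = 1 := by
  have : (phi : (Fin K × P n → Bool) → ℝ) =
      fun w => ∑ a : Fin K → P n, (Wp (K - 1) a / 2 ^ n) * chi (Ip (K - 1) a) w :=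
    funext (phi_eq hK)
  rw [Lam_cc, this]
  simp only [Dv_sum, Dv_chi_Ip, mul_ite, mul_one, mul_zero, Finset.sum_ite_eq', Finset.mem_univ,
    if_true, ← mul_div_assoc, Wp_sq, Finset.sum_const, Finset.card_univ, Fintype.card_fun,
    Fintype.card_fin, Fintype.card_bool, nsmul_eq_mul]
  push_cast
  rw [show ((2 : ℝ) ^ n) ^ K = (2 ^ n) ^ (K - 1) * 2 ^ n by rw [← pow_succ]; congr 1; omega,
    one_div, inv_pow]
  field_simp

lemma sum_phi (hK : 1 ≤ K) : ∑ w : Fin K × P n → Bool, phi w = 0 := by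
  have h1 : ∀ a : Fin K → P n, ∑ w, chi (Ip (K - 1) a) w = 0 := by
    intro a
    have h2 := Dv_empty (chi (Ip (K - 1) a)) (fun _ => 0)
    rw [Dv_chi, Finset.prod_eq_zero (Finset.mem_univ (⟨0, hK⟩, a ⟨0, hK⟩))
      (by rw [if_pos (mem_Ip_top.mpr rfl)]; simp)] at h2
    simp_rw [wt_zero, ← Finset.mul_sum] at h2
    exact (mul_eq_zero.mp h2.symm).resolve_left (by positivity)
  simp_rw [phi_eq hK]
  rw [Finset.sum_comm]
  simp_rw [← Finset.mul_sum, h1]
  simp

end Crest.Agent.R350
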