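import Crest.Agent.R350.Impl

/-! Quantum realizable expectation functionals and their closure properties. -/

open Finset Matrix

namespace Crest.Agent.R350

variable {ι Ω Ω' : Type}

/-- finitely supported expectation functional -/
def IsExp (φ : (Ω → ℝ) → ℝ) : Prop :=
  ∃ (E : Type) (_ : Fintype E) (w : E → ℝ) (out : E → Ω), (∀ e, 0 ≤ w e) ∧ ∑ e, w e = 1 ∧
    ∀ f, φ f = ∑ e, w e * f (out e)

namespace IsExp
variable {φ : (Ω → ℝ) → ℝ}

lemma mono (h : IsExp φ) {f g : Ω → ℝ} (hfg : ∀ ω, f ω ≤ g ω) : φ f ≤ φ g := by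
  obtain ⟨E, _, w, out, h0, _, h2⟩ := h
  rw [h2, h2]
  exact sum_le_sum fun e _ => mul_le_mul_of_nonneg_left (hfg _) (h0 e)

lemma const (h : IsExp φ) (c : ℝ) : φ (fun _ => c) = c := by
  obtain ⟨E, _, w, out, _, h1, h2⟩ := h
  rw [h2, ← sum_mul, h1, one_mul]

lemma add (h : IsExp φ) (f g : Ω → ℝ) : φ (fun ω => f ω + g ω) = φ f + φ g := by
  obtain ⟨E, _, w, out, _, _, h2⟩ := h
  simp only [h2, mul_add, sum_add_distrib]

lemma sub (h : IsExp φ) (f g : Ω → ℝ) : φ (fun ω => f ω - g ω) = φ f - φ g := by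
  obtain ⟨E, _, w, out, _, _, h2⟩ := h
  simp only [h2, mul_sub, sum_sub_distrib]

lemma const_mul (h : IsExp φ) (c : ℝ) (f : Ω → ℝ) : φ (fun ω => c * f ω) = c * φ f := by
  obtain ⟨E, _, w, out, _, _, h2⟩ := h
  simp only [h2, mul_sum]
  exact sum_congr rfl fun e _ => by ring

lemma mul_const (h : IsExp φ) (c : ℝ) (f : Ω → ℝ) : φ (fun ω => f ω * c) = φ f * c := by
  rw [mul_comm, ← h.const_mul]; simp only [mul_comm]

lemma sum (h : IsExp φ) {κ : Type} (s : Finset κ) (f : κ → Ω → ℝ) :
    φ (fun ω => ∑ k ∈ s, f k ω) = ∑ k ∈ s, φ (f k) := by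
  obtain ⟨E, _, w, out, _, _, h2⟩ := h
  simp only [h2, mul_sum]
  exact sum_comm

lemma nonneg (h : IsExp φ) {f : Ω → ℝ} (hf : ∀ ω, 0 ≤ f ω) : 0 ≤ φ f := by
  have := h.mono hf
  rwa [h.const] at this

lemma le_const (h : IsExp φ) {f : Ω → ℝ} {c : ℝ} (hf : ∀ ω, f ω ≤ c) : φ f ≤ c := by
  have := h.mono hf
  rwa [h.const] at this

lemma const_le (h : IsExp φ) {f : Ω → ℝ} {c : ℝ} (hf : ∀ ω, c ≤ f ω) : c ≤ φ f := by
  have := h.mono hf
  rwa [h.const] at this

end IsExp

/-- realizable by a quantum algorithm with `T` queries -/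
def QR (T : ℕ) (Φ : (ι → Bool) → (Ω → ℝ) → ℝ) : Prop :=
  ∃ (E : Type) (_ : Fintype E) (_ : DecidableEq E) (A : (ι → Bool) → Matrix E E ℂ) (e0 : E)
    (out : E → Ω), Impl T A ∧ ∀ x f, Φ x f = ∑ e, ‖A x e e0‖ ^ 2 * f (out e)

lemma col_norm {E : Type} [Fintype E] [DecidableEq E] {U : Matrix E E ℂ}
    (hU : U ∈ Matrix.unitaryGroup E ℂ) (e0 : E) : ∑ e, ‖U e e0‖ ^ 2 = 1 := by
  rw [Matrix.mem_unitaryGroup_iff'] at hU
  have := congrFun (congrFun hU e0) e0
  rw [Matrix.mul_apply] at this
  simp only [Matrix.star_apply, Matrix.one_apply_eq] at this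
  have h2 : ((∑ e, ‖U e e0‖ ^ 2 : ℝ) : ℂ) = 1 := by
    rw [← this]
    push_cast
    refine sum_congr rfl fun e _ => ?_
    rw [Complex.star_def, Complex.conj_mul']
  exact_mod_cast h2

namespace QR
variable {S T : ℕ} {Φ : (ι → Bool) → (Ω → ℝ) → ℝ}

lemma isExp (h : QR T Φ) (x : ι → Bool) : IsExp (Φ x) := by
  obtain ⟨E, _, _, A, e0, out, hA, h⟩ := h
  exact ⟨E, inferInstance, fun e => ‖A x e e0‖ ^ 2, out, fun e => by positivity,
    col_norm (hA.unitary x) e0, h x⟩

lemma mono (h : QR S Φ) (hST : S ≤ T) : QR T Φ := by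
  obtain ⟨E, _, _, A, e0, out, hA, h⟩ := h
  exact ⟨E, _, _, A, e0, out, hA.mono hST, h⟩

lemma congr (h : QR T Φ) {Ψ : (ι → Bool) → (Ω → ℝ) → ℝ} (hΨ : ∀ x f, Ψ x f = Φ x f) :
    QR T Ψ := by
  have : Ψ = Φ := funext fun x => funext fun f => hΨ x f
  rw [this]; exact h

lemma map (h : QR T Φ) (g : Ω → Ω') : QR T (fun x (f : Ω' → ℝ) => Φ x (fun ω => f (g ω))) := by
  obtain ⟨E, _, _, A, e0, out, hA, h⟩ := h
  exact ⟨E, _, _, A, e0, fun e => g (out e), hA, fun x f => h x _⟩

lemma comap (h : QR T Φ) {ι' : Type} (g : ι → ι') :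
    QR T (fun (y : ι' → Bool) f => Φ (fun i => y (g i)) f) := by
  obtain ⟨E, _, _, A, e0, out, hA, h⟩ := h
  exact ⟨E, _, _, _, e0, out, hA.comap g, fun x f => h _ _⟩

lemma pure (ω : Ω) : QR 0 (fun (_ : ι → Bool) (f : Ω → ℝ) => f ω) :=
  ⟨Unit, inferInstance, inferInstance, fun _ => 1, (), fun _ => ω, Impl.const (one_mem _),
    fun x f => by simp⟩

lemma bind (h : QR S Φ) {Ψ : Ω → (ι → Bool) → (Ω' → ℝ) → ℝ} (hΨ : ∀ a, QR T (Ψ a)) :
    QR (S + T) (fun x f => Φ x (fun a => Ψ a x f)) := by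
  classical
  obtain ⟨E, _, _, A, e0, out, hA, h⟩ := h
  choose E2 i1 i2 A2 b out2 hA2 h2 using fun e : E => hΨ (out e)
  let F := Σ e : E, E2 e
  have hpad : ∀ e : E, ∃ A' : (ι → Bool) → Matrix F F ℂ, Impl T A' ∧ ∀ x (g : F → ℝ),
      ∑ s, ‖A' x s ⟨e0, b e0⟩‖ ^ 2 * g s = ∑ e2, ‖A2 e x e2 (b e)‖ ^ 2 * g ⟨e, e2⟩ :=
    fun e => (hA2 e).pad (Sigma.mk e) sigma_mk_injective (b e) ⟨e0, b e0⟩
  choose A' hA' hA'' using hpad
  have hI := (Impl.block hA').mul
    ((Impl.block (fun _ : F => hA)).submatrix (Equiv.prodComm F E) (Equiv.prodComm F E))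
  rw [add_comm] at hI
  refine ⟨F × E, inferInstance, inferInstance, _, (⟨e0, b e0⟩, e0),
    fun p => out2 p.1.1 p.1.2, hI, fun x f => ?_⟩
  have hent : ∀ (s : F) (e : E),
      ((Matrix.blockDiagonal fun c => A' c x) *
        (Matrix.blockDiagonal fun _ : F => A x).submatrix (Equiv.prodComm F E)
          (Equiv.prodComm F E)) (s, e) (⟨e0, b e0⟩, e0) = A' e x s ⟨e0, b e0⟩ * A x e e0 := by
    intro s e
    rw [Matrix.mul_apply, Fintype.sum_prod_type]
    simp only [Matrix.blockDiagonal_apply, Matrix.submatrix_apply, Equiv.prodComm_apply,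
      Prod.swap_prod_mk, ite_mul, zero_mul, sum_ite_eq, mem_univ, if_true]
    rw [Finset.sum_eq_single (⟨e0, b e0⟩ : F)]
    · simp
    · intro s' _ hs'
      rw [if_neg hs', mul_zero]
    · simp
  beta_reduce
  rw [h, Fintype.sum_prod_type_right]
  refine sum_congr rfl fun e _ => ?_
  rw [h2, ← hA'' e x (fun s => f (out2 s.1 s.2)), mul_sum]
  refine sum_congr rfl fun s _ => ?_
  rw [hent, norm_mul]
  ring

/-- the uniform distribution -/
lemma unif (Ω : Type) [Fintype Ω] [Nonempty Ω] :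
    QR 0 (fun (_ : ι → Bool) (f : Ω → ℝ) => (∑ ω, f ω) / Fintype.card Ω) := by
  classical
  obtain ⟨e0⟩ := ‹Nonempty Ω›
  have hN : (0 : ℝ) < Fintype.card Ω := by exact_mod_cast Fintype.card_pos_iff.2 ⟨e0⟩
  set v : ℝ := (Real.sqrt (Fintype.card Ω))⁻¹ with hv
  have hv0 : 0 < v := by positivity
  have hv2 : v ^ 2 * Fintype.card Ω = 1 := by
    rw [hv, inv_pow, Real.sq_sqrt hN.le, inv_mul_cancel₀ hN.ne']
  let u : Ω → ℝ := fun e => v + if e = e0 then 1 else 0
  have hu : ∑ e, u e * u e = 2 * (1 + v) := by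
    have : ∀ e, u e * u e = v ^ 2 + if e = e0 then 2 * v + 1 else 0 := by
      intro e; simp only [u]; split_ifs <;> ring
    simp only [this, sum_add_distrib, sum_const, card_univ, nsmul_eq_mul, sum_ite_eq', mem_univ,
      if_true]
    nlinarith
  let W : Matrix Ω Ω ℝ := Matrix.of fun e e' => u e * u e' / (1 + v) - if e = e' then 1 else 0
  have hc : (1 + v) ≠ 0 := by positivity
  have hW : W * Wᵀ = 1 := by
    ext e e'
    rw [Matrix.mul_apply]
    have : ∀ t, W e t * Wᵀ t e' = (u e * u e' / (1 + v) ^ 2) * (u t * u t)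
        - (if t = e' then u e * u e' / (1 + v) else 0) - (if t = e then u e * u e' / (1 + v) else 0)
        + (if t = e then (if e = e' then 1 else 0) else 0) := by
      intro t
      simp only [W, Matrix.transpose_apply, Matrix.of_apply]
      by_cases h1 : t = e <;> by_cases h2 : t = e'
      · subst h1; subst h2; simp; field_simp; ring
      · subst h1; simp [h2, Ne.symm h2]; field_simp
      · subst h2; simp [h1, Ne.symm h1]; field_simp
      · simp [h1, h2, Ne.symm h1, Ne.symm h2]; field_simp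
    simp only [this, sum_add_distrib, sum_sub_distrib, ← mul_sum, hu, sum_ite_eq', mem_univ,
      if_true, Matrix.one_apply]
    field_simp
    ring
  refine ⟨Ω, inferInstance, inferInstance, fun _ => W.map Complex.ofReal, e0, id,
    Impl.const ?_, fun x f => ?_⟩
  · rw [Matrix.mem_unitaryGroup_iff, Matrix.star_eq_conjTranspose]
    ext e e'
    have := congrFun (congrFun hW e) e'
    rw [Matrix.mul_apply] at this ⊢
    simp only [Matrix.map_apply, Matrix.conjTranspose_apply, Complex.star_def,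
      Complex.conj_ofReal, Matrix.transpose_apply] at this ⊢
    rw [Matrix.one_apply] at this ⊢
    have h2 := congrArg Complex.ofReal this
    push_cast at h2
    rw [h2]
    split_ifs <;> simp
  · beta_reduce
    rw [sum_div]
    refine sum_congr rfl fun e _ => ?_
    have : W e e0 = v := by
      simp only [W, u, if_true, Matrix.of_apply]
      field_simp
      ring
    simp only [Matrix.map_apply, this, Complex.norm_real, Real.norm_eq_abs, sq_abs, id]
    have : v ^ 2 = 1 / Fintype.card Ω := by field_simp; linarith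
    rw [this]; ring

end QR

/-- the Hadamard gate -/
noncomputable def hg : Matrix Bool Bool ℂ :=
  fun a b => ((Real.sqrt 2)⁻¹ : ℝ) * (if a && b then -1 else 1)

lemma s2 : (((Real.sqrt 2)⁻¹ : ℝ) : ℂ) * (((Real.sqrt 2)⁻¹ : ℝ) : ℂ) = 1 / 2 := by
  rw [← Complex.ofReal_mul, ← mul_inv, Real.mul_self_sqrt (by norm_num)]
  push_cast; ring

lemma hg_unitary : hg ∈ Matrix.unitaryGroup Bool ℂ := by
  rw [Matrix.mem_unitaryGroup_iff]
  ext a b
  have := s2
  rw [Matrix.mul_apply]
  simp only [Matrix.star_apply, hg, Fintype.sum_bool, star_mul', Complex.star_def,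
    Complex.conj_ofReal]
  cases a <;> cases b <;> simp at this ⊢ <;> linear_combination (exp := 1) 2 * this

lemma QR.query (i : ι) : QR 1 (fun (x : ι → Bool) (f : Bool → ℝ) => f (x i)) := by
  refine ⟨Bool, inferInstance, inferInstance, _, false, id,
    (Impl.mul_left hg_unitary (Impl.phase (fun b => if b then some i else none))).mul_right
      hg_unitary, fun x f => ?_⟩
  have hent : ∀ b, (hg * phase (fun b : Bool => if b then some i else none) x * hg) b false
      = if b = x i then 1 else 0 := by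
    intro b
    have := s2
    rw [Matrix.mul_apply]
    simp only [phase, Matrix.mul_diagonal, hg, Fintype.sum_bool, ph]
    cases b <;> cases hx : x i <;> simp [hx] at this ⊢ <;> linear_combination (exp := 1) 2 * this
  simp only [hent]
  cases hx : x i <;> simp

open Classical in
/-- one step of amplitude amplification -/
lemma QR.amp {T : ℕ} {Φ : (ι → Bool) → (Ω → ℝ) → ℝ} (h : QR T Φ) (G : Ω → Prop) :
    QR (3 * T) (fun x f => Φ x (fun ω =>
      (if G ω then (3 - 4 * Φ x (fun ω => if G ω then 1 else 0)) ^ 2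
        else (1 - 4 * Φ x (fun ω => if G ω then 1 else 0)) ^ 2) * f ω)) := by
  obtain ⟨E, _, _, A, e0, out, hA, h⟩ := h
  let R0 : Matrix E E ℂ := Matrix.diagonal (fun e => if e = e0 then 1 else -1)
  let RG : Matrix E E ℂ := Matrix.diagonal (fun e => if G (out e) then -1 else 1)
  have hR0 : R0 ∈ Matrix.unitaryGroup E ℂ := by
    rw [Matrix.mem_unitaryGroup_iff, Matrix.star_eq_conjTranspose, Matrix.diagonal_conjTranspose,
      Matrix.diagonal_mul_diagonal, ← Matrix.diagonal_one]
    congr 1; funext e; simp only [Pi.star_apply]; split_ifs <;> simp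
  have hRG : RG ∈ Matrix.unitaryGroup E ℂ := by
    rw [Matrix.mem_unitaryGroup_iff, Matrix.star_eq_conjTranspose, Matrix.diagonal_conjTranspose,
      Matrix.diagonal_mul_diagonal, ← Matrix.diagonal_one]
    congr 1; funext e; simp only [Pi.star_apply]; split_ifs <;> simp
  have hI := ((hA.mul_right hR0).mul hA.star).mul (Impl.mul_left hRG hA)
  refine ⟨E, _, _, _, e0, out, hI.mono (by omega), fun x f => ?_⟩
  set p : ℝ := Φ x (fun ω => if G ω then 1 else 0) with hp
  have hU := hA.unitary x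
  have h1 : ∀ e e', (A x * R0 * star (A x)) e e'
      = 2 * A x e e0 * star (A x e' e0) - if e = e' then 1 else 0 := by
    intro e e'
    have hU' := congrFun (congrFun (Matrix.mem_unitaryGroup_iff.1 hU) e) e'
    rw [Matrix.mul_apply, Matrix.one_apply] at hU'
    rw [Matrix.mul_apply, ← hU']
    simp only [R0, Matrix.mul_diagonal, Matrix.star_apply]
    have : ∀ t, A x e t * (if t = e0 then 1 else -1) * star (A x e' t)
        = (if t = e0 then 2 * A x e e0 * star (A x e' e0) else 0) - A x e t * star (A x e' t) := by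
      intro t
      split_ifs with ht
      · subst ht; ring
      · ring
    simp only [this, sum_sub_distrib, sum_ite_eq', mem_univ, if_true]
  have h2 : ∑ e', star (A x e' e0) * ((if G (out e') then -1 else 1) * A x e' e0)
      = ((1 - 2 * p : ℝ) : ℂ) := by
    have h3 : 1 - 2 * p = ∑ e', (‖A x e' e0‖ ^ 2 - 2 * (‖A x e' e0‖ ^ 2 *
        (if G (out e') then 1 else 0))) := by
      rw [sum_sub_distrib, ← mul_sum, col_norm hU e0, hp, h]
    rw [h3]
    push_cast
    refine sum_congr rfl fun e _ => ?_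
    have := Complex.conj_mul' (A x e e0)
    rw [Complex.star_def]
    split_ifs
    · simp only [Complex.ofReal_one]; linear_combination (-1 : ℂ) * this
    · simp only [Complex.ofReal_zero]; linear_combination this
  have hent : ∀ e, (A x * R0 * star (A x) * (RG * A x)) e e0
      = ((if G (out e) then 3 - 4 * p else 1 - 4 * p : ℝ) : ℂ) * A x e e0 := by
    intro e
    rw [Matrix.mul_apply]
    simp only [h1, RG, Matrix.diagonal_mul]
    have : ∀ t, (2 * A x e e0 * star (A x t e0) - if e = t then 1 else 0) *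
        ((if G (out t) then -1 else 1) * A x t e0)
        = 2 * A x e e0 * (star (A x t e0) * ((if G (out t) then -1 else 1) * A x t e0))
          - if e = t then (if G (out e) then -1 else 1) * A x e e0 else 0 := by
      intro t
      by_cases ht : e = t
      · subst ht; simp only [if_true]; ring
      · simp only [ht, if_false]; ring
    simp only [this, sum_sub_distrib, ← mul_sum, h2, sum_ite_eq, mem_univ, if_true]
    split_ifs <;> push_cast <;> ring
  beta_reduce
  rw [h]
  refine sum_congr rfl fun e _ => ?_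
  rw [hent, norm_mul, Complex.norm_real, Real.norm_eq_abs, mul_pow, sq_abs]
  split_ifs <;> ring

end Crest.Agent.R350
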