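import Crest.Agent.R350.QR

/-! Deterministic queries, independent repetitions and quantum search. -/

open Finset

namespace Crest.Agent.R350

variable {ι Ω Ω' : Type}

/-- exactly computable with `T` queries -/
def Det (T : ℕ) (g : (ι → Bool) → Ω) : Prop := QR T (fun x (f : Ω → ℝ) => f (g x))

namespace Det
variable {S T : ℕ}

lemma pure (ω : Ω) : Det 0 (fun _ : ι → Bool => ω) := QR.pure ω

lemma query (i : ι) : Det 1 (fun x : ι → Bool => x i) := QR.query i

lemma mono {g : (ι → Bool) → Ω} (h : Det S g) (hST : S ≤ T) : Det T g := QR.mono h hST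

lemma bind {g : (ι → Bool) → Ω} (h : Det S g) {k : Ω → (ι → Bool) → Ω'}
    (hk : ∀ a, Det T (k a)) : Det (S + T) (fun x => k (g x) x) :=
  QR.bind h (Ψ := fun a x f => f (k a x)) hk

lemma map {g : (ι → Bool) → Ω} (h : Det T g) (k : Ω → Ω') : Det T (fun x => k (g x)) :=
  QR.map h k

lemma congr {g k : (ι → Bool) → Ω} (h : Det T g) (hk : ∀ x, k x = g x) : Det T k := by
  have : k = g := funext hk
  rw [this]; exact h

lemma pair {g : (ι → Bool) → Ω} {k : (ι → Bool) → Ω'} (hg : Det S g) (hk : Det T k) :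
    Det (S + T) (fun x => (g x, k x)) :=
  hg.bind (k := fun a x => (a, k x)) (fun a => hk.map (fun b => (a, b)))

lemma listAll {α : Type} (Q : α → (ι → Bool) → Prop) (hQ : ∀ a, Det T (Q a)) :
    ∀ l : List α, Det (l.length * T) (fun x => ∀ a ∈ l, Q a x)
  | [] => (Det.pure True).congr (fun x => by simp) |>.mono (by simp)
  | a :: l => by
      refine ((((hQ a).pair (listAll Q hQ l)).map (fun p => p.1 ∧ p.2)).congr
        (fun x => by simp)).mono ?_
      simp only [List.length_cons]; nlinarith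

end Det

/-- independent product of expectation functionals -/
def piF : (n : ℕ) → (Fin n → (Ω → ℝ) → ℝ) → ((Fin n → Ω) → ℝ) → ℝ
  | 0, _, f => f Fin.elim0
  | n + 1, φ, f => φ 0 (fun a => piF n (fun i => φ i.succ) (fun ω => f (Fin.cons a ω)))

lemma QR.pi {T : ℕ} : ∀ (n : ℕ) {Φ : Fin n → (ι → Bool) → (Ω → ℝ) → ℝ}, (∀ l, QR T (Φ l)) →
    QR (n * T) (fun x => piF n (fun l => Φ l x))
  | 0, _, _ => (QR.pure Fin.elim0).mono (by simp)
  | n + 1, Φ, h => by
      have h1 := QR.pi n (Φ := fun i => Φ i.succ) (fun i => h i.succ)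
      have h2 := (h 0).bind (Ψ := fun a x (f : (Fin (n + 1) → Ω) → ℝ) =>
        piF n (fun i => Φ i.succ x) (fun ω => f (Fin.cons a ω))) (fun a => h1.map _)
      exact h2.mono (by nlinarith)

lemma piF_isExp : ∀ (n : ℕ) {φ : Fin n → (Ω → ℝ) → ℝ}, (∀ l, IsExp (φ l)) → IsExp (piF n φ)
  | 0, _, _ => ⟨Unit, inferInstance, fun _ => 1, fun _ => Fin.elim0, fun _ => zero_le_one,
      by simp, fun f => by simp [piF]⟩
  | n + 1, φ, h => by
      obtain ⟨E, _, w, out, h0, h1, h2⟩ := h 0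
      obtain ⟨E', _, w', out', h0', h1', h2'⟩ := piF_isExp n (φ := fun i => φ i.succ)
        (fun i => h i.succ)
      refine ⟨E × E', inferInstance, fun p => w p.1 * w' p.2,
        fun p => Fin.cons (out p.1) (out' p.2), fun p => mul_nonneg (h0 _) (h0' _), ?_,
        fun f => ?_⟩
      · rw [Fintype.sum_prod_type]
        simp only [← mul_sum, h1', mul_one, h1]
      · simp only [piF, h2, h2', Fintype.sum_prod_type, mul_sum, mul_assoc]

lemma piF_prod : ∀ (n : ℕ) {φ : Fin n → (Ω → ℝ) → ℝ}, (∀ l, IsExp (φ l)) →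
    ∀ g : Fin n → Ω → ℝ, piF n φ (fun ω => ∏ l, g l (ω l)) = ∏ l, φ l (g l)
  | 0, _, _, _ => by simp [piF]
  | n + 1, φ, h, g => by
      have hE := piF_isExp n (φ := fun i => φ i.succ) (fun i => h i.succ)
      simp only [piF, Fin.prod_univ_succ, Fin.cons_zero, Fin.cons_succ]
      simp only [hE.const_mul, piF_prod n (φ := fun i => φ i.succ) (fun i => h i.succ)
        (fun i => g i.succ)]
      rw [(h 0).mul_const]

lemma piF_det : ∀ (n : ℕ) (a : Fin n → Ω) (f : (Fin n → Ω) → ℝ),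
    piF n (fun l (k : Ω → ℝ) => k (a l)) f = f a
  | 0, a, f => by simp only [piF]; congr 1; exact Subsingleton.elim _ _
  | n + 1, a, f => by
      simp only [piF]
      rw [piF_det n (fun i => a i.succ)]
      congr 1
      exact Fin.cons_self_tail a

lemma Det.pi {T : ℕ} (n : ℕ) {g : Fin n → (ι → Bool) → Ω} (h : ∀ l, Det T (g l)) :
    Det (n * T) (fun x l => g l x) :=
  (QR.pi n (Φ := fun l x (f : Ω → ℝ) => f (g l x)) h).congr
    (fun x f => (piF_det n (fun l => g l x) f).symm)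

open Classical

/-- one amplification step on functionals -/
noncomputable def ampF (G : Ω → Prop) (φ : (Ω → ℝ) → ℝ) : (Ω → ℝ) → ℝ := fun f =>
  φ (fun ω => (if G ω then (3 - 4 * φ (fun ω => if G ω then 1 else 0)) ^ 2
        else (1 - 4 * φ (fun ω => if G ω then 1 else 0)) ^ 2) * f ω)

lemma QR.lev {T : ℕ} {Φ : (ι → Bool) → (Ω → ℝ) → ℝ} (h : QR T Φ) (G : Ω → Prop) :
    ∀ l : ℕ, QR (3 ^ l * T) (fun x => (ampF G)^[l] (Φ x))
  | 0 => by simpa using h
  | l + 1 => by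
      have := (QR.lev h G l).amp G
      refine (this.mono (by rw [pow_succ]; nlinarith)).congr fun x f => ?_
      rw [Function.iterate_succ_apply']
      rfl

lemma ampF_ind {G : Ω → Prop} {φ : (Ω → ℝ) → ℝ} (h : IsExp φ) (f : Ω → ℝ) :
    ampF G φ (fun ω => if G ω then f ω else 0)
      = (3 - 4 * φ (fun ω => if G ω then 1 else 0)) ^ 2 * φ (fun ω => if G ω then f ω else 0) := by
  rw [ampF, ← h.const_mul _ (fun ω => if G ω then f ω else 0)]
  congr 1
  funext ω
  split_ifs <;> simp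

lemma amp_reach (p : ℕ → ℝ) (L : ℕ) (h0 : ∀ l, 0 ≤ p l)
    (hs : ∀ l, p (l + 1) = (3 - 4 * p l) ^ 2 * p l) (hL : 1 ≤ 9 ^ L * p 0) :
    ∃ l ≤ L, 1 / (8 * ((L : ℝ) + 1)) ≤ p l := by
  by_contra hcon
  push Not at hcon
  set δ : ℝ := 1 / (8 * ((L : ℝ) + 1)) with hδ
  have hL0 : (0 : ℝ) ≤ L := Nat.cast_nonneg L
  have hδ0 : 0 < δ := by positivity
  have hδ1 : δ * (8 * ((L : ℝ) + 1)) = 1 := by rw [hδ]; field_simp
  have hδ2 : δ ≤ 1 / 8 := by nlinarith
  have key : ∀ l ≤ L, 9 ^ l * (1 - 8 / 3 * δ) ^ l * p 0 ≤ p l := by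
    intro l hl
    induction l with
    | zero => simp
    | succ l ih =>
      have h1 := ih (by omega)
      have h2 := hcon l (by omega)
      have h3 : 9 * (1 - 8 / 3 * δ) ≤ (3 - 4 * p l) ^ 2 := by nlinarith [h0 l]
      rw [hs]
      calc 9 ^ (l + 1) * (1 - 8 / 3 * δ) ^ (l + 1) * p 0
          = (9 * (1 - 8 / 3 * δ)) * (9 ^ l * (1 - 8 / 3 * δ) ^ l * p 0) := by ring
        _ ≤ (9 * (1 - 8 / 3 * δ)) * p l := by
          apply mul_le_mul_of_nonneg_left h1; linarith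
        _ ≤ _ := mul_le_mul_of_nonneg_right h3 (h0 l)
  have h1 := key L le_rfl
  have h2 : 1 + (L : ℝ) * (-(8 / 3 * δ)) ≤ (1 + -(8 / 3 * δ)) ^ L :=
    one_add_mul_le_pow (by linarith) L
  have h3 := hcon L le_rfl
  have h4 : (2 : ℝ) / 3 ≤ (1 - 8 / 3 * δ) ^ L := by
    rw [sub_eq_add_neg]; nlinarith
  have h5 : (2 : ℝ) / 3 ≤ 9 ^ L * (1 - 8 / 3 * δ) ^ L * p 0 := by
    calc (2 : ℝ) / 3 ≤ (1 - 8 / 3 * δ) ^ L * 1 := by linarith
      _ ≤ (1 - 8 / 3 * δ) ^ L * (9 ^ L * p 0) := by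
        apply mul_le_mul_of_nonneg_left hL; linarith
      _ = _ := by ring
  linarith

/-- mixture of the amplification levels -/
lemma QR.mix {T : ℕ} {Φ : (ι → Bool) → (Ω → ℝ) → ℝ} (h : QR T Φ) (G : Ω → Prop) (L : ℕ) :
    ∃ M : (ι → Bool) → (Ω → ℝ) → ℝ, QR (3 ^ L * T) M ∧ ∀ x, ∃ α : ℝ, 0 ≤ α ∧
      (∀ f : Ω → ℝ, M x (fun ω => if G ω then f ω else 0) = α * Φ x (fun ω => if G ω then f ω else 0)) ∧
      (1 ≤ 9 ^ L * Φ x (fun ω => if G ω then 1 else 0) →
        1 / (8 * ((L : ℝ) + 1) ^ 2) ≤ M x (fun ω => if G ω then 1 else 0)) := by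
  have h1 := (QR.unif (ι := ι) (Fin (L + 1))).bind
    (Ψ := fun l x => (ampF G)^[l] (Φ x)) (T := 3 ^ L * T) (fun l => (h.lev G l).mono
      (Nat.mul_le_mul_right _ (Nat.pow_le_pow_right (by norm_num) (by omega))))
  rw [zero_add] at h1
  refine ⟨_, h1, fun x => ?_⟩
  have hE : ∀ l : ℕ, IsExp ((ampF G)^[l] (Φ x)) := fun l => (h.lev G l).isExp x
  have hα : ∀ l : ℕ, ∃ α : ℝ, 0 ≤ α ∧ ∀ f : Ω → ℝ, (ampF G)^[l] (Φ x) (fun ω => if G ω then f ω else 0)
      = α * Φ x (fun ω => if G ω then f ω else 0) := by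
    intro l
    induction l with
    | zero => exact ⟨1, zero_le_one, fun f => by simp⟩
    | succ l ih =>
      obtain ⟨α, hα0, hα⟩ := ih
      refine ⟨(3 - 4 * (ampF G)^[l] (Φ x) (fun ω => if G ω then 1 else 0)) ^ 2 * α,
        by positivity, fun f => ?_⟩
      rw [Function.iterate_succ_apply', ampF_ind (hE l), hα f]
      ring
  choose α hα0 hα using hα
  refine ⟨(∑ l : Fin (L + 1), α l) / Fintype.card (Fin (L + 1)),
    div_nonneg (sum_nonneg fun l _ => hα0 l) (Nat.cast_nonneg _), fun f => ?_, fun hp => ?_⟩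
  · simp only [hα, ← sum_mul]
    ring
  · have hp0 : ∀ l : ℕ, 0 ≤ (ampF G)^[l] (Φ x) (fun ω => if G ω then 1 else 0) :=
      fun l => (hE l).nonneg fun ω => by split_ifs <;> norm_num
    obtain ⟨l, hl, hl'⟩ := amp_reach
      (fun l => (ampF G)^[l] (Φ x) (fun ω => if G ω then 1 else 0)) L hp0
      (fun l => by
        beta_reduce
        rw [Function.iterate_succ_apply', ampF_ind (hE l) (fun _ => 1)]) hp
    have hs : (ampF G)^[l] (Φ x) (fun ω => if G ω then 1 else 0)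
        ≤ ∑ l : Fin (L + 1), (ampF G)^[l] (Φ x) (fun ω => if G ω then 1 else 0) :=
      single_le_sum (f := fun l : Fin (L + 1) =>
        (ampF G)^[l] (Φ x) (fun ω => if G ω then 1 else 0)) (fun l _ => hp0 l)
        (mem_univ (⟨l, by omega⟩ : Fin (L + 1)))
    have hL0 : (0 : ℝ) < (L : ℝ) + 1 := by positivity
    simp only [Fintype.card_fin]
    push_cast
    rw [le_div_iff₀ hL0]
    refine le_trans (le_of_eq ?_) (hl'.trans hs)
    field_simp

/-- quantum search -/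
theorem QR.search {T T' : ℕ} {Φ : (ι → Bool) → (Ω → ℝ) → ℝ} (h : QR T Φ)
    (G : Ω → (ι → Bool) → Prop) (hG : ∀ ω, Det T' (G ω)) (L N : ℕ) :
    ∃ Ψ : (ι → Bool) → (Option Ω → ℝ) → ℝ, QR (N * (3 ^ L * (T + T'))) Ψ ∧ ∀ x, ∃ q ν : ℝ,
      0 ≤ q ∧ 0 ≤ ν ∧
      (∀ f, Ψ x f = ν * f none + q * Φ x (fun ω => if G ω x then f (some ω) else 0)) ∧
      (1 ≤ 9 ^ L * Φ x (fun ω => if G ω x then 1 else 0) →
        ν ≤ (1 - 1 / (8 * ((L : ℝ) + 1) ^ 2)) ^ N) := by
  have h1 : QR (T + T') (fun x (f : Ω × Prop → ℝ) => Φ x (fun ω => f (ω, G ω x))) :=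
    h.bind (Ψ := fun ω x (f : Ω × Prop → ℝ) => f (ω, G ω x))
      (fun ω => (hG ω).map (fun b => (ω, b)))
  obtain ⟨M, hM, hM'⟩ := h1.mix (fun p => p.2) L
  induction N with
  | zero =>
    exact ⟨_, (QR.pure none).mono (by simp), fun x => ⟨0, 1, le_rfl, zero_le_one,
      fun f => by simp, fun _ => by simp⟩⟩
  | succ N ih =>
    obtain ⟨Ψ, hΨ, hΨ'⟩ := ih
    have h2 := hM.bind (Ψ := fun p x (f : Option Ω → ℝ) => if p.2 then f (some p.1) else Ψ x f)
      (T := N * (3 ^ L * (T + T'))) (fun p => by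
        by_cases hp : p.2
        · simp only [hp, if_true]; exact (QR.pure _).mono (Nat.zero_le _)
        · simp only [hp, if_false]; exact hΨ)
    refine ⟨_, h2.mono (by rw [Nat.succ_mul]; omega), fun x => ?_⟩
    obtain ⟨q, ν, hq, hν, hf, hb⟩ := hΨ' x
    obtain ⟨α, hα0, hα, hα'⟩ := hM' x
    have hE := hM.isExp x
    set p := M x (fun ω => if ω.2 then 1 else 0) with hp
    have hp1 : p ≤ 1 := hE.le_const fun ω => by split_ifs <;> norm_num
    refine ⟨α + (1 - p) * q, (1 - p) * ν, by nlinarith, by nlinarith, fun f => ?_, fun hx => ?_⟩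
    · have e1 : (fun a : Ω × Prop => if a.2 then f (some a.1) else Ψ x f)
          = fun a => (if a.2 then f (some a.1) else 0)
            + (1 - (if a.2 then 1 else 0)) * Ψ x f := by
        funext a; split_ifs <;> simp
      beta_reduce
      rw [e1, hE.add, hE.mul_const, hE.sub, hE.const, ← hp, hα (fun a => f (some a.1)), hf]
      ring
    · have h3 := hα' hx
      have h4 := hb hx
      rw [pow_succ, mul_comm]
      exact mul_le_mul h4 (by linarith) (by linarith) (hν.trans h4)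

end Crest.Agent.R350
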