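import Crest.Agent.R350.Path

/-! Truncation of the Gaussian forrelation point. -/

open MvPolynomial Finset
open scoped NNReal

namespace Crest.Agent.R350

variable {K n : ℕ}

/-- value of a linear form -/
noncomputable def LL (u x : Fin K × P n → ℝ) : ℝ := ∑ a, u a * x a

lemma eval_lin (t : ℝ) (u x : Fin K × P n → ℝ) : eval (ext t x) (lin u) = LL u x := by
  simp [lin, LL, ext]

/-- the orthonormal families of linear forms -/
noncomputable def vec (k : Bool × Fin K) (b : P n) : Fin K × P n → ℝ :=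
  if k.1 then uy (k.2.val - 1) b else ex (k.2, b)

lemma vec_orth (k : Bool × Fin K) (b b' : P n) :
    ∑ w, vec k b w * vec k b' w = if b = b' then 1 else 0 := by
  unfold vec
  by_cases h : k.1 = true
  · simp only [h, if_true]
    have := uy_uy (K := K) ⟨k.2.val - 1, by omega⟩ (k.2.val - 1) b b'
    simpa using this
  · simp only [h, Bool.false_eq_true, if_false]
    rw [ex_dot]; simp [ex]

/-- all linear forms are small -/
def good (x : Fin K × P n → ℝ) : Prop := ∀ k b, |LL (vec k b) x| ≤ 1 / 2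

/-- the forrelation point -/
noncomputable def zt (t : ℝ) (x : Fin K × P n → ℝ) (v : Fin K × P n) : ℝ := eval (ext t x) (Zp v)

lemma zt_eq (t : ℝ) (x : Fin K × P n → ℝ) (v : Fin K × P n) :
    zt t x v = (if v.1.val = 0 then t else LL (vec (true, v.1) v.2) x) *
      (if v.1.val + 1 = K then 1 else LL (vec (false, v.1) v.2) x) := by
  unfold zt Zp Yp Xp vec
  rw [map_mul]
  congr 1
  · split_ifs <;> simp_all [eval_lin, ext]
  · split_ifs <;> simp_all [eval_lin]

lemma abs_zt_good (hK : 2 ≤ K) {t : ℝ} (ht : |t| ≤ 1) {x : Fin K × P n → ℝ} (hx : good x)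
    (v : Fin K × P n) : |zt t x v| ≤ 1 / 2 := by
  rw [zt_eq, abs_mul]
  have h1 := hx (true, v.1) v.2
  have h2 := hx (false, v.1) v.2
  have h3 := abs_nonneg (LL (vec (true, v.1) v.2) x)
  have h4 := abs_nonneg (LL (vec (false, v.1) v.2) x)
  have h5 := abs_nonneg t
  split_ifs
  · omega
  · nlinarith
  · simpa using h1
  · nlinarith

/-- the crude bound -/
noncomputable def AA (x : Fin K × P n → ℝ) : ℝ :=
  ∏ k : Bool × Fin K, ∏ b : P n, max 1 |LL (vec k b) x|

lemma one_le_AA (x : Fin K × P n → ℝ) : 1 ≤ AA x :=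
  Finset.one_le_prod (fun _ _ => Finset.one_le_prod fun _ _ => le_max_left _ _)

lemma prod_zt_le {t : ℝ} (ht : |t| ≤ 1) (x : Fin K × P n → ℝ) :
    ∏ v, max 1 |zt t x v| ≤ AA x := by
  rw [AA, Fintype.prod_prod_type, Fintype.prod_prod_type, Fintype.prod_bool,
    ← Finset.prod_mul_distrib]
  simp_rw [← Finset.prod_mul_distrib]
  refine Finset.prod_le_prod (fun _ _ => Finset.prod_nonneg fun _ _ => by positivity) fun i _ => ?_
  refine Finset.prod_le_prod (fun _ _ => by positivity) fun b _ => ?_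
  rw [zt_eq, abs_mul]
  have h1 := le_max_left 1 |LL (vec (true, i) b) x|
  have h2 := le_max_left 1 |LL (vec (false, i) b) x|
  have h3 := le_max_right 1 |LL (vec (true, i) b) x|
  have h4 := le_max_right 1 |LL (vec (false, i) b) x|
  refine max_le (one_le_mul_of_one_le_of_one_le h1 h2) (mul_le_mul ?_ ?_ (abs_nonneg _) (by positivity))
  · split_ifs
    · exact ht.trans h1
    · exact h3
  · split_ifs
    · simp
    · exact h4

/-- the polynomial majorant of the crude bound on the bad event -/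
noncomputable def ErrP (K n r : ℕ) (lam : ℝ) : MvPolynomial (Option (Fin K × P n)) ℝ :=
  C (1 / lam) * (∑ k : Bool × Fin K, ∏ b : P n, (1 + lin (vec k b) ^ (2 * r))) +
    C lam * ∑ k : Bool × Fin K, ∑ b : P n, C (4 ^ r) * lin (vec k b) ^ (2 * r)

lemma eval_ErrP (r : ℕ) (lam t : ℝ) (x : Fin K × P n → ℝ) :
    eval (ext t x) (ErrP K n r lam) =
      (1 / lam) * (∑ k : Bool × Fin K, ∏ b : P n, (1 + LL (vec k b) x ^ (2 * r))) +
        lam * ∑ k : Bool × Fin K, ∑ b : P n, 4 ^ r * LL (vec k b) x ^ (2 * r) := by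
  simp only [ErrP, map_add, map_mul, map_sum, map_prod, map_pow, eval_C, eval_lin, map_one]

lemma even_pow_nonneg (y : ℝ) (r : ℕ) : 0 ≤ y ^ (2 * r) := by rw [pow_mul]; positivity

lemma eval_ErrP_nonneg (r : ℕ) {lam : ℝ} (hlam : 0 < lam) (t : ℝ) (x : Fin K × P n → ℝ) :
    0 ≤ eval (ext t x) (ErrP K n r lam) := by
  rw [eval_ErrP]
  refine add_nonneg (mul_nonneg (by positivity) (Finset.sum_nonneg fun k _ =>
    Finset.prod_nonneg fun b _ => ?_)) (mul_nonneg hlam.le (Finset.sum_nonneg fun k _ =>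
    Finset.sum_nonneg fun b _ => ?_))
  · have := even_pow_nonneg (LL (vec k b) x) r
    linarith
  · exact mul_nonneg (by positivity) (even_pow_nonneg _ r)

lemma AA_sq_le (hK : 1 ≤ K) {r : ℕ} (hr : 2 * K ≤ r) (x : Fin K × P n → ℝ) :
    AA x ^ 2 ≤ ∑ k : Bool × Fin K, ∏ b : P n, (1 + LL (vec k b) x ^ (2 * r)) := by
  obtain ⟨k0, -, hk0⟩ := Finset.exists_max_image (univ : Finset (Bool × Fin K))
    (fun k => ∏ b : P n, max 1 |LL (vec k b) x|) ⟨(true, ⟨0, hK⟩), Finset.mem_univ _⟩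
  have h1 : AA x ≤ (∏ b : P n, max 1 |LL (vec k0 b) x|) ^ (2 * K) := by
    refine (Finset.prod_le_prod (fun _ _ => Finset.prod_nonneg fun _ _ => by positivity)
      (fun k hk => hk0 k hk)).trans (le_of_eq ?_)
    simp [Finset.prod_const, Finset.card_univ]
  have h2 : AA x ^ 2 ≤ ∏ b : P n, (1 + LL (vec k0 b) x ^ (2 * r)) := by
    refine (pow_le_pow_left₀ (zero_le_one.trans (one_le_AA x)) h1 2).trans ?_
    rw [← pow_mul, ← Finset.prod_pow]
    refine Finset.prod_le_prod (fun _ _ => by positivity) fun b _ => ?_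
    have h3 := even_pow_nonneg (LL (vec k0 b) x) r
    rcases le_total 1 |LL (vec k0 b) x| with h | h
    · rw [max_eq_right h, ← Even.pow_abs (even_two_mul r)]
      have := pow_le_pow_right₀ h (show 2 * K * 2 ≤ 2 * r by omega)
      linarith
    · rw [max_eq_left h, one_pow]; linarith
  refine h2.trans (Finset.single_le_sum
    (f := fun k : Bool × Fin K => ∏ b : P n, (1 + LL (vec k b) x ^ (2 * r)))
    (fun k _ => Finset.prod_nonneg fun b _ => ?_) (Finset.mem_univ k0))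
  have := even_pow_nonneg (LL (vec k b) x) r
  linarith

lemma AA_le_ErrP (hK : 1 ≤ K) {r : ℕ} (hr : 2 * K ≤ r) {lam : ℝ} (hlam : 0 < lam) (t : ℝ)
    {x : Fin K × P n → ℝ} (hx : ¬ good x) : AA x ≤ eval (ext t x) (ErrP K n r lam) := by
  rw [eval_ErrP]
  have h1 := AA_sq_le hK hr x
  have h2 : 1 ≤ ∑ k : Bool × Fin K, ∑ b : P n, 4 ^ r * LL (vec k b) x ^ (2 * r) := by
    simp only [good, not_forall, not_le] at hx
    obtain ⟨k, b, h⟩ := hx
    have h3 : 1 ≤ 4 ^ r * LL (vec k b) x ^ (2 * r) := by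
      rw [← Even.pow_abs (even_two_mul r), pow_mul, ← mul_pow]
      exact one_le_pow₀ (by nlinarith)
    refine h3.trans (le_trans ?_ (Finset.single_le_sum
      (f := fun k : Bool × Fin K => ∑ b : P n, 4 ^ r * LL (vec k b) x ^ (2 * r))
      (fun k _ => Finset.sum_nonneg fun b _ => mul_nonneg (by positivity) (even_pow_nonneg _ r))
      (Finset.mem_univ k)))
    exact Finset.single_le_sum (f := fun b : P n => 4 ^ r * LL (vec k b) x ^ (2 * r))
      (fun b _ => mul_nonneg (by positivity) (even_pow_nonneg _ r)) (Finset.mem_univ b)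
  have h4 : AA x ≤ 1 / lam * AA x ^ 2 + lam * 1 := by
    have h5 := one_le_AA x
    rw [one_div, inv_mul_eq_div, div_add' _ _ _ hlam.ne', le_div_iff₀ hlam]
    nlinarith [sq_nonneg (AA x - lam)]
  refine h4.trans (add_le_add ?_ ?_)
  · exact mul_le_mul_of_nonneg_left h1 (by positivity)
  · exact mul_le_mul_of_nonneg_left h2 hlam.le

lemma EL_ErrP (ε : ℝ≥0) (r : ℕ) (lam t : ℝ) :
    EL ε t (ErrP K n r lam) = 1 / lam * (2 * K * (1 + mom ε (2 * r)) ^ (2 ^ n)) +
      lam * (2 * K * (2 ^ n * (4 ^ r * mom ε (2 * r)))) := by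
  have h1 : ∀ (k : Bool × Fin K) (b : P n), EL ε t (lin (vec k b) ^ (2 * r)) = mom ε (2 * r) := by
    intro k b
    have := EL_lin_pow_mul ε t (vec k b) (by rw [vec_orth]; simp) 1 (by simp) (2 * r)
    rwa [mul_one, EL_one, mul_one] at this
  rw [ErrP, map_add, EL_C_mul, EL_C_mul, map_sum, map_sum]
  simp only [map_sum, EL_C_mul, h1, EL_prod_one_add ε t _ (vec_orth _)]
  simp [Finset.card_univ]

lemma EL_ErrP_le (hK : 1 ≤ K) (hn : 1 ≤ n) (ε : ℝ≥0)
    (hε : (ε : ℝ) = 1 / ((16 * (4 * K + 13) * n : ℕ) : ℝ)) (t : ℝ) :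
    EL ε t (ErrP K n ((4 * K + 13) * n) (36 * K * (2 ^ n) ^ (K + 1))) ≤
      1 / (3 * (2 ^ n) ^ (K + 1)) := by
  rw [EL_ErrP]
  set r := (4 * K + 13) * n with hr
  have hr0 : 0 < r := Nat.mul_pos (by omega) hn
  have hm0 := mom_even_nonneg ε r
  have hm : mom ε (2 * r) ≤ (1 / 8) ^ r := by
    refine (mom_even_le ε r r le_rfl).trans (le_of_eq ?_)
    congr 1
    rw [hε, mul_assoc 16, ← hr]
    have : (r : ℝ) ≠ 0 := by positivity
    push_cast
    field_simp
    norm_num
  set m := mom ε (2 * r)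
  set M : ℝ := 2 ^ n with hM
  have hM2 : 2 ≤ M := by
    calc (2 : ℝ) = 2 ^ 1 := by norm_num
      _ ≤ 2 ^ n := pow_le_pow_right₀ (by norm_num) hn
  have hK0 : (0 : ℝ) < K := by exact_mod_cast hK
  have h4m : 4 ^ r * m ≤ 1 / M ^ (4 * K + 13) := by
    calc 4 ^ r * m ≤ 4 ^ r * (1 / 8) ^ r := by gcongr
      _ = (1 / 2) ^ r := by rw [← mul_pow]; norm_num
      _ = _ := by rw [hM, ← pow_mul, hr, mul_comm n, one_div, inv_pow, one_div]
  have hMm : M * m ≤ 1 := by
    have h1 : m ≤ 4 ^ r * m := le_mul_of_one_le_left hm0 (one_le_pow₀ (by norm_num))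
    have h2 : 1 / M ^ (4 * K + 13) ≤ 1 / M := by
      refine one_div_le_one_div_of_le (by positivity) ?_
      exact le_self_pow₀ (by linarith) (by omega)
    have h3 : m ≤ 1 / M := h1.trans (h4m.trans h2)
    rwa [le_div_iff₀ (by positivity), mul_comm] at h3
  have he : (1 + m) ^ (2 ^ n) ≤ 3 := by
    calc (1 + m) ^ (2 ^ n) ≤ Real.exp m ^ (2 ^ n) := by
          gcongr
          linarith [Real.add_one_le_exp m]
      _ = Real.exp (M * m) := by rw [← Real.exp_nat_mul]; push_cast; rfl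
      _ ≤ Real.exp 1 := Real.exp_le_exp.mpr hMm
      _ ≤ 3 := by linarith [Real.exp_one_lt_d9]
  have hKM : 432 * (K : ℝ) ^ 2 ≤ M ^ (2 * K + 10) := by
    have h1 : (K : ℝ) ≤ 2 ^ K := by exact_mod_cast (Nat.lt_two_pow_self (n := K)).le
    calc 432 * (K : ℝ) ^ 2 ≤ 1024 * (2 ^ K) ^ 2 := by gcongr; norm_num
      _ = 2 ^ (2 * K + 10) := by ring
      _ ≤ M ^ (2 * K + 10) := by gcongr
  have h1 : 1 / (36 * K * M ^ (K + 1)) * (2 * K * (1 + m) ^ (2 ^ n)) ≤ 1 / (6 * M ^ (K + 1)) := by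
    calc 1 / (36 * K * M ^ (K + 1)) * (2 * K * (1 + m) ^ (2 ^ n))
        ≤ 1 / (36 * K * M ^ (K + 1)) * (2 * K * 3) := by gcongr
      _ = _ := by field_simp; norm_num
  have h2 : 36 * K * M ^ (K + 1) * (2 * K * (M * (4 ^ r * m))) ≤ 1 / (6 * M ^ (K + 1)) := by
    calc 36 * K * M ^ (K + 1) * (2 * K * (M * (4 ^ r * m)))
        ≤ 36 * K * M ^ (K + 1) * (2 * K * (M * (1 / M ^ (4 * K + 13)))) := by gcongr
      _ = (432 * (K : ℝ) ^ 2) / M ^ (2 * K + 10) * (1 / (6 * M ^ (K + 1))) := by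
          field_simp; ring
      _ ≤ 1 * (1 / (6 * M ^ (K + 1))) := by
          gcongr
          rwa [div_le_one (by positivity)]
      _ = _ := one_mul _
  refine (add_le_add h1 h2).trans (le_of_eq ?_)
  field_simp; norm_num

end Crest.Agent.R350
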